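import Crest.Agent.R278.PointChart

/-!
Row 278 (S0421): the affine chart and the chart at infinity, from polynomial facts.
-/

set_option autoImplicit false

namespace Crest.Agent.R278

open MvPolynomial

section General

variable {F : Type} [Field F] [Algebra ℂ F]

/-- a chart on which everything is unramified -/
def unramChart {N : ℕ} {w₁ w₂ : F} {V₁ V₂ : Derivation ℂ F F} {r₁ r₂ : F} (hN : 0 < N)
    (p q h e z u₁ u₂ l P A₁ B₁ A₂ B₂ : F) (c : ℂ) (hc : RatCoord ℂ F p q)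
    (hz : z ∈ polyRing ℂ p q) (hu₁ : u₁ ∈ polyRing ℂ p q) (hu₂ : u₂ ∈ polyRing ℂ p q)
    (hl : l ∈ polyRing ℂ p q) (hP : P ∈ polyRing ℂ p q)
    (hA₁ : A₁ ∈ polyRing ℂ p q) (hB₁ : B₁ ∈ polyRing ℂ p q)
    (hA₂ : A₂ ∈ polyRing ℂ p q) (hB₂ : B₂ ∈ polyRing ℂ p q)
    (hz0 : z ≠ 0) (hu₁0 : u₁ ≠ 0) (hu₂0 : u₂ ≠ 0) (hl0 : l ≠ 0) (hP0 : P ≠ 0) (he : e ≠ 0)
    (hc0 : c ≠ 0) (hh : h = z * u₁ * u₂ * l ^ 3 * P)
    (hw₁ : e ^ N * w₁ = P / u₁) (hw₂ : e ^ N * w₂ = P / u₂)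
    (h1p : r₁ * V₁ p / e = A₁ / l) (h1q : r₁ * V₁ q / e = B₁ / l)
    (h2p : r₂ * V₂ p / e = A₂ / l) (h2q : r₂ * V₂ q / e = B₂ / l)
    (hM : r₁ * r₂ * (V₁ p * V₂ q - V₁ q * V₂ p) / (e * e) =
      algebraMap ℂ F c * P * z / l ^ 2) : ChartData N w₁ w₂ V₁ V₂ r₁ r₂ :=
  have h0 : h ≠ 0 := by
    rw [hh]
    exact mul_ne_zero (mul_ne_zero (mul_ne_zero (mul_ne_zero hz0 hu₁0) hu₂0)
      (pow_ne_zero _ hl0)) hP0
  have hR : ∀ {f : F}, f ∈ polyRing ℂ p q → f ∈ chartRing ℂ p q h :=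
    fun hf => polyRing_le_chartRing _ _ _ hf
  have hzi : z⁻¹ ∈ chartRing ℂ p q h := inv_mem_of_mul_eq
    (mul_mem (mul_mem (mul_mem hu₁ hu₂) (pow_mem hl 3)) hP) h0 (by rw [hh]; ring)
  have hu₁i : u₁⁻¹ ∈ chartRing ℂ p q h := inv_mem_of_mul_eq
    (mul_mem (mul_mem (mul_mem hz hu₂) (pow_mem hl 3)) hP) h0 (by rw [hh]; ring)
  have hu₂i : u₂⁻¹ ∈ chartRing ℂ p q h := inv_mem_of_mul_eq
    (mul_mem (mul_mem (mul_mem hz hu₁) (pow_mem hl 3)) hP) h0 (by rw [hh]; ring)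
  have hli : l⁻¹ ∈ chartRing ℂ p q h := inv_mem_of_mul_eq
    (mul_mem (mul_mem (mul_mem (mul_mem hz hu₁) hu₂) (pow_mem hl 2)) hP) h0 (by rw [hh]; ring)
  have hPi : P⁻¹ ∈ chartRing ℂ p q h := inv_mem_of_mul_eq
    (mul_mem (mul_mem (mul_mem hz hu₁) hu₂) (pow_mem hl 3)) h0 (by rw [hh]; ring)
  have hci : (algebraMap ℂ F c) ≠ 0 := by rwa [Ne, map_eq_zero]
  { p := p
    q := q
    h := h
    hc := hc
    hh := by
      rw [hh]
      exact mul_mem (mul_mem (mul_mem (mul_mem hz hu₁) hu₂) (pow_mem hl 3)) hP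
    h0 := h0
    e₁ := e
    e₂ := e
    ω₁ := P / u₁
    ω₂ := P / u₂
    ρ₁ := 0
    ρ₂ := 0
    he₁ := he
    he₂ := he
    hω₁ := by rw [div_eq_mul_inv]; exact mul_mem (hR hP) hu₁i
    hω₁' := by rw [inv_div, div_eq_mul_inv]; exact mul_mem (hR hu₁) hPi
    hω₂ := by rw [div_eq_mul_inv]; exact mul_mem (hR hP) hu₂i
    hω₂' := by rw [inv_div, div_eq_mul_inv]; exact mul_mem (hR hu₂) hPi
    hω₁0 := div_ne_zero hP0 hu₁0
    hω₂0 := div_ne_zero hP0 hu₂0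
    hw₁ := by rw [hw₁, zpow_zero, one_mul]
    hw₂ := by rw [hw₂, zpow_zero, one_mul]
    hd := Or.inl ⟨rfl, rfl⟩
    d := N
    hd0 := hN
    hdN := dvd_refl _
    hd₁ := dvd_zero _
    hd₂ := dvd_zero _
    hπ := ⟨1, ⟨0, hN⟩, ⟨0, hN⟩, by ring⟩
    i₁ := 0
    j₁ := 0
    i₂ := 0
    j₂ := 0
    k := 0
    h1p := by
      rw [zpow_zero, div_one, h1p, div_eq_mul_inv]; exact mul_mem (hR hA₁) hli
    h1q := by
      rw [zpow_zero, div_one, h1q, div_eq_mul_inv]; exact mul_mem (hR hB₁) hli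
    h2p := by
      rw [zpow_zero, div_one, h2p, div_eq_mul_inv]; exact mul_mem (hR hA₂) hli
    h2q := by
      rw [zpow_zero, div_one, h2q, div_eq_mul_inv]; exact mul_mem (hR hB₂) hli
    hi₁ := by ring_nf; exact le_refl _
    hj₁ := by ring_nf; exact le_refl _
    hi₂ := by ring_nf; exact le_refl _
    hj₂ := by ring_nf; exact le_refl _
    hM0 := by
      intro h1
      rw [h1, zero_div] at hM
      exact div_ne_zero (mul_ne_zero (mul_ne_zero hci hP0) hz0) (pow_ne_zero 2 hl0) hM.symm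
    hM := by
      rw [zpow_zero, div_one, hM, div_eq_mul_inv, ← inv_pow]
      exact mul_mem (mul_mem (mul_mem (Subalgebra.algebraMap_mem _ _) (hR hP)) (hR hz))
        (pow_mem hli 2)
    hM' := by
      rw [zpow_zero, div_one, hM, inv_div, div_eq_mul_inv, mul_inv, mul_inv, ← map_inv₀]
      exact mul_mem (pow_mem (hR hl) 2)
        (mul_mem (mul_mem (Subalgebra.algebraMap_mem _ _) hPi) hzi)
    hk := by ring }

/-- homogenization at infinity -/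
theorem hom_mem {x y : F} (hx : x ≠ 0) {f : MvPolynomial (Fin 2) ℂ} {n : ℕ}
    (hf : f.totalDegree ≤ n) : aeval ![x, y] f / x ^ n ∈ polyRing ℂ x⁻¹ (y / x) := by
  rw [aeval_def, eval₂_eq', Finset.sum_div]
  refine Subalgebra.sum_mem _ fun s hs => ?_
  rw [Fin.prod_univ_two]
  simp only [Matrix.cons_val_zero, Matrix.cons_val_one]
  have h3 := (le_totalDegree hs).trans hf
  have h6 : (s.sum fun _ e => e) = s 0 + s 1 := by
    rw [Finsupp.sum_fintype _ _ (fun _ => rfl), Fin.sum_univ_two]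
  rw [h6] at h3
  have h4 : algebraMap ℂ F (coeff s f) * (x ^ s 0 * y ^ s 1) / x ^ n =
      algebraMap ℂ F (coeff s f) * (x⁻¹ ^ (n - s 0 - s 1) * (y / x) ^ s 1) := by
    obtain ⟨k, rfl⟩ := Nat.exists_eq_add_of_le h3
    have h5 : s 0 + s 1 + k - s 0 - s 1 = k := by omega
    rw [h5, div_pow, inv_pow, pow_add, pow_add]
    field_simp
  rw [h4]
  refine mul_mem (Subalgebra.algebraMap_mem _ _) (mul_mem (pow_mem ?_ _) (pow_mem ?_ _))
  · exact Algebra.subset_adjoin (by simp)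
  · exact Algebra.subset_adjoin (by simp)

end General

/-- Degree facts at infinity. -/
structure InfFacts (N : ℕ) (S : VFData) where
  dz : ℕ
  d₁ : ℕ
  d₂ : ℕ
  de : ℕ
  ε : ℕ
  hz : S.z.totalDegree ≤ dz
  hw₁ : S.w₁.totalDegree ≤ d₁
  hw₂ : S.w₂.totalDegree ≤ d₂
  he : S.ell.totalDegree ≤ de
  hα₁ : S.α₁.totalDegree ≤ de + ε + 2
  hγ₁ : (X 0 * S.β₁ - X 1 * S.α₁).totalDegree ≤ de + ε + 2
  hα₂ : S.α₂.totalDegree ≤ de + ε + 2
  hγ₂ : (X 0 * S.β₂ - X 1 * S.α₂).totalDegree ≤ de + ε + 2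
  hd₁ : N * ε + S.r = d₁
  hd₂ : N * ε + S.r = d₂
  hk : S.r + dz = 3 + 2 * de + 2 * ε

section Charts

variable (F : Type) [Field F] [Algebra ℂ F] [Algebra (MvPolynomial (Fin 2) ℂ) F]
  [IsScalarTower ℂ (MvPolynomial (Fin 2) ℂ) F]

theorem φF_eq_aeval (f : MvPolynomial (Fin 2) ℂ) : φF F f = aeval ![xF F, yF F] f := by
  have h1 : (aeval ![xF F, yF F] : MvPolynomial (Fin 2) ℂ →ₐ[ℂ] F) =
      IsScalarTower.toAlgHom ℂ (MvPolynomial (Fin 2) ℂ) F := by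
    apply MvPolynomial.algHom_ext
    intro i
    fin_cases i
    · simp
    · simp
  exact (DFunLike.congr_fun h1 f).symm

omit [Algebra ℂ F] [IsScalarTower ℂ (MvPolynomial (Fin 2) ℂ) F] in
theorem φF_neg (f : MvPolynomial (Fin 2) ℂ) : φF F (-f) = - φF F f := map_neg _ _

omit [Algebra ℂ F] [IsScalarTower ℂ (MvPolynomial (Fin 2) ℂ) F] in
theorem φF_γ (f g : MvPolynomial (Fin 2) ℂ) :
    φF F (X 0 * f - X 1 * g) = xF F * φF F f - yF F * φF F g := by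
  simp only [φF, map_sub, map_mul]

theorem φF_mem (f : MvPolynomial (Fin 2) ℂ) : φF F f ∈ polyRing ℂ (xF F) (yF F) := by
  rw [φF_eq_aeval]; exact aeval_mem_polyRing_pc _ _ f

theorem φF_hom_mem (hx : xF F ≠ 0) {f : MvPolynomial (Fin 2) ℂ} {n : ℕ}
    (hf : f.totalDegree ≤ n) :
    φF F f / xF F ^ n ∈ polyRing ℂ (xF F)⁻¹ (yF F / xF F) := by
  rw [φF_eq_aeval]; exact hom_mem hx hf

variable [IsFractionRing (MvPolynomial (Fin 2) ℂ) F]

namespace VFData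

variable (S : VFData)

/-- **The affine chart.** -/
noncomputable def affChart {N : ℕ} (hN : 0 < N) :
    ChartData N (S.W₁ F) (S.W₂ F) (S.V₁ F) (S.V₂ F) (S.R F) (S.R F) :=
  unramChart hN (xF F) (yF F) (S.Θ F * S.P F) 1
    (φF F S.z) (φF F S.w₁) (φF F S.w₂) (φF F S.ell) (S.P F) (φF F S.α₁) (φF F S.β₁)
    (φF F S.α₂) (φF F S.β₂) S.c RatCoord.coord (φF_mem F _) (φF_mem F _) (φF_mem F _)
    (φF_mem F _) (by rw [← S.φF_prod F]; exact φF_mem F _) (φF_mem F _) (φF_mem F _)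
    (φF_mem F _) (φF_mem F _) (φF_ne F S.z_ne) (φF_ne F S.w₁_ne) (φF_ne F S.w₂_ne)
    (φF_ne F S.ell_ne) (S.P_ne F) one_ne_zero S.c_ne rfl
    (by rw [one_pow, one_mul]; rfl) (by rw [one_pow, one_mul]; rfl)
    (by rw [div_one, S.V₁_x, R]; ring) (by rw [div_one, S.V₁_y, R]; ring)
    (by rw [div_one, S.V₂_x, R]; ring) (by rw [div_one, S.V₂_y, R]; ring)
    (by
      rw [S.V₁_x, S.V₁_y, S.V₂_x, S.V₂_y, ← S.wedgeF F, R]
      ring)

theorem affChart_p {N : ℕ} (hN : 0 < N) : (S.affChart F hN).p = xF F := rfl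
theorem affChart_q {N : ℕ} (hN : 0 < N) : (S.affChart F hN).q = yF F := rfl
theorem affChart_h {N : ℕ} (hN : 0 < N) : (S.affChart F hN).h = S.Θ F * S.P F := rfl

theorem x_ne : xF F ≠ 0 := (RatCoord.coord (k := ℂ) (F := F)).left_ne_zero

/-- `∏ (1 - a_i / x)` -/
noncomputable def Pinf : F := ∏ i, (1 - algebraMap ℂ F (S.a i) / xF F)

theorem Pinf_eq : S.Pinf F = S.P F / xF F ^ S.r := by
  have hx := x_ne F
  have h1 : xF F ^ S.r = ∏ _i : Fin S.r, xF F := by simp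
  rw [Pinf, P, h1, ← Finset.prod_div_distrib]
  refine Finset.prod_congr rfl fun i _ => ?_
  rw [Xi]
  field_simp

omit [IsScalarTower ℂ (MvPolynomial (Fin 2) ℂ) F]
  [IsFractionRing (MvPolynomial (Fin 2) ℂ) F] in
theorem Pinf_mem : S.Pinf F ∈ polyRing ℂ (xF F)⁻¹ (yF F / xF F) := by
  refine prod_mem fun i _ => ?_
  rw [div_eq_mul_inv (algebraMap ℂ F (S.a i))]
  exact sub_mem (one_mem _) (mul_mem (Subalgebra.algebraMap_mem _ _)
    (Algebra.subset_adjoin (Or.inl rfl)))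

omit [IsScalarTower ℂ (MvPolynomial (Fin 2) ℂ) F]
  [IsFractionRing (MvPolynomial (Fin 2) ℂ) F] in
theorem der_inv_x (V : Derivation ℂ F F) : V (xF F)⁻¹ = - V (xF F) / xF F ^ 2 := by
  rw [Derivation.leibniz_inv, smul_eq_mul]
  field_simp

theorem der_y_div_x (V : Derivation ℂ F F) : V (yF F / xF F) =
    (xF F * V (yF F) - yF F * V (xF F)) / xF F ^ 2 := by
  have hx := x_ne F
  rw [V.leibniz_div]
  simp only [smul_eq_mul]
  field_simp

end VFData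

namespace InfFacts

variable {N : ℕ} {S : VFData} (T : InfFacts N S)

/-- the total degree of `Θ` -/
def D : ℕ := T.dz + T.d₁ + T.d₂ + 3 * T.de

/-- **The chart at infinity.** -/
noncomputable def infChart (hN : 0 < N) :
    ChartData N (S.W₁ F) (S.W₂ F) (S.V₁ F) (S.V₂ F) (S.R F) (S.R F) :=
  have hx : xF F ≠ 0 := VFData.x_ne F
  have hz0 := VFData.φF_ne F S.z_ne
  have hw₁0 := VFData.φF_ne F S.w₁_ne
  have hw₂0 := VFData.φF_ne F S.w₂_ne
  have he0 := VFData.φF_ne F S.ell_ne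
  have hP0 := S.P_ne F
  have hP := S.Pinf_eq F
  unramChart hN (xF F)⁻¹ (yF F / xF F)
    (S.Θ F / xF F ^ T.D * ∏ i, (1 - algebraMap ℂ F (S.a i) / xF F)) (xF F ^ T.ε)
    (φF F S.z / xF F ^ T.dz) (φF F S.w₁ / xF F ^ T.d₁) (φF F S.w₂ / xF F ^ T.d₂)
    (φF F S.ell / xF F ^ T.de) (S.Pinf F)
    (φF F (-S.α₁) / xF F ^ (T.de + T.ε + 2))
    (φF F (X 0 * S.β₁ - X 1 * S.α₁) / xF F ^ (T.de + T.ε + 2))
    (φF F (-S.α₂) / xF F ^ (T.de + T.ε + 2))
    (φF F (X 0 * S.β₂ - X 1 * S.α₂) / xF F ^ (T.de + T.ε + 2)) (-S.c)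
    (by rw [← one_div]; exact RatCoord.coord.infty) (φF_hom_mem F hx T.hz)
    (φF_hom_mem F hx T.hw₁) (φF_hom_mem F hx T.hw₂)
    (φF_hom_mem F hx T.he) (S.Pinf_mem F)
    (φF_hom_mem F hx (by rw [totalDegree_neg]; exact T.hα₁)) (φF_hom_mem F hx T.hγ₁)
    (φF_hom_mem F hx (by rw [totalDegree_neg]; exact T.hα₂)) (φF_hom_mem F hx T.hγ₂)
    (div_ne_zero hz0 (pow_ne_zero _ hx))
    (div_ne_zero hw₁0 (pow_ne_zero _ hx))
    (div_ne_zero hw₂0 (pow_ne_zero _ hx))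
    (div_ne_zero he0 (pow_ne_zero _ hx))
    (by rw [hP]; exact div_ne_zero hP0 (pow_ne_zero _ hx))
    (pow_ne_zero _ hx) (neg_ne_zero.2 S.c_ne)
    (by
      change S.Θ F / xF F ^ T.D * S.Pinf F = _
      rw [VFData.Θ, D, pow_add, pow_add, pow_add, pow_mul']
      field_simp)
    (by
      rw [hP, VFData.W₁, ← T.hd₁, pow_add, pow_mul']
      field_simp)
    (by
      rw [hP, VFData.W₂, ← T.hd₂, pow_add, pow_mul']
      field_simp)
    (by
      rw [VFData.der_inv_x, S.V₁_x, φF_neg, VFData.R, pow_add, pow_add]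
      field_simp)
    (by
      rw [VFData.der_y_div_x, S.V₁_x, S.V₁_y, φF_γ, VFData.R, pow_add, pow_add]
      field_simp)
    (by
      rw [VFData.der_inv_x, S.V₂_x, φF_neg, VFData.R, pow_add, pow_add]
      field_simp)
    (by
      rw [VFData.der_y_div_x, S.V₂_x, S.V₂_y, φF_γ, VFData.R, pow_add, pow_add]
      field_simp)
    (by
      have h1 := S.wedgeF F
      have h2 : xF F ^ S.r * xF F ^ T.dz =
          xF F ^ 3 * (xF F ^ T.de * xF F ^ T.de) * (xF F ^ T.ε * xF F ^ T.ε) := by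
        rw [← pow_add, T.hk]
        ring
      rw [VFData.der_inv_x, VFData.der_inv_x, VFData.der_y_div_x, VFData.der_y_div_x, S.V₁_x,
        S.V₁_y, S.V₂_x, S.V₂_y, map_neg, hP, VFData.R]
      have h3 : (φF F S.ell)⁻¹ * (φF F S.ell)⁻¹ *
          (-φF F S.α₁ / xF F ^ 2 * ((xF F * φF F S.β₂ - yF F * φF F S.α₂) / xF F ^ 2) -
          (xF F * φF F S.β₁ - yF F * φF F S.α₁) / xF F ^ 2 * (-φF F S.α₂ / xF F ^ 2)) /
          (xF F ^ T.ε * xF F ^ T.ε) =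
          -(φF F S.α₁ * φF F S.β₂ - φF F S.α₂ * φF F S.β₁) /
          (φF F S.ell ^ 2 * (xF F ^ 3 * (xF F ^ T.ε * xF F ^ T.ε))) := by
        field_simp
        ring
      rw [h3, h1]
      have h4 : -algebraMap ℂ F S.c * (S.P F / xF F ^ S.r) * (φF F S.z / xF F ^ T.dz) /
          (φF F S.ell / xF F ^ T.de) ^ 2 =
          -(algebraMap ℂ F S.c * S.P F * φF F S.z) * (xF F ^ T.de * xF F ^ T.de) /
          (φF F S.ell ^ 2 * (xF F ^ S.r * xF F ^ T.dz)) := by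
        field_simp
      rw [h4, h2]
      field_simp)

theorem infChart_p (hN : 0 < N) : (T.infChart F hN).p = (xF F)⁻¹ := rfl
theorem infChart_q (hN : 0 < N) : (T.infChart F hN).q = yF F / xF F := rfl
theorem infChart_h (hN : 0 < N) : (T.infChart F hN).h =
    S.Θ F / xF F ^ T.D * ∏ i, (1 - algebraMap ℂ F (S.a i) / xF F) := rfl

end InfFacts

end Charts

end Crest.Agent.R278
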