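/-
Row 278: kernel-fast certificates for identities between integer polynomials in two variables
(Kronecker substitution).  An expression `e : PE` built from coefficient lists, `x`, `y`, integers,
`+ - * ^` vanishes identically as soon as its value at `x = 2^k`, `y = 2^(k d)` is `0`, where
`norm e < 2^k` and `degX e < d`.
-/
import Mathlib

set_option autoImplicit false

namespace Crest.Agent.R278.PolyCert

open Polynomial

/-! ### semantics -/

/-- value of a coefficient list (`[a0, a1, ...]` is `a0 + a1 x + ...`) -/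
def ev1 {R : Type*} [CommRing R] (x : R) : List ℤ → R
  | [] => 0
  | a :: l => (a : R) + x * ev1 x l

/-- value of a double coefficient list; the entries of the outer list are the coefficients of the
powers of `y`, they are coefficient lists in `x` -/
def ev2 {R : Type*} [CommRing R] (x y : R) : List (List ℤ) → R
  | [] => 0
  | a :: l => ev1 x a + y * ev2 x y l

/-- polynomial expressions in two variables -/
inductive PE where
  | lit (l : List (List ℤ))
  | x
  | y
  | int (n : ℤ)
  | add (a b : PE)
  | sub (a b : PE)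
  | mul (a b : PE)
  | pow (a : PE) (n : ℕ)

namespace PE

/-- value in a commutative ring -/
def eval {R : Type*} [CommRing R] (u v : R) : PE → R
  | lit l => ev2 u v l
  | x => u
  | y => v
  | int n => (n : R)
  | add a b => eval u v a + eval u v b
  | sub a b => eval u v a - eval u v b
  | mul a b => eval u v a * eval u v b
  | pow a n => eval u v a ^ n

end PE

/-! ### ring homomorphisms -/

theorem map_ev1 {R S : Type*} [CommRing R] [CommRing S] (f : R →+* S) (x : R) (l : List ℤ) :
    f (ev1 x l) = ev1 (f x) l := by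
  induction l with
  | nil => simp [ev1]
  | cons a l ih => simp [ev1, ih]

theorem map_ev2 {R S : Type*} [CommRing R] [CommRing S] (f : R →+* S) (x y : R)
    (l : List (List ℤ)) : f (ev2 x y l) = ev2 (f x) (f y) l := by
  induction l with
  | nil => simp [ev2]
  | cons a l ih => simp [ev2, ih, map_ev1]

theorem PE.map_eval {R S : Type*} [CommRing R] [CommRing S] (f : R →+* S) (u v : R) (e : PE) :
    f (e.eval u v) = e.eval (f u) (f v) := by
  induction e with
  | lit l => exact map_ev2 f u v l
  | x => rfl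
  | y => rfl
  | int n => simp [PE.eval]
  | add a b iha ihb => simp [PE.eval, iha, ihb]
  | sub a b iha ihb => simp [PE.eval, iha, ihb]
  | mul a b iha ihb => simp [PE.eval, iha, ihb]
  | pow a n iha => simp [PE.eval, iha]

/-! ### bounds -/

/-- `ℓ¹` norm of a coefficient list -/
def nrm1 : List ℤ → ℕ
  | [] => 0
  | a :: l => a.natAbs + nrm1 l

def nrm2 : List (List ℤ) → ℕ
  | [] => 0
  | a :: l => nrm1 a + nrm2 l

def len2 : List (List ℤ) → ℕ
  | [] => 0
  | a :: l => max a.length (len2 l)

namespace PE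

/-- bound for the `ℓ¹` norm -/
def norm : PE → ℕ
  | lit l => nrm2 l
  | x => 1
  | y => 1
  | int n => n.natAbs
  | add a b => norm a + norm b
  | sub a b => norm a + norm b
  | mul a b => norm a * norm b
  | pow a n => norm a ^ n

/-- bound for the degree in `x` -/
def degX : PE → ℕ
  | lit l => len2 l
  | x => 1
  | y => 0
  | int _ => 0
  | add a b => max (degX a) (degX b)
  | sub a b => max (degX a) (degX b)
  | mul a b => degX a + degX b
  | pow a n => n * degX a

end PE

/-! ### majorants -/

/-- `p` has a coefficientwise majorant with value `n` at `1` -/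
def Maj (p : ℤ[X]) (n : ℕ) : Prop :=
  ∃ q : ℕ[X], (∀ i, (p.coeff i).natAbs ≤ q.coeff i) ∧ q.eval 1 = n

theorem Maj.coeff_le {p : ℤ[X]} {n : ℕ} (h : Maj p n) (i : ℕ) : (p.coeff i).natAbs ≤ n := by
  obtain ⟨q, hq, rfl⟩ := h
  refine (hq i).trans ?_
  rw [eval_eq_sum_range]
  simp only [one_pow, mul_one]
  by_cases hi : i ≤ q.natDegree
  · exact Finset.single_le_sum (f := fun i => q.coeff i) (fun _ _ => Nat.zero_le _)
      (Finset.mem_range.mpr (Nat.lt_succ_of_le hi))
  · rw [coeff_eq_zero_of_natDegree_lt (not_le.mp hi)]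
    exact Nat.zero_le _

theorem Maj.zero : Maj 0 0 := ⟨0, fun i => by simp, by simp⟩

theorem Maj.int (n : ℤ) : Maj (n : ℤ[X]) n.natAbs := by
  refine ⟨C n.natAbs, fun i => ?_, by simp⟩
  have h1 : (n : ℤ[X]) = C n := by simp
  rw [h1, coeff_C, coeff_C]
  split_ifs <;> simp

theorem Maj.X_pow (d : ℕ) : Maj (X ^ d : ℤ[X]) 1 := by
  refine ⟨X ^ d, fun i => ?_, by simp⟩
  rw [coeff_X_pow, coeff_X_pow]
  split_ifs <;> simp

theorem Maj.add {p q : ℤ[X]} {m n : ℕ} (hp : Maj p m) (hq : Maj q n) : Maj (p + q) (m + n) := by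
  obtain ⟨a, ha, rfl⟩ := hp
  obtain ⟨b, hb, rfl⟩ := hq
  refine ⟨a + b, fun i => ?_, by simp⟩
  rw [coeff_add, coeff_add]
  exact (Int.natAbs_add_le _ _).trans (Nat.add_le_add (ha i) (hb i))

theorem Maj.neg {p : ℤ[X]} {m : ℕ} (hp : Maj p m) : Maj (-p) m := by
  obtain ⟨a, ha, rfl⟩ := hp
  refine ⟨a, fun i => ?_, rfl⟩
  rw [coeff_neg, Int.natAbs_neg]
  exact ha i

theorem Maj.sub {p q : ℤ[X]} {m n : ℕ} (hp : Maj p m) (hq : Maj q n) : Maj (p - q) (m + n) := by
  rw [sub_eq_add_neg]
  exact hp.add hq.neg

theorem natAbs_sum_le {α : Type*} (s : Finset α) (f : α → ℤ) :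
    (∑ i ∈ s, f i).natAbs ≤ ∑ i ∈ s, (f i).natAbs := by
  classical
  induction s using Finset.induction_on with
  | empty => simp
  | insert a s ha ih =>
    rw [Finset.sum_insert ha, Finset.sum_insert ha]
    exact (Int.natAbs_add_le _ _).trans (Nat.add_le_add_left ih _)

theorem Maj.mul {p q : ℤ[X]} {m n : ℕ} (hp : Maj p m) (hq : Maj q n) : Maj (p * q) (m * n) := by
  obtain ⟨a, ha, rfl⟩ := hp
  obtain ⟨b, hb, rfl⟩ := hq
  refine ⟨a * b, fun i => ?_, by simp⟩
  rw [coeff_mul, coeff_mul]
  refine (natAbs_sum_le _ _).trans (Finset.sum_le_sum fun ij _ => ?_)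
  rw [Int.natAbs_mul]
  exact Nat.mul_le_mul (ha _) (hb _)

theorem Maj.pow {p : ℤ[X]} {m : ℕ} (hp : Maj p m) (n : ℕ) : Maj (p ^ n) (m ^ n) := by
  induction n with
  | zero => simpa using Maj.int 1
  | succ n ih => rw [pow_succ, pow_succ]; exact ih.mul hp

theorem Maj.ev1 (l : List ℤ) : Maj (ev1 (X : ℤ[X]) l) (nrm1 l) := by
  induction l with
  | nil => exact Maj.zero
  | cons a l ih =>
    have h := (Maj.int a).add ((Maj.X_pow 1).mul ih)
    simpa [PolyCert.ev1, nrm1] using h

theorem Maj.ev2 (d : ℕ) (l : List (List ℤ)) : Maj (ev2 (X : ℤ[X]) (X ^ d) l) (nrm2 l) := by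
  induction l with
  | nil => exact Maj.zero
  | cons a l ih =>
    have h := (Maj.ev1 a).add ((Maj.X_pow d).mul ih)
    simpa [PolyCert.ev2, nrm2] using h

theorem PE.maj (d : ℕ) (e : PE) : Maj (e.eval (X : ℤ[X]) (X ^ d)) e.norm := by
  induction e with
  | lit l => exact Maj.ev2 d l
  | x =>
    have h := Maj.X_pow 1
    rw [pow_one] at h
    exact h
  | y => exact Maj.X_pow d
  | int n => exact Maj.int n
  | add a b iha ihb => exact iha.add ihb
  | sub a b iha ihb => exact iha.sub ihb
  | mul a b iha ihb => exact iha.mul ihb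
  | pow a n iha => exact iha.pow n

/-! ### degrees in `x` -/

/-- all coefficients (polynomials in `x`) have degree at most `n` -/
def DegX (F : ℤ[X][X]) (n : ℕ) : Prop := ∀ j, (F.coeff j).natDegree ≤ n

theorem DegX.mono {F : ℤ[X][X]} {m n : ℕ} (h : DegX F m) (hmn : m ≤ n) : DegX F n :=
  fun j => (h j).trans hmn

theorem DegX.add {F G : ℤ[X][X]} {m n : ℕ} (hF : DegX F m) (hG : DegX G n) :
    DegX (F + G) (max m n) := fun j => by
  rw [coeff_add]
  exact (natDegree_add_le _ _).trans (max_le_max (hF j) (hG j))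

theorem DegX.sub {F G : ℤ[X][X]} {m n : ℕ} (hF : DegX F m) (hG : DegX G n) :
    DegX (F - G) (max m n) := fun j => by
  rw [coeff_sub]
  exact (natDegree_sub_le _ _).trans (max_le_max (hF j) (hG j))

theorem DegX.mul {F G : ℤ[X][X]} {m n : ℕ} (hF : DegX F m) (hG : DegX G n) :
    DegX (F * G) (m + n) := fun j => by
  rw [coeff_mul]
  refine natDegree_sum_le_of_forall_le _ _ fun ij _ => ?_
  exact (natDegree_mul_le).trans (Nat.add_le_add (hF _) (hG _))

theorem DegX.C {p : ℤ[X]} {n : ℕ} (hp : p.natDegree ≤ n) : DegX (C p) n := fun j => by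
  rw [coeff_C]
  split_ifs
  · exact hp
  · simp

theorem DegX.pow {F : ℤ[X][X]} {m : ℕ} (hF : DegX F m) (n : ℕ) : DegX (F ^ n) (n * m) := by
  induction n with
  | zero =>
    rw [pow_zero, zero_mul]
    have : (1 : ℤ[X][X]) = Polynomial.C 1 := by simp
    rw [this]
    exact DegX.C (by simp)
  | succ n ih =>
    rw [pow_succ, add_mul, one_mul]
    exact ih.mul hF

theorem DegX.Y : DegX (X : ℤ[X][X]) 0 := fun j => by
  rw [coeff_X]
  split_ifs <;> simp

theorem ev1_C (l : List ℤ) : ev1 (C X : ℤ[X][X]) l = C (ev1 (X : ℤ[X]) l) :=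
  (map_ev1 (Polynomial.C : ℤ[X] →+* ℤ[X][X]) X l).symm

theorem natDegree_ev1 (l : List ℤ) : (ev1 (X : ℤ[X]) l).natDegree ≤ l.length := by
  induction l with
  | nil => simp [ev1]
  | cons a l ih =>
    rw [ev1, List.length_cons]
    refine (natDegree_add_le _ _).trans (max_le ?_ ?_)
    · simp
    · refine natDegree_mul_le.trans ?_
      have := natDegree_X_le (R := ℤ)
      omega

theorem degX_ev2 (l : List (List ℤ)) : DegX (ev2 (C X : ℤ[X][X]) X l) (len2 l) := by
  induction l with
  | nil =>
    intro j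
    simp [PolyCert.ev2]
  | cons a l ih =>
    rw [PolyCert.ev2, len2]
    apply DegX.add
    · rw [ev1_C]
      exact DegX.C (natDegree_ev1 a)
    · have := DegX.Y.mul ih
      rwa [zero_add] at this

theorem PE.degX_le (e : PE) : DegX (e.eval (C X : ℤ[X][X]) X) e.degX := by
  induction e with
  | lit l => exact degX_ev2 l
  | x => exact DegX.C natDegree_X_le
  | y => exact DegX.Y
  | int n =>
    have h1 : ((n : ℤ) : ℤ[X][X]) = C (n : ℤ[X]) := by simp
    show DegX ((n : ℤ) : ℤ[X][X]) 0
    rw [h1]
    exact DegX.C (by simp)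
  | add a b iha ihb => exact iha.add ihb
  | sub a b iha ihb => exact iha.sub ihb
  | mul a b iha ihb => exact iha.mul ihb
  | pow a n iha => exact iha.pow n

/-! ### Kronecker substitution is injective -/

theorem eq_zero_of_eval_eq_zero {B : ℕ} : ∀ (n : ℕ) (p : ℤ[X]), p.natDegree < n →
    (∀ i, (p.coeff i).natAbs < B) → p.eval (B : ℤ) = 0 → p = 0 := by
  intro n
  induction n with
  | zero => intro p hp; omega
  | succ n ih =>
    intro p hp hc he
    have hB : (B : ℤ) ≠ 0 := by
      have := hc 0
      have h2 : 0 < B := by omega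
      exact_mod_cast h2.ne'
    have h1 := divX_mul_X_add p
    have h0 : p.coeff 0 = 0 := by
      have h2 : p.eval (B : ℤ) = (divX p).eval (B : ℤ) * B + p.coeff 0 := by
        conv_lhs => rw [← h1]
        simp
      rw [he] at h2
      have h3 : (B : ℤ) ∣ p.coeff 0 := ⟨-(divX p).eval (B : ℤ), by linear_combination -h2⟩
      exact Int.eq_zero_of_abs_lt_dvd h3 (by
        have := hc 0
        rw [Int.abs_eq_natAbs]
        exact_mod_cast this)
    by_cases hd : p.natDegree = 0
    · rw [eq_C_of_natDegree_eq_zero hd, h0]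
      simp
    have h4 : divX p = 0 := by
      apply ih
      · rw [natDegree_divX_eq_natDegree_tsub_one]
        omega
      · intro i
        rw [coeff_divX]
        exact hc (i + 1)
      · have h2 : p.eval (B : ℤ) = (divX p).eval (B : ℤ) * B + p.coeff 0 := by
          conv_lhs => rw [← h1]
          simp
        rw [he, h0, add_zero] at h2
        exact (mul_eq_zero.mp h2.symm).resolve_right hB
    rw [← h1, h4, h0]
    simp

theorem eq_zero_of_eval_X_pow {d : ℕ} : ∀ (n : ℕ) (F : ℤ[X][X]), F.natDegree < n →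
    (∀ j, (F.coeff j).natDegree < d) → F.eval (X ^ d : ℤ[X]) = 0 → F = 0 := by
  intro n
  induction n with
  | zero => intro F hF; omega
  | succ n ih =>
    intro F hF hc he
    have hB : (X ^ d : ℤ[X]) ≠ 0 := pow_ne_zero _ X_ne_zero
    have h1 := divX_mul_X_add F
    have h2 : F.eval (X ^ d : ℤ[X]) = (divX F).eval (X ^ d : ℤ[X]) * X ^ d + F.coeff 0 := by
      conv_lhs => rw [← h1]
      simp
    have h0 : F.coeff 0 = 0 := by
      rw [he] at h2
      by_contra hne
      have h3 : F.coeff 0 = (-(divX F).eval (X ^ d : ℤ[X])) * X ^ d := by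
        linear_combination -h2
      have h4 : (-(divX F).eval (X ^ d : ℤ[X])) ≠ 0 := by
        intro h5
        rw [h5, zero_mul] at h3
        exact hne h3
      have h5 := congrArg natDegree h3
      rw [natDegree_mul h4 hB, natDegree_X_pow] at h5
      have := hc 0
      omega
    by_cases hd : F.natDegree = 0
    · rw [eq_C_of_natDegree_eq_zero hd, h0]
      simp
    have h4 : divX F = 0 := by
      apply ih
      · rw [natDegree_divX_eq_natDegree_tsub_one]
        omega
      · intro i
        rw [coeff_divX]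
        exact hc (i + 1)
      · rw [he, h0, add_zero] at h2
        exact (mul_eq_zero.mp h2.symm).resolve_right hB
    rw [← h1, h4, h0]
    simp

/-- **soundness**: value `0` at `x = 2^k`, `y = (2^k)^d` implies that the expression vanishes
identically -/
theorem PE.sound (e : PE) {k d : ℕ} (h1 : e.norm < 2 ^ k) (h2 : e.degX < d)
    (h3 : e.eval ((2 : ℤ) ^ k) (((2 : ℤ) ^ k) ^ d) = 0) {R : Type*} [CommRing R] (u v : R) :
    e.eval u v = 0 := by
  have hG : e.eval (X : ℤ[X]) (X ^ d) = 0 := by
    apply eq_zero_of_eval_eq_zero (B := 2 ^ k) _ _ (Nat.lt_succ_self _)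
    · intro i
      exact ((PE.maj d e).coeff_le i).trans_lt h1
    · have h4 := PE.map_eval (Polynomial.evalRingHom ((2 : ℤ) ^ k)) (X : ℤ[X]) (X ^ d) e
      simp only [coe_evalRingHom, eval_X, eval_pow] at h4
      push_cast
      rw [h4]
      exact h3
  have hF : e.eval (C X : ℤ[X][X]) X = 0 := by
    apply eq_zero_of_eval_X_pow (d := d) _ _ (Nat.lt_succ_self _)
    · intro j
      exact (PE.degX_le e j).trans_lt h2
    · have h4 := PE.map_eval (Polynomial.evalRingHom (X ^ d : ℤ[X])) (C X : ℤ[X][X]) X e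
      simp only [coe_evalRingHom, eval_X, eval_C] at h4
      rw [h4]
      exact hG
  have h5 := PE.map_eval (Polynomial.eval₂RingHom (Polynomial.eval₂RingHom (Int.castRingHom R) u) v)
    (C X : ℤ[X][X]) X e
  rw [hF, map_zero] at h5
  simp only [coe_eval₂RingHom, eval₂_X, eval₂_C] at h5
  exact h5.symm

/-! ### compact data: a coefficient table packed into one natural number -/

/-- zigzag decoding: even `2n ↦ n`, odd `2n+1 ↦ -(n+1)` -/
def unzig (n : ℕ) : ℤ := match Nat.mod n 2 with
  | 0 => Int.ofNat (Nat.div n 2)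
  | _ => Int.negSucc (Nat.div n 2)

/-- `n` digits in base `2^b`, lowest digit first -/
def digs (b : ℕ) : ℕ → ℕ → List ℤ
  | 0, _ => []
  | n + 1, N => unzig (Nat.mod N (2 ^ b)) :: digs b n (Nat.div N (2 ^ b))

/-- `m` rows of `w` digits in base `2^b` -/
def dec (b w : ℕ) : ℕ → ℕ → List (List ℤ)
  | 0, _ => []
  | m + 1, N => digs b w (Nat.mod N (2 ^ (b * w))) :: dec b w m (Nat.div N (2 ^ (b * w)))

/-! ### kernel evaluation with natural numbers -/

/-- positive (`s = true`) or negative part of an integer -/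
def part (s : Bool) (a : ℤ) : ℕ := match s with
  | true => a.toNat
  | false => (-a).toNat

theorem part_sub (a : ℤ) : ((part true a : ℕ) : ℤ) - (part false a : ℕ) = a := by
  unfold part
  simp only
  omega

/-- Horner evaluation of the positive / negative part of a coefficient list -/
def h1 (B : ℕ) (s : Bool) : List ℤ → ℕ
  | [] => 0
  | a :: l => part s a + B * h1 B s l

def h2 (B Y : ℕ) (s : Bool) : List (List ℤ) → ℕ
  | [] => 0
  | a :: l => h1 B s a + Y * h2 B Y s l

theorem h1_sub (B : ℕ) (l : List ℤ) :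
    ((h1 B true l : ℕ) : ℤ) - (h1 B false l : ℕ) = ev1 (B : ℤ) l := by
  induction l with
  | nil => simp [h1, ev1]
  | cons a l ih =>
    rw [ev1, ← ih]
    simp only [h1, Int.cast_id]
    push_cast
    linear_combination part_sub a

theorem h2_sub (B Y : ℕ) (l : List (List ℤ)) :
    ((h2 B Y true l : ℕ) : ℤ) - (h2 B Y false l : ℕ) = ev2 (B : ℤ) (Y : ℤ) l := by
  induction l with
  | nil => simp [h2, ev2]
  | cons a l ih =>
    rw [ev2, ← ih]
    simp only [h2]
    push_cast
    linear_combination h1_sub B a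

/-- powers of `p - q`, positive / negative part -/
def pw (p q : ℕ) : ℕ → Bool → ℕ
  | 0, true => 1
  | 0, false => 0
  | n + 1, true => pw p q n true * p + pw p q n false * q
  | n + 1, false => pw p q n true * q + pw p q n false * p

theorem pw_sub (p q n : ℕ) :
    ((pw p q n true : ℕ) : ℤ) - (pw p q n false : ℕ) = ((p : ℤ) - q) ^ n := by
  induction n with
  | zero => simp [pw]
  | succ n ih =>
    rw [pow_succ, ← ih]
    simp only [pw]
    push_cast
    ring

/-- positive / negative part of the value of an expression -/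
def PE.evB (B Y : ℕ) : PE → Bool → ℕ
  | .lit l, s => h2 B Y s l
  | .x, true => B
  | .x, false => 0
  | .y, true => Y
  | .y, false => 0
  | .int n, s => part s n
  | .add a b, s => evB B Y a s + evB B Y b s
  | .sub a b, s => evB B Y a s + evB B Y b (!s)
  | .mul a b, s => evB B Y a true * evB B Y b s + evB B Y a false * evB B Y b (!s)
  | .pow a n, s => pw (evB B Y a true) (evB B Y a false) n s

theorem PE.evB_sub (B Y : ℕ) (e : PE) :
    ((e.evB B Y true : ℕ) : ℤ) - (e.evB B Y false : ℕ) = e.eval (B : ℤ) (Y : ℤ) := by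
  induction e with
  | lit l => exact h2_sub B Y l
  | x => simp [PE.evB, PE.eval]
  | y => simp [PE.evB, PE.eval]
  | int n => exact part_sub n
  | add a b iha ihb =>
    rw [PE.eval, ← iha, ← ihb]
    simp only [PE.evB]
    push_cast
    ring
  | sub a b iha ihb =>
    rw [PE.eval, ← iha, ← ihb]
    simp only [PE.evB, Bool.not_true, Bool.not_false]
    push_cast
    ring
  | mul a b iha ihb =>
    rw [PE.eval, ← iha, ← ihb]
    simp only [PE.evB, Bool.not_true, Bool.not_false]
    push_cast
    ring
  | pow a n iha =>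
    rw [PE.eval, ← iha]
    exact pw_sub _ _ n

/-- the certificate check -/
def PE.check (e : PE) (k d : ℕ) : Bool :=
  Nat.blt e.norm (2 ^ k) && Nat.blt e.degX d &&
    Nat.beq (e.evB (2 ^ k) (2 ^ (k * d)) true) (e.evB (2 ^ k) (2 ^ (k * d)) false)

/-- **main theorem**: a successful check proves that the expression vanishes identically -/
theorem PE.check_sound (e : PE) (k d : ℕ) (h : e.check k d = true) {R : Type*} [CommRing R]
    (u v : R) : e.eval u v = 0 := by
  unfold PE.check at h
  rw [Bool.and_eq_true, Bool.and_eq_true] at h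
  obtain ⟨⟨h1, h2⟩, h3⟩ := h
  have h1' : e.norm < 2 ^ k := by simpa [Nat.blt] using h1
  have h2' : e.degX < d := by simpa [Nat.blt] using h2
  have h3' := Nat.eq_of_beq_eq_true h3
  refine PE.sound e h1' h2' ?_ u v
  have h4 := PE.evB_sub (2 ^ k) (2 ^ (k * d)) e
  rw [h3', sub_self] at h4
  rw [← pow_mul]
  push_cast at h4
  exact h4.symm

end Crest.Agent.R278.PolyCert
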