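/-
Row 278: tables of coefficients: coefficients, degrees, homogenisation, derivations.
-/
import Crest.Agent.R278.PolyCert

set_option autoImplicit false

namespace Crest.Agent.R278.PolyCert

/-! ### entries -/

/-- coefficient of `x^i y^j` -/
def entry (l : List (List ℤ)) (i j : ℕ) : ℤ := (l.getD j []).getD i 0

/-- the table as a polynomial in two variables `x = X 0`, `y = X 1` -/
noncomputable def toMv (R : Type*) [CommRing R] (l : List (List ℤ)) : MvPolynomial (Fin 2) R :=
  ev2 (MvPolynomial.X 0) (MvPolynomial.X 1) l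

theorem aeval_toMv {R S : Type*} [CommRing R] [CommRing S] [Algebra R S] (f : Fin 2 → S)
    (l : List (List ℤ)) : MvPolynomial.aeval f (toMv R l) = ev2 (f 0) (f 1) l := by
  have h := map_ev2 ((MvPolynomial.aeval f : MvPolynomial (Fin 2) R →ₐ[R] S) :
    MvPolynomial (Fin 2) R →+* S) (MvPolynomial.X 0) (MvPolynomial.X 1) l
  unfold toMv
  rw [RingHom.coe_coe] at h
  rw [h, MvPolynomial.aeval_X, MvPolynomial.aeval_X]

theorem map_toMv {R S : Type*} [CommRing R] [CommRing S] (f : R →+* S)
    (l : List (List ℤ)) : MvPolynomial.map f (toMv R l) = toMv S l := by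
  unfold toMv
  rw [map_ev2, MvPolynomial.map_X, MvPolynomial.map_X]

theorem algHom_toMv {R S : Type*} [CommRing R] [CommRing S] [Algebra R S]
    (φ : MvPolynomial (Fin 2) R →ₐ[R] S) (l : List (List ℤ)) :
    φ (toMv R l) = ev2 (φ (MvPolynomial.X 0)) (φ (MvPolynomial.X 1)) l := by
  have h := map_ev2 (φ : MvPolynomial (Fin 2) R →+* S) (MvPolynomial.X 0) (MvPolynomial.X 1) l
  rw [RingHom.coe_coe] at h
  exact h

theorem coeff_ev1 {R : Type*} [CommRing R] (l : List ℤ) (m : Fin 2 →₀ ℕ) :
    MvPolynomial.coeff m (ev1 (MvPolynomial.X 0 : MvPolynomial (Fin 2) R) l) =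
      if m 1 = 0 then ((l.getD (m 0) 0 : ℤ) : R) else 0 := by
  induction l generalizing m with
  | nil => simp [ev1]
  | cons a l ih =>
    rw [ev1, MvPolynomial.coeff_add, MvPolynomial.coeff_X_mul', ih]
    have h1 : ((a : ℤ) : MvPolynomial (Fin 2) R) = MvPolynomial.C (a : R) := by simp
    rw [h1, MvPolynomial.coeff_C]
    by_cases h0 : m 0 = 0
    · have hs : (0 : Fin 2) ∉ m.support := by simpa using h0
      rw [if_neg hs, add_zero, h0]
      by_cases h2 : m 1 = 0
      · have : (0 : Fin 2 →₀ ℕ) = m := by
          ext i; fin_cases i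
          · simpa using h0.symm
          · simpa using h2.symm
        rw [if_pos this, if_pos h2]
        simp
      · have : (0 : Fin 2 →₀ ℕ) ≠ m := by
          rintro rfl; exact h2 rfl
        rw [if_neg this, if_neg h2]
    · have hs : (0 : Fin 2) ∈ m.support := by simpa using h0
      rw [if_pos hs]
      have h3 : (0 : Fin 2 →₀ ℕ) ≠ m := by
        rintro rfl; exact h0 rfl
      rw [if_neg h3, zero_add]
      have e1 : (m - Finsupp.single 0 1 : Fin 2 →₀ ℕ) 1 = m 1 := by simp
      have e0 : (m - Finsupp.single 0 1 : Fin 2 →₀ ℕ) 0 = m 0 - 1 := by simp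
      rw [e1, e0]
      congr 1
      obtain ⟨k, hk⟩ := Nat.exists_eq_succ_of_ne_zero h0
      rw [hk]
      simp

theorem coeff_toMv {R : Type*} [CommRing R] (l : List (List ℤ)) (m : Fin 2 →₀ ℕ) :
    MvPolynomial.coeff m (toMv R l) = ((entry l (m 0) (m 1) : ℤ) : R) := by
  unfold toMv
  induction l generalizing m with
  | nil => simp [ev2, entry]
  | cons a l ih =>
    rw [ev2, MvPolynomial.coeff_add, MvPolynomial.coeff_X_mul', ih, coeff_ev1]
    by_cases h0 : m 1 = 0
    · have hs : (1 : Fin 2) ∉ m.support := by simpa using h0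
      rw [if_neg hs, add_zero, if_pos h0, h0]
      simp [entry]
    · have hs : (1 : Fin 2) ∈ m.support := by simpa using h0
      rw [if_pos hs, if_neg h0, zero_add]
      have e1 : (m - Finsupp.single 1 1 : Fin 2 →₀ ℕ) 1 = m 1 - 1 := by simp
      have e0 : (m - Finsupp.single 1 1 : Fin 2 →₀ ℕ) 0 = m 0 := by simp
      rw [e1, e0]
      obtain ⟨k, hk⟩ := Nat.exists_eq_succ_of_ne_zero h0
      rw [hk]
      simp [entry]

/-! ### degree bounds -/

/-- all entries vanish -/
def zer : List ℤ → Bool
  | [] => true
  | a :: l => (a == 0) && zer l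

/-- all entries of index `≥ n` vanish -/
def rowOK : ℕ → List ℤ → Bool
  | 0, l => zer l
  | _ + 1, [] => true
  | n + 1, _ :: l => rowOK n l

/-- all entries with `i + j ≥ n` vanish -/
def tabOK : ℕ → List (List ℤ) → Bool
  | _, [] => true
  | n, a :: l => rowOK n a && tabOK (n - 1) l

theorem zer_getD {l : List ℤ} (h : zer l = true) (i : ℕ) : l.getD i 0 = 0 := by
  induction l generalizing i with
  | nil => simp
  | cons a l ih =>
    rw [zer, Bool.and_eq_true] at h
    cases i with
    | zero => simpa using h.1
    | succ i => simpa using ih h.2 i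

theorem rowOK_getD {n : ℕ} {l : List ℤ} (h : rowOK n l = true) {i : ℕ} (hi : n ≤ i) :
    l.getD i 0 = 0 := by
  induction n generalizing l i with
  | zero => exact zer_getD h i
  | succ n ih =>
    cases l with
    | nil => simp
    | cons a l =>
      cases i with
      | zero => omega
      | succ i => simpa using ih (l := l) h (by omega : n ≤ i)

theorem tabOK_entry {n : ℕ} {l : List (List ℤ)} (h : tabOK n l = true) {i j : ℕ}
    (hij : n ≤ i + j) : entry l i j = 0 := by
  induction l generalizing n j with
  | nil => simp [entry]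
  | cons a l ih =>
    rw [tabOK, Bool.and_eq_true] at h
    cases j with
    | zero => simpa [entry] using rowOK_getD h.1 (i := i) (by omega)
    | succ j => simpa [entry] using ih h.2 (j := j) (by omega)

/-- total degree bound from the table -/
theorem totalDegree_toMv_le {R : Type*} [CommRing R] {D : ℕ} {l : List (List ℤ)}
    (h : tabOK (D + 1) l = true) : (toMv R l).totalDegree ≤ D := by
  unfold MvPolynomial.totalDegree
  apply Finset.sup_le
  intro m hm
  rw [MvPolynomial.mem_support_iff, coeff_toMv] at hm
  by_contra hcon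
  apply hm
  rw [tabOK_entry h, Int.cast_zero]
  rw [Finsupp.sum_fintype _ _ (fun _ => rfl), Fin.sum_univ_two] at hcon
  omega

theorem zer_ev1 {R : Type*} [CommRing R] {l : List ℤ} (h : zer l = true) (x : R) :
    ev1 x l = 0 := by
  induction l with
  | nil => rfl
  | cons a l ih =>
    rw [zer, Bool.and_eq_true] at h
    rw [ev1, ih h.2]
    have : a = 0 := by simpa using h.1
    rw [this]
    simp

theorem rowOK_zero {R : Type*} [CommRing R] {l : List ℤ} (h : rowOK 0 l = true) (x : R) :
    ev1 x l = 0 := by
  have : zer l = true := by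
    cases l <;> exact h
  exact zer_ev1 this x

theorem tabOK_zero {R : Type*} [CommRing R] {l : List (List ℤ)} (h : tabOK 0 l = true) (x y : R) :
    ev2 x y l = 0 := by
  induction l with
  | nil => rfl
  | cons a l ih =>
    rw [tabOK, Bool.and_eq_true] at h
    rw [ev2, ih h.2, rowOK_zero h.1]
    simp

/-! ### homogenisation -/

/-- reversal of the first `n` entries (padded by `0`), prepended to `acc` -/
def revAux : ℕ → List ℤ → List ℤ → List ℤ
  | 0, _, acc => acc
  | n + 1, [], acc => revAux n [] (0 :: acc)
  | n + 1, a :: l, acc => revAux n l (a :: acc)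

theorem ev1_revAux {R : Type*} [CommRing R] {x u : R} (hu : x * u = 1) (n : ℕ) (l acc : List ℤ)
    (h : rowOK n l = true) :
    x * ev1 x (revAux n l acc) = x ^ (n + 1) * ev1 x acc + x ^ n * ev1 u l := by
  induction n generalizing l acc with
  | zero =>
    rw [rowOK_zero h]
    simp [revAux]
  | succ n ih =>
    cases l with
    | nil =>
      rw [revAux, ih [] (0 :: acc) (by cases n <;> rfl)]
      simp only [ev1, Int.cast_zero]
      ring
    | cons a l =>
      rw [revAux, ih l (a :: acc) h]
      simp only [ev1]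
      have e : x ^ (n + 1) * u = x ^ n := by rw [pow_succ, mul_assoc, hu, mul_one]
      linear_combination (-ev1 u l) * e

/-- the table of `x^(n-1) f(1/x, y/x)` -/
def flipT : ℕ → List (List ℤ) → List (List ℤ)
  | _, [] => []
  | n, a :: l => revAux n a [] :: flipT (n - 1) l

/-- homogenisation: `x * (flip f)(x,y) = x^n f(1/x, y/x)` (`u = 1/x`), `n = D + 1` -/
theorem ev2_flipT {R : Type*} [CommRing R] {x u : R} (hu : x * u = 1) (y : R) (n : ℕ)
    (l : List (List ℤ)) (h : tabOK n l = true) :
    x * ev2 x y (flipT n l) = x ^ n * ev2 u (y * u) l := by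
  induction l generalizing n with
  | nil => simp [flipT, ev2]
  | cons a l ih =>
    rw [tabOK, Bool.and_eq_true] at h
    have h1 := ev1_revAux hu n a [] h.1
    have h2 := ih (n - 1) h.2
    rw [flipT, ev2, ev2, mul_add, h1, ev1, mul_zero, zero_add]
    have h3 : x * (y * ev2 x y (flipT (n - 1) l)) = y * (x ^ (n - 1) * ev2 u (y * u) l) := by
      rw [← h2]; ring
    rw [h3]
    rcases Nat.eq_zero_or_pos n with rfl | hn
    · rw [tabOK_zero h.2]
      ring
    · obtain ⟨k, rfl⟩ := Nat.exists_eq_succ_of_ne_zero hn.ne'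
      rw [Nat.succ_sub_one]
      have e : x ^ (k + 1) * u = x ^ k := by rw [pow_succ, mul_assoc, hu, mul_one]
      simp only [Nat.succ_eq_add_one]
      linear_combination (-(y * ev2 u (y * u) l)) * e

theorem ev2_flipT' {R : Type*} [CommRing R] {x u : R} (hu : x * u = 1) (y : R) (D : ℕ)
    (l : List (List ℤ)) (h : tabOK (D + 1) l = true) :
    ev2 x y (flipT (D + 1) l) = x ^ D * ev2 u (y * u) l := by
  have h1 := ev2_flipT hu y (D + 1) l h
  have h2 := congrArg (fun t => u * t) h1
  beta_reduce at h2
  have e : u * x = 1 := by rw [mul_comm]; exact hu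
  rw [← mul_assoc, e, one_mul] at h2
  rw [h2, pow_succ]
  linear_combination (x ^ D * ev2 u (y * u) l) * e

/-! ### derivations -/

/-- entries multiplied by `n, n+1, ...` -/
def der1 : ℕ → List ℤ → List ℤ
  | _, [] => []
  | n, a :: l => ((n : ℤ) * a) :: der1 (n + 1) l

/-- derivative of a coefficient list -/
def dl (l : List ℤ) : List ℤ := der1 1 l.tail

theorem ev1_der1_succ {R : Type*} [CommRing R] (x : R) (n : ℕ) (l : List ℤ) :
    ev1 x (der1 (n + 1) l) = ev1 x (der1 n l) + ev1 x l := by
  induction l generalizing n with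
  | nil => simp [der1, ev1]
  | cons a l ih =>
    simp only [der1, ev1]
    rw [ih (n + 1)]
    push_cast
    ring

theorem ev1_dl_cons {R : Type*} [CommRing R] (x : R) (a : ℤ) (l : List ℤ) :
    ev1 x (dl (a :: l)) = ev1 x l + x * ev1 x (dl l) := by
  unfold dl
  rw [List.tail_cons]
  cases l with
  | nil => simp [der1, ev1]
  | cons b l =>
    rw [List.tail_cons]
    simp only [der1, ev1]
    rw [ev1_der1_succ]
    push_cast
    ring

section deriv

variable {A R M : Type*} [CommRing A] [CommRing R] [Algebra A R] [AddCommGroup M] [Module A M]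
  [Module R M] (D : Derivation A R M)

theorem D_intCast (n : ℤ) : D (n : R) = 0 := by
  have h1 : ∀ n : ℕ, D (n : R) = 0 := fun n => D.map_natCast n
  cases n with
  | ofNat n => simp
  | negSucc n =>
    rw [Int.cast_negSucc, map_neg, h1, neg_zero]

theorem D_ev1 (x : R) (l : List ℤ) : D (ev1 x l) = ev1 x (dl l) • D x := by
  induction l with
  | nil => simp [ev1, dl, der1]
  | cons a l ih =>
    rw [ev1_dl_cons, ev1, map_add, D_intCast, zero_add, Derivation.leibniz, ih, smul_smul,
      ← add_smul, add_comm]

/-- derivative of a table with respect to `x` -/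
def dxT (l : List (List ℤ)) : List (List ℤ) := l.map dl

/-- rows multiplied by `n, n+1, ...` -/
def derR : ℕ → List (List ℤ) → List (List ℤ)
  | _, [] => []
  | n, a :: l => (a.map (fun c => (n : ℤ) * c)) :: derR (n + 1) l

/-- derivative of a table with respect to `y` -/
def dyT (l : List (List ℤ)) : List (List ℤ) := derR 1 l.tail

theorem ev1_map_mul {R : Type*} [CommRing R] (x : R) (n : ℕ) (l : List ℤ) :
    ev1 x (l.map (fun c => (n : ℤ) * c)) = n * ev1 x l := by
  induction l with
  | nil => simp [ev1]
  | cons a l ih =>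
    rw [List.map_cons, ev1, ev1, ih]
    push_cast
    ring

theorem ev2_derR_succ {R : Type*} [CommRing R] (x y : R) (n : ℕ) (l : List (List ℤ)) :
    ev2 x y (derR (n + 1) l) = ev2 x y (derR n l) + ev2 x y l := by
  induction l generalizing n with
  | nil => simp [derR, ev2]
  | cons a l ih =>
    simp only [derR, ev2]
    rw [ih (n + 1), ev1_map_mul, ev1_map_mul]
    push_cast
    ring

theorem ev2_dyT_cons {R : Type*} [CommRing R] (x y : R) (a : List ℤ) (l : List (List ℤ)) :
    ev2 x y (dyT (a :: l)) = ev2 x y l + y * ev2 x y (dyT l) := by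
  unfold dyT
  rw [List.tail_cons]
  cases l with
  | nil => simp [derR, ev2]
  | cons b l =>
    rw [List.tail_cons]
    simp only [derR, ev2]
    rw [ev2_derR_succ, ev1_map_mul]
    push_cast
    ring

/-- **chain rule** for a derivation applied to the value of a table -/
theorem D_ev2 (x y : R) (l : List (List ℤ)) :
    D (ev2 x y l) = ev2 x y (dxT l) • D x + ev2 x y (dyT l) • D y := by
  induction l with
  | nil => simp [ev2, dxT, dyT, derR]
  | cons a l ih =>
    rw [ev2_dyT_cons, ev2, map_add, D_ev1, Derivation.leibniz, ih]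
    have e1 : dxT (a :: l) = dl a :: dxT l := rfl
    rw [e1, ev2]
    simp only [smul_add, smul_smul, add_smul]
    abel

end deriv

end Crest.Agent.R278.PolyCert
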