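/-
Row 278: arm decompositions.  `armPE X gs Qs` is the expression
`∑_k X^k * (∏_G p_G(y)^(M_G - k)) * Q_k(y)` (truncated subtraction), where `gs` is the list of
pairs `(p_G, M_G)`.  If `X` and `p_G(y)` lie in an ideal `I`, the value lies in `I ^ M_G`.
-/
import Crest.Agent.R278.PolyCert2

set_option autoImplicit false

namespace Crest.Agent.R278.PolyCert

/-- a coefficient list as a polynomial in `y` -/
def yT (l : List ℤ) : List (List ℤ) := l.map (fun c => [c])

theorem ev2_yT {R : Type*} [CommRing R] (x y : R) (l : List ℤ) : ev2 x y (yT l) = ev1 y l := by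
  induction l with
  | nil => rfl
  | cons a l ih =>
    show ev1 x [a] + y * ev2 x y (yT l) = _
    rw [ih]
    simp [ev1]

/-- product of the group polynomials -/
def grpPE : List (List ℤ × ℕ) → PE
  | [] => .int 1
  | (p, M) :: gs => .mul (.pow (.lit (yT p)) M) (grpPE gs)

def decG : List (List ℤ × ℕ) → List (List ℤ × ℕ)
  | [] => []
  | (p, M) :: gs => (p, M - 1) :: decG gs

/-- `∑_k X^k * (∏_G p_G^(M_G - k)) * Q_k` -/
def armPE (X : PE) : List (List ℤ × ℕ) → List (List ℤ) → PE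
  | _, [] => .int 0
  | gs, Q :: Qs => .add (.mul (grpPE gs) (.lit (yT Q))) (.mul X (armPE X (decG gs) Qs))

/-- `b * x - a` -/
def linX (b a : ℤ) : PE := .sub (.mul (.int b) .x) (.int a)

section

variable {R : Type*} [CommRing R]

theorem grpPE_mem (I : Ideal R) (u v : R) : ∀ (gs : List (List ℤ × ℕ)) (g : List ℤ × ℕ),
    g ∈ gs → ev1 v g.1 ∈ I → (grpPE gs).eval u v ∈ I ^ g.2 := by
  intro gs
  induction gs with
  | nil => intro g hg; simp at hg
  | cons h gs ih =>
    intro g hg hI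
    obtain ⟨p, M⟩ := h
    rcases List.mem_cons.mp hg with rfl | hg
    · show (PE.lit (yT p)).eval u v ^ M * (grpPE gs).eval u v ∈ I ^ M
      refine Ideal.mul_mem_right _ _ (Ideal.pow_mem_pow ?_ M)
      show ev2 u v (yT p) ∈ I
      rw [ev2_yT]
      exact hI
    · exact Ideal.mul_mem_left _ _ (ih g hg hI)

theorem mem_decG {g : List ℤ × ℕ} {gs : List (List ℤ × ℕ)} (h : g ∈ gs) :
    (g.1, g.2 - 1) ∈ decG gs := by
  induction gs with
  | nil => simp at h
  | cons a gs ih =>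
    obtain ⟨p, M⟩ := a
    rcases List.mem_cons.mp h with rfl | h
    · exact List.mem_cons_self
    · exact List.mem_cons_of_mem _ (ih h)

/-- **membership** -/
theorem armPE_mem (I : Ideal R) (u v : R) (X : PE) (hX : X.eval u v ∈ I) :
    ∀ (Qs : List (List ℤ)) (gs : List (List ℤ × ℕ)) (g : List ℤ × ℕ), g ∈ gs →
      ev1 v g.1 ∈ I → (armPE X gs Qs).eval u v ∈ I ^ g.2 := by
  intro Qs
  induction Qs with
  | nil =>
    intro gs g _ _
    have : (armPE X gs []).eval u v = 0 := by simp [armPE, PE.eval]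
    rw [this]
    exact zero_mem _
  | cons Q Qs ih =>
    intro gs g hg hI
    show (grpPE gs).eval u v * (PE.lit (yT Q)).eval u v + X.eval u v *
      (armPE X (decG gs) Qs).eval u v ∈ I ^ g.2
    refine add_mem (Ideal.mul_mem_right _ _ (grpPE_mem I u v gs g hg hI)) ?_
    have h1 := ih (decG gs) (g.1, g.2 - 1) (mem_decG hg) hI
    have h2 : X.eval u v * (armPE X (decG gs) Qs).eval u v ∈ I * I ^ (g.2 - 1) :=
      Ideal.mul_mem_mul hX h1
    rw [← pow_succ'] at h2
    exact Ideal.pow_le_pow_right (by omega) h2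

/-- restriction to the line `X = 0` -/
theorem armPE_line (u v : R) (X : PE) (hX : X.eval u v = 0) (Q : List ℤ) (Qs : List (List ℤ))
    (gs : List (List ℤ × ℕ)) :
    (armPE X gs (Q :: Qs)).eval u v = (grpPE gs).eval u v * ev1 v Q := by
  show (grpPE gs).eval u v * (PE.lit (yT Q)).eval u v + X.eval u v *
      (armPE X (decG gs) Qs).eval u v = _
  rw [hX, zero_mul, add_zero]
  congr 1
  exact ev2_yT u v Q

theorem grpPE_eval (u v : R) (gs : List (List ℤ × ℕ)) :
    (grpPE gs).eval u v = (gs.map (fun g => ev1 v g.1 ^ g.2)).prod := by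
  induction gs with
  | nil => simp [grpPE, PE.eval]
  | cons g gs ih =>
    obtain ⟨p, M⟩ := g
    show ev2 u v (yT p) ^ M * (grpPE gs).eval u v = _
    rw [ev2_yT, ih, List.map_cons, List.prod_cons]

theorem ev1_sub_dvd (v w : R) (l : List ℤ) : v - w ∣ ev1 v l - ev1 w l := by
  induction l with
  | nil => simp [ev1]
  | cons a l ih =>
    have : ev1 v (a :: l) - ev1 w (a :: l) = (v - w) * ev1 v l + w * (ev1 v l - ev1 w l) := by
      simp only [ev1]; ring
    rw [this]
    exact dvd_add (Dvd.intro _ rfl) (Dvd.dvd.mul_left ih w)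

theorem linX_eval (b a : ℤ) (u v : R) : (linX b a).eval u v = (b : R) * u - a := rfl

end

/-! ### points of the plane -/

/-- the maximal ideal of a point -/
noncomputable def ptI (c y : ℂ) : Ideal (MvPolynomial (Fin 2) ℂ) :=
  Ideal.span {MvPolynomial.X 0 - MvPolynomial.C c, MvPolynomial.X 1 - MvPolynomial.C y}

theorem ev1_mem_ptI {c y : ℂ} {p : List ℤ} (h : ev1 y p = 0) :
    ev1 (MvPolynomial.X 1 : MvPolynomial (Fin 2) ℂ) p ∈ ptI c y := by
  have h1 := ev1_sub_dvd (MvPolynomial.X 1 : MvPolynomial (Fin 2) ℂ) (MvPolynomial.C y) p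
  have h2 : ev1 (MvPolynomial.C y : MvPolynomial (Fin 2) ℂ) p = 0 := by
    have := map_ev1 (MvPolynomial.C : ℂ →+* MvPolynomial (Fin 2) ℂ) y p
    rw [← this, h, map_zero]
  rw [h2, sub_zero] at h1
  obtain ⟨q, hq⟩ := h1
  rw [hq]
  exact Ideal.mul_mem_right _ _ (Ideal.subset_span (by simp))

theorem linX_mem_ptI {c y : ℂ} {b a : ℤ} (h : (b : ℂ) * c = a) :
    (linX b a).eval (MvPolynomial.X 0 : MvPolynomial (Fin 2) ℂ) (MvPolynomial.X 1) ∈ ptI c y := by
  rw [linX_eval]
  have : ((b : ℤ) : MvPolynomial (Fin 2) ℂ) * MvPolynomial.X 0 - ((a : ℤ) :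
      MvPolynomial (Fin 2) ℂ) = MvPolynomial.C (b : ℂ) *
        (MvPolynomial.X 0 - MvPolynomial.C c) := by
    rw [mul_sub, ← MvPolynomial.C_mul, h]
    simp
  rw [this]
  exact Ideal.mul_mem_left _ _ (Ideal.subset_span (by simp))

/-- **membership certificate**: if `c * f = armPE ...` then `f ∈ ptI ^ M` at all roots -/
theorem mem_pow_of_arm {f : List (List ℤ)} {c : ℤ} (hc : c ≠ 0) {b a : ℤ}
    {gs : List (List ℤ × ℕ)} {Qs : List (List ℤ)} {k d : ℕ}
    (h : (PE.sub (.mul (.int c) (.lit f)) (armPE (linX b a) gs Qs)).check k d = true)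
    {x y : ℂ} (hx : (b : ℂ) * x = a) {g : List ℤ × ℕ} (hg : g ∈ gs) (hy : ev1 y g.1 = 0) :
    toMv ℂ f ∈ ptI x y ^ g.2 := by
  have h1 := PE.check_sound _ k d h (MvPolynomial.X 0 : MvPolynomial (Fin 2) ℂ)
    (MvPolynomial.X 1)
  have h2 : ((c : ℤ) : MvPolynomial (Fin 2) ℂ) * toMv ℂ f =
      (armPE (linX b a) gs Qs).eval (MvPolynomial.X 0) (MvPolynomial.X 1) := by
    have h3 : ((c : ℤ) : MvPolynomial (Fin 2) ℂ) * toMv ℂ f -
      (armPE (linX b a) gs Qs).eval (MvPolynomial.X 0) (MvPolynomial.X 1) = 0 := h1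
    exact sub_eq_zero.mp h3
  have h3 := armPE_mem (ptI x y) (MvPolynomial.X 0) (MvPolynomial.X 1) (linX b a)
    (linX_mem_ptI hx) Qs gs g hg (ev1_mem_ptI hy)
  rw [← h2] at h3
  have hc' : (c : ℂ) ≠ 0 := by exact_mod_cast hc
  have h4 : toMv ℂ f = MvPolynomial.C ((c : ℂ)⁻¹) * (((c : ℤ) : MvPolynomial (Fin 2) ℂ) *
      toMv ℂ f) := by
    have h5 : ((c : ℤ) : MvPolynomial (Fin 2) ℂ) = MvPolynomial.C (c : ℂ) := by simp
    rw [h5, ← mul_assoc, ← MvPolynomial.C_mul, inv_mul_cancel₀ hc', MvPolynomial.C_1, one_mul]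
  rw [h4]
  exact Ideal.mul_mem_left _ _ h3

/-- value on the line `x = x_i` -/
theorem line_of_arm {f : List (List ℤ)} {c : ℤ} {b a : ℤ}
    {gs : List (List ℤ × ℕ)} {Q : List ℤ} {Qs : List (List ℤ)} {k d : ℕ}
    (h : (PE.sub (.mul (.int c) (.lit f)) (armPE (linX b a) gs (Q :: Qs))).check k d = true)
    {x : ℂ} (hx : (b : ℂ) * x = a) (y : ℂ) :
    (c : ℂ) * ev2 x y f = (gs.map (fun g => ev1 y g.1 ^ g.2)).prod * ev1 y Q := by
  have h1 := PE.check_sound _ k d h x y
  have h3 : (c : ℂ) * ev2 x y f - (armPE (linX b a) gs (Q :: Qs)).eval x y = 0 := h1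
  rw [armPE_line x y (linX b a) (by rw [linX_eval, hx, sub_self]), grpPE_eval] at h3
  exact sub_eq_zero.mp h3

end Crest.Agent.R278.PolyCert
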