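/-
Row 278: the radial condition at a point of an arm.
-/
import Crest.Agent.R278.ArmData

set_option autoImplicit false

namespace Crest.Agent.R278.PolyCert

/-- `(x - a) (x - b) (x - c)` -/
def oth (a b c : ℤ) : PE := .mul (linX 1 a) (.mul (linX 1 b) (linX 1 c))

/-- `p'(y) β - p(y) (x-a)(x-b)(x-c) α'` -/
def tPE (pl : List ℤ) (al be : List (List ℤ)) (a b c : ℤ) : PE :=
  .sub (.mul (.lit (yT (dl pl))) (.lit be)) (.mul (.lit (yT pl)) (.mul (oth a b c) (.lit al)))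

section

variable {R : Type*} [CommRing R]

theorem oth_eval (a b c : ℤ) (u v : R) :
    (oth a b c).eval u v = (u - a) * ((u - b) * (u - c)) := by
  simp [oth, linX, PE.eval]

theorem tPE_eval (pl : List ℤ) (al be : List (List ℤ)) (a b c : ℤ) (u v : R) :
    (tPE pl al be a b c).eval u v = ev1 v (dl pl) * ev2 u v be -
      ev1 v pl * ((u - a) * ((u - b) * (u - c)) * ev2 u v al) := by
  show ev2 u v (yT (dl pl)) * ev2 u v be - ev2 u v (yT pl) * ((oth a b c).eval u v *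
    ev2 u v al) = _
  rw [ev2_yT, ev2_yT, oth_eval]

theorem ev1_taylor (v w : R) (l : List ℤ) : ∃ r, ev1 v l = ev1 w l +
    (v - w) * ev1 w (dl l) + (v - w) ^ 2 * r := by
  induction l with
  | nil => exact ⟨0, by simp [ev1, dl, der1]⟩
  | cons a l ih =>
    obtain ⟨r, hr⟩ := ih
    refine ⟨ev1 w (dl l) + v * r, ?_⟩
    rw [ev1_dl_cons, ev1, ev1, hr]
    ring

theorem ev1_taylor' (v w : R) (l : List ℤ) : ∃ s, ev1 v (dl l) = ev1 w (dl l) + (v - w) * s := by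
  obtain ⟨s, hs⟩ := ev1_sub_dvd v w (dl l)
  exact ⟨s, by rw [← hs]; ring⟩

end

/-- **the radial condition** -/
theorem radial {x y : ℂ} {pl : List ℤ} (hy : ev1 y pl = 0) (hs : ev1 y (dl pl) ≠ 0) {l : ℕ}
    {at' be : MvPolynomial (Fin 2) ℂ} (ha : at' ∈ ptI x y ^ (l - 1)) (hb : be ∈ ptI x y ^ l)
    (hT : ev1 (MvPolynomial.X 1) (dl pl) * be - ev1 (MvPolynomial.X 1) pl * at' ∈
      ptI x y ^ (l + 1)) :
    be - (MvPolynomial.X 1 - MvPolynomial.C y) * at' ∈ ptI x y ^ (l + 1) := by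
  set n : MvPolynomial (Fin 2) ℂ := MvPolynomial.X 1 - MvPolynomial.C y with hn
  have hnI : n ∈ ptI x y := Ideal.subset_span (by simp [hn])
  obtain ⟨r, hr⟩ := ev1_taylor (MvPolynomial.X 1 : MvPolynomial (Fin 2) ℂ) (MvPolynomial.C y) pl
  obtain ⟨s, hs'⟩ := ev1_taylor' (MvPolynomial.X 1 : MvPolynomial (Fin 2) ℂ)
    (MvPolynomial.C y) pl
  have e1 : ev1 (MvPolynomial.C y : MvPolynomial (Fin 2) ℂ) pl = 0 := by
    have := map_ev1 (MvPolynomial.C : ℂ →+* MvPolynomial (Fin 2) ℂ) y pl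
    rw [← this, hy, map_zero]
  have e2 : ev1 (MvPolynomial.C y : MvPolynomial (Fin 2) ℂ) (dl pl) =
      MvPolynomial.C (ev1 y (dl pl)) :=
    (map_ev1 (MvPolynomial.C : ℂ →+* MvPolynomial (Fin 2) ℂ) y (dl pl)).symm
  rw [← hn] at hr hs'
  rw [e1, e2, zero_add] at hr
  rw [e2] at hs'
  rw [hr, hs'] at hT
  have h1 : n * s * be ∈ ptI x y ^ (l + 1) := by
    rw [pow_succ']
    have : n * s * be = n * (s * be) := by ring
    rw [this]
    exact Ideal.mul_mem_mul hnI (Ideal.mul_mem_left _ _ hb)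
  have h2 : n ^ 2 * r * at' ∈ ptI x y ^ (l + 1) := by
    have h3 : n ^ 2 * (r * at') ∈ ptI x y ^ 2 * ptI x y ^ (l - 1) :=
      Ideal.mul_mem_mul (Ideal.pow_mem_pow hnI 2) (Ideal.mul_mem_left _ _ ha)
    rw [← pow_add] at h3
    have h4 := Ideal.pow_le_pow_right (by omega : l + 1 ≤ 2 + (l - 1)) h3
    have : n ^ 2 * r * at' = n ^ 2 * (r * at') := by ring
    rwa [this]
  have h3 : MvPolynomial.C (ev1 y (dl pl)) * (be - n * at') ∈ ptI x y ^ (l + 1) := by
    have h4 := (Ideal.sub_mem _ hT h1)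
    have h5 := Ideal.add_mem _ h4 h2
    have e : (MvPolynomial.C (ev1 y (dl pl)) + n * s) * be - (n * MvPolynomial.C (ev1 y (dl pl)) +
      n ^ 2 * r) * at' - n * s * be + n ^ 2 * r * at' =
        MvPolynomial.C (ev1 y (dl pl)) * (be - n * at') := by ring
    rwa [e] at h5
  have h4 := Ideal.mul_mem_left _ (MvPolynomial.C (ev1 y (dl pl))⁻¹) h3
  rw [← mul_assoc, ← MvPolynomial.C_mul, inv_mul_cancel₀ hs, MvPolynomial.C_1, one_mul] at h4
  exact h4

/-- membership certificate for a general expression -/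
theorem pe_mem {e : PE} {b a : ℤ} {gs : List (List ℤ × ℕ)} {Qs : List (List ℤ)} {k d : ℕ}
    (h : (PE.sub e (armPE (linX b a) gs Qs)).check k d = true)
    {x y : ℂ} (hx : (b : ℂ) * x = a) {g : List ℤ × ℕ} (hg : g ∈ gs) (hy : ev1 y g.1 = 0) :
    e.eval (MvPolynomial.X 0 : MvPolynomial (Fin 2) ℂ) (MvPolynomial.X 1) ∈ ptI x y ^ g.2 := by
  have h1 := PE.check_sound _ k d h (MvPolynomial.X 0 : MvPolynomial (Fin 2) ℂ)
    (MvPolynomial.X 1)
  have h2 : e.eval (MvPolynomial.X 0 : MvPolynomial (Fin 2) ℂ) (MvPolynomial.X 1) =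
      (armPE (linX b a) gs Qs).eval (MvPolynomial.X 0) (MvPolynomial.X 1) := sub_eq_zero.mp h1
  rw [h2]
  exact armPE_mem (ptI x y) (MvPolynomial.X 0) (MvPolynomial.X 1) (linX b a)
    (linX_mem_ptI hx) Qs gs g hg (ev1_mem_ptI hy)

end Crest.Agent.R278.PolyCert
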