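/-
Row 278: the points of an arm: roots of a separable product of integer polynomials.
-/
import Crest.Agent.R278.VDefs

set_option autoImplicit false

namespace Crest.Agent.R278.PolyCert

open Polynomial

/-- a coefficient list as a complex polynomial -/
noncomputable def cpoly (l : List ℤ) : ℂ[X] := ev1 (X : ℂ[X]) l

theorem cpoly_eval (l : List ℤ) (y : ℂ) : (cpoly l).eval y = ev1 y l := by
  have h := map_ev1 (Polynomial.evalRingHom y) (X : ℂ[X]) l
  simpa [cpoly] using h

theorem cpoly_isRoot {l : List ℤ} {y : ℂ} : (cpoly l).IsRoot y ↔ ev1 y l = 0 := by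
  rw [Polynomial.IsRoot.def, cpoly_eval]

theorem cpoly_derivative (l : List ℤ) : derivative (cpoly l) = cpoly (dl l) := by
  have h := D_ev1 (Polynomial.derivative' : Derivation ℂ ℂ[X] ℂ[X]) (X : ℂ[X]) l
  simpa [cpoly] using h

theorem cpoly_cons (a : ℤ) (l : List ℤ) : cpoly (a :: l) = C (a : ℂ) + X * cpoly l := by
  simp [cpoly, ev1]

/-- the list is nonempty and its last entry is `1` -/
def monicOK : List ℤ → Bool
  | [] => false
  | [a] => a == 1
  | _ :: b :: l => monicOK (b :: l)

theorem cpoly_monic {l : List ℤ} (h : monicOK l = true) :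
    (cpoly l).Monic ∧ (cpoly l).natDegree + 1 = l.length := by
  induction l with
  | nil => simp [monicOK] at h
  | cons a l ih =>
    cases l with
    | nil =>
      have ha : a = 1 := by simpa [monicOK] using h
      subst ha
      have : cpoly [1] = 1 := by simp [cpoly, ev1]
      rw [this]
      exact ⟨monic_one, by simp⟩
    | cons b l =>
      obtain ⟨h1, h2⟩ := ih h
      have e : cpoly (a :: b :: l) = X * cpoly (b :: l) + C (a : ℂ) := by
        rw [cpoly_cons, add_comm]
      have h3 : (X * cpoly (b :: l)).Monic := monic_X.mul h1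
      have h4 : (X * cpoly (b :: l)).natDegree = (cpoly (b :: l)).natDegree + 1 := by
        rw [natDegree_mul X_ne_zero h1.ne_zero, natDegree_X, add_comm]
      have h5 : (C (a : ℂ)).degree < (X * cpoly (b :: l)).degree := by
        refine lt_of_le_of_lt degree_C_le ?_
        rw [degree_eq_natDegree h3.ne_zero, h4]
        exact_mod_cast Nat.succ_pos _
      refine ⟨?_, ?_⟩
      · rw [e]
        exact h3.add_of_left h5
      · rw [e, natDegree_add_C, h4, h2]
        rfl

/-- product of the group polynomials -/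
noncomputable def armPoly {α : Type*} (h : α → List ℤ) (L : List α) : ℂ[X] :=
  (L.map (fun g => cpoly (h g))).prod

theorem armPoly_cons {α : Type*} (h : α → List ℤ) (g : α) (L : List α) :
    armPoly h (g :: L) = cpoly (h g) * armPoly h L := by
  simp [armPoly]

theorem dvd_armPoly {α : Type*} (h : α → List ℤ) {L : List α} {g : α} (hg : g ∈ L) :
    cpoly (h g) ∣ armPoly h L :=
  List.dvd_prod (List.mem_map.mpr ⟨g, hg, rfl⟩)

open Classical in
/-- multiplicity function attached to `f` -/
noncomputable def mult {α : Type*} (h : α → List ℤ) (L : List α) (f : α → ℕ) (y : ℂ) : ℕ :=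
  (L.map (fun g => if ev1 y (h g) = 0 then f g else 0)).sum

theorem mult_eq_zero {α : Type*} (h : α → List ℤ) (L : List α) (f : α → ℕ) {y : ℂ}
    (hy : (armPoly h L).eval y ≠ 0) : mult h L f y = 0 := by
  classical
  unfold mult
  apply List.sum_eq_zero
  intro x hx
  obtain ⟨g, hg, rfl⟩ := List.mem_map.mp hx
  rw [if_neg]
  intro h0
  apply hy
  obtain ⟨q, hq⟩ := dvd_armPoly h hg
  rw [hq, eval_mul, cpoly_eval, h0, zero_mul]

/-- the points of the arm -/
noncomputable def armPts {α : Type*} (h : α → List ℤ) (L : List α) : Finset ℂ :=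
  (armPoly h L).roots.toFinset

theorem armPoly_monic {α : Type*} {h : α → List ℤ} {L : List α}
    (hm : ∀ g ∈ L, monicOK (h g) = true) : (armPoly h L).Monic := by
  induction L with
  | nil => simpa [armPoly] using (monic_one : (1 : ℂ[X]).Monic)
  | cons g L ih =>
    rw [armPoly_cons]
    exact (cpoly_monic (hm g List.mem_cons_self)).1.mul
      (ih fun g' hg' => hm g' (List.mem_cons_of_mem _ hg'))

theorem mem_armPts {α : Type*} {h : α → List ℤ} {L : List α}
    (hm : ∀ g ∈ L, monicOK (h g) = true) {y : ℂ} :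
    y ∈ armPts h L ↔ ∃ g ∈ L, ev1 y (h g) = 0 := by
  unfold armPts
  rw [Multiset.mem_toFinset, mem_roots (armPoly_monic hm).ne_zero, IsRoot.def, armPoly,
    eval_list_prod, List.prod_eq_zero_iff, List.mem_map]
  constructor
  · rintro ⟨p, hp, hp0⟩
    obtain ⟨g, hg, rfl⟩ := List.mem_map.mp hp
    exact ⟨g, hg, by rwa [cpoly_eval] at hp0⟩
  · rintro ⟨g, hg, h0⟩
    exact ⟨cpoly (h g), List.mem_map.mpr ⟨g, hg, rfl⟩, by rwa [cpoly_eval]⟩

/-- every point belongs to a unique group -/
theorem exists_group {α : Type*} {h : α → List ℤ} {L : List α}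
    (hs : (armPoly h L).Separable) {y : ℂ} (hy : ∃ g ∈ L, ev1 y (h g) = 0) :
    ∃ g ∈ L, ev1 y (h g) = 0 ∧ ∀ f : α → ℕ, mult h L f y = f g := by
  classical
  induction L with
  | nil => obtain ⟨g, hg, _⟩ := hy; simp at hg
  | cons a L ih =>
    rw [armPoly_cons] at hs
    by_cases ha : ev1 y (h a) = 0
    · refine ⟨a, List.mem_cons_self, ha, fun f => ?_⟩
      have h1 : (armPoly h L).eval y ≠ 0 := by
        intro h0
        have hc : IsCoprime (cpoly (h a)) (armPoly h L) := hs.isCoprime
        obtain ⟨u, v, huv⟩ := hc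
        have := congrArg (eval y) huv
        rw [eval_add, eval_mul, eval_mul, cpoly_eval, ha, h0] at this
        simp at this
      have h2 := mult_eq_zero h L f h1
      unfold mult at h2 ⊢
      rw [List.map_cons, List.sum_cons, if_pos ha, h2, add_zero]
    · obtain ⟨g, hg, h0⟩ := hy
      rcases List.mem_cons.mp hg with rfl | hg
      · exact absurd h0 ha
      · obtain ⟨g', hg', h0', h1'⟩ := ih (hs.of_mul_right) ⟨g, hg, h0⟩
        refine ⟨g', List.mem_cons_of_mem _ hg', h0', fun f => ?_⟩
        have h2 := h1' f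
        unfold mult at h2 ⊢
        rw [List.map_cons, List.sum_cons, if_neg ha, h2, zero_add]

theorem card_roots_group {l : List ℤ} (hm : monicOK l = true) (hs : (cpoly l).Separable) :
    (cpoly l).roots.toFinset.card = l.length - 1 := by
  have h1 : (cpoly l).roots.Nodup := nodup_roots hs
  rw [Multiset.toFinset_card_of_nodup h1, IsAlgClosed.card_roots_eq_natDegree]
  have := (cpoly_monic hm).2
  omega

/-- **sum of the multiplicities** -/
theorem sum_mult {α : Type*} {h : α → List ℤ} {L : List α}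
    (hm : ∀ g ∈ L, monicOK (h g) = true) (hs : (armPoly h L).Separable) (f : α → ℕ) :
    ∑ y ∈ armPts h L, mult h L f y = (L.map (fun g => f g * ((h g).length - 1))).sum := by
  classical
  have key : ∀ (L' : List α), (∀ g ∈ L', g ∈ L) →
      ∑ y ∈ armPts h L, (L'.map (fun g => if ev1 y (h g) = 0 then f g else 0)).sum =
        (L'.map (fun g => f g * ((h g).length - 1))).sum := by
    intro L'
    induction L' with
    | nil => intro _; simp
    | cons a L' ih =>
      intro hL
      have ha := hL a List.mem_cons_self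
      simp only [List.map_cons, List.sum_cons, Finset.sum_add_distrib]
      rw [ih fun g hg => hL g (List.mem_cons_of_mem _ hg)]
      congr 1
      rw [← Finset.sum_filter, Finset.sum_const, smul_eq_mul, mul_comm]
      congr 1
      rw [← card_roots_group (hm a ha) (hs.of_dvd (dvd_armPoly h ha))]
      congr 1
      ext y
      rw [Finset.mem_filter, mem_armPts hm, Multiset.mem_toFinset,
        mem_roots (cpoly_monic (hm a ha)).1.ne_zero, cpoly_isRoot]
      exact ⟨fun hy => hy.2, fun hy => ⟨⟨a, ha, hy⟩, hy⟩⟩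
  exact key L fun _ hg => hg

theorem separable_of_bezout {A B p : List ℤ} {c : ℤ} (hc : c ≠ 0) {k d : ℕ}
    (h : (PE.sub (.add (.mul (.lit (yT A)) (.lit (yT p))) (.mul (.lit (yT B))
      (.lit (yT (dl p))))) (.int c)).check k d = true) : (cpoly p).Separable := by
  have h1 := PE.check_sound _ k d h (0 : ℂ[X]) X
  have h2 : ev2 (0 : ℂ[X]) X (yT A) * ev2 (0 : ℂ[X]) X (yT p) + ev2 (0 : ℂ[X]) X (yT B) *
      ev2 (0 : ℂ[X]) X (yT (dl p)) - ((c : ℤ) : ℂ[X]) = 0 := h1
  rw [ev2_yT, ev2_yT, ev2_yT, ev2_yT] at h2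
  have h3 : cpoly A * cpoly p + cpoly B * cpoly (dl p) = ((c : ℤ) : ℂ[X]) := sub_eq_zero.mp h2
  have hc' : (c : ℂ) ≠ 0 := by exact_mod_cast hc
  refine ⟨C ((c : ℂ)⁻¹) * cpoly A, C ((c : ℂ)⁻¹) * cpoly B, ?_⟩
  rw [cpoly_derivative]
  have h4 : ((c : ℤ) : ℂ[X]) = C (c : ℂ) := by simp
  rw [h4] at h3
  have : C ((c : ℂ)⁻¹) * cpoly A * cpoly p + C ((c : ℂ)⁻¹) * cpoly B * cpoly (dl p) =
      C ((c : ℂ)⁻¹) * (cpoly A * cpoly p + cpoly B * cpoly (dl p)) := by ring
  rw [this, h3, ← C_mul, inv_mul_cancel₀ hc', C_1]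

/-- product of the groups as an expression -/
def prodPE {α : Type*} (h : α → List ℤ) : List α → PE
  | [] => .int 1
  | g :: L => .mul (.lit (yT (h g))) (prodPE h L)

theorem prodPE_eval {α : Type*} (h : α → List ℤ) (L : List α) (u : ℂ[X]) :
    (prodPE h L).eval u X = armPoly h L := by
  induction L with
  | nil => simp [prodPE, PE.eval, armPoly]
  | cons g L ih =>
    rw [armPoly_cons, ← ih]
    show ev2 u X (yT (h g)) * _ = _
    rw [ev2_yT]
    rfl

theorem armPoly_eq {α : Type*} {h : α → List ℤ} {L : List α} {p : List ℤ} {k d : ℕ}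
    (hk : (PE.sub (.lit (yT p)) (prodPE h L)).check k d = true) : armPoly h L = cpoly p := by
  have h1 := PE.check_sound _ k d hk (0 : ℂ[X]) X
  have h2 : ev2 (0 : ℂ[X]) X (yT p) - (prodPE h L).eval 0 X = 0 := h1
  rw [ev2_yT, prodPE_eval] at h2
  exact (sub_eq_zero.mp h2).symm

end Crest.Agent.R278.PolyCert
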