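import Mathlib

set_option autoImplicit false

namespace Crest.Agent.R278

/-- Integral injective extensions preserve Krull dimension. -/
theorem ringKrullDim_eq_of_isIntegral {R S : Type*} [CommRing R] [CommRing S] [Algebra R S]
    [Algebra.IsIntegral R S] (hinj : Function.Injective (algebraMap R S)) :
    ringKrullDim S = ringKrullDim R := by
  apply le_antisymm
  · refine Order.krullDim_le_of_strictMono (fun p => PrimeSpectrum.comap (algebraMap R S) p) ?_
    intro p q hpq
    exact Ideal.IsIntegral.comap_lt_comap (R := R) (I := p.asIdeal) (J := q.asIdeal) hpq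
  · have key : ∀ p : LTSeries (PrimeSpectrum R), ∃ q : LTSeries (PrimeSpectrum S),
        q.length = p.length ∧ PrimeSpectrum.comap (algebraMap R S) (RelSeries.last q)
          = RelSeries.last p := by
      intro p
      induction p using RelSeries.inductionOn' with
      | singleton x =>
        obtain ⟨Q, hQ, hQ'⟩ := Ideal.exists_ideal_over_prime_of_isIntegral (S := S) x.asIdeal ⊥ (by
          rw [← RingHom.ker_eq_comap_bot, (RingHom.injective_iff_ker_eq_bot _).mp hinj]
          exact bot_le)
        obtain ⟨hQ1, hQ2⟩ := hQ'
        refine ⟨RelSeries.singleton _ ⟨Q, hQ1⟩, rfl, ?_⟩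
        ext1
        simpa using hQ2
      | snoc p x hx ih =>
        obtain ⟨q, hq1, hq2⟩ := ih
        obtain ⟨Q, hQ, hQ'⟩ := Ideal.exists_ideal_over_prime_of_isIntegral_of_isPrime (S := S) x.asIdeal
          (RelSeries.last q).asIdeal (by
            have := congrArg PrimeSpectrum.asIdeal hq2
            simp only [PrimeSpectrum.comap_asIdeal] at this
            rw [this]
            exact le_of_lt hx)
        obtain ⟨hQ1, hQ2⟩ := hQ'
        have hlt : RelSeries.last q < (⟨Q, hQ1⟩ : PrimeSpectrum S) := by
          refine lt_of_le_of_ne hQ ?_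
          intro h
          have h2 : PrimeSpectrum.comap (algebraMap R S) (RelSeries.last q) = x := by
            rw [h]; ext1; simpa using hQ2
          rw [hq2] at h2
          exact absurd h2 (ne_of_lt hx)
        refine ⟨RelSeries.snoc q ⟨Q, hQ1⟩ hlt, by simp [hq1], ?_⟩
        simp only [RelSeries.last_snoc]
        ext1
        simpa using hQ2
    refine iSup_le fun p => ?_
    obtain ⟨q, hq1, -⟩ := key p
    rw [← hq1]
    exact le_iSup (fun q : LTSeries (PrimeSpectrum S) => (q.length : WithBot ℕ∞)) q

end Crest.Agent.R278
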