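import Crest.Agent.R278.NonReg
import Crest.Agent.R278.Dim

set_option autoImplicit false

namespace Crest.Agent.R278

variable {K : Type*} [Field K] [Algebra ℂ K]

/-- A derivation of `K` which vanishes on a subalgebra vanishes on everything algebraic over it. -/
theorem der_eq_zero_of_isAlgebraic (R₀ : Subalgebra ℂ K) (D : Derivation ℂ K K)
    (hD : ∀ a ∈ R₀, D a = 0) (x : K) (hx : IsAlgebraic R₀ x) : D x = 0 := by
  obtain ⟨y, hy, hxy⟩ := hx.exists_integral_multiple
  have hy0 : (y : K) ≠ 0 := fun h => hy (Subtype.ext h)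
  have hle : R₀ ≤ (⊤ : Subalgebra ℂ K) := le_top
  let E : Derivation ℂ (⊤ : Subalgebra ℂ K) K :=
    (Algebra.linearMap (⊤ : Subalgebra ℂ K) K).compDer (restrictDer ⊤ D (fun _ _ => trivial))
  have h1 : ∀ z ∈ (⊤ : Subalgebra ℂ K), IsIntegral R₀ z → D z = 0 := by
    intro z hz hzi
    have := der_eq_zero_of_isIntegral (⊤ : Subalgebra ℂ K) R₀ hle E
      (fun a ha => hD a ha) ⟨z, hz⟩ hzi
    exact this
  have h2 : D (y • x) = 0 := h1 _ trivial hxy
  rw [Algebra.smul_def] at h2
  have h3 : algebraMap R₀ K y = (y : K) := rfl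
  rw [h3, Derivation.leibniz, hD y y.2, smul_zero, add_zero, smul_eq_mul] at h2
  exact (mul_eq_zero.mp h2).resolve_left hy0

theorem der_eq_zero_on_adjoin (D : Derivation ℂ K K) (S : Set K) (h : ∀ x ∈ S, D x = 0) :
    ∀ a ∈ Algebra.adjoin ℂ S, D a = 0 := by
  intro a ha
  induction ha using Algebra.adjoin_induction with
  | mem x hx => exact h x hx
  | algebraMap c => exact Derivation.map_algebraMap D c
  | add x y _ _ ihx ihy => rw [map_add, ihx, ihy, add_zero]
  | mul x y _ _ ihx ihy => rw [Derivation.leibniz, ihx, ihy, smul_zero, smul_zero, add_zero]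

theorem algebraicIndependent_of_minor (D₁ D₂ : Derivation ℂ K K) (s t : K)
    (h : minor D₁ D₂ s t ≠ 0) : AlgebraicIndependent ℂ ![s, t] := by
  rw [AlgebraicIndependent.iff_transcendental_adjoin_image (x := ![s, t]) (1 : Fin 2)]
  have himg : (![s, t] '' ({1}ᶜ : Set (Fin 2))) = {s} := by
    ext z
    simp only [Set.mem_image, Set.mem_compl_iff, Set.mem_singleton_iff]
    constructor
    · rintro ⟨i, hi, rfl⟩
      fin_cases i
      · rfl
      · exact absurd rfl hi
    · rintro rfl
      exact ⟨0, by simp, rfl⟩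
  constructor
  · -- s is transcendental
    have hs : Transcendental ℂ s := by
      intro hs
      have hs' : IsAlgebraic (⊥ : Subalgebra ℂ K) s :=
        hs.extendScalars (algebraMap ℂ (⊥ : Subalgebra ℂ K)).injective
      have hz : ∀ D : Derivation ℂ K K, D s = 0 := by
        intro D
        refine der_eq_zero_of_isAlgebraic ⊥ D ?_ s hs'
        intro a ha
        obtain ⟨c, rfl⟩ := Algebra.mem_bot.mp ha
        exact Derivation.map_algebraMap D c
      apply h
      unfold minor
      rw [hz D₁, hz D₂]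
      ring
    have huniq : Subsingleton {j : Fin 2 // j ≠ 1} := by
      constructor
      rintro ⟨i, hi⟩ ⟨j, hj⟩
      apply Subtype.ext
      change i = j
      omega
    exact (algebraicIndependent_singleton_iff (⟨0, by simp⟩ : {j : Fin 2 // j ≠ 1})).mpr hs
  · rw [himg]
    change Transcendental (Algebra.adjoin ℂ {s}) t
    intro ht
    -- E = D₂ s • D₁ - D₁ s • D₂ kills s
    let E : Derivation ℂ K K := D₂ s • D₁ - D₁ s • D₂
    have hE : ∀ x, E x = D₂ s * D₁ x - D₁ s * D₂ x := by
      intro x; simp [E]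
    have hEs : E s = 0 := by rw [hE]; ring
    have hEt := der_eq_zero_of_isAlgebraic (Algebra.adjoin ℂ {s}) E
      (der_eq_zero_on_adjoin E {s} (by rintro x rfl; exact hEs)) t ht
    apply h
    rw [hE] at hEt
    unfold minor
    linear_combination -hEt

omit [Field K] [Algebra ℂ K] in
theorem range_pair (s t : K) : Set.range ![s, t] = {s, t} := by
  ext z
  simp only [Set.mem_range, Set.mem_insert_iff, Set.mem_singleton_iff]
  constructor
  · rintro ⟨i, rfl⟩
    fin_cases i
    · left; rfl
    · right; rfl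
  · rintro (rfl | rfl)
    · exact ⟨0, rfl⟩
    · exact ⟨1, rfl⟩

/-- `ℂ[s,t]` is a polynomial ring. -/
noncomputable def adjoinEquiv (s t : K) (h : AlgebraicIndependent ℂ ![s, t]) :
    MvPolynomial (Fin 2) ℂ ≃ₐ[ℂ] Algebra.adjoin ℂ ({s, t} : Set K) :=
  h.aevalEquiv.trans (Subalgebra.equivOfEq _ _ (by rw [range_pair]))

theorem isAlgebraic_of_gen (s t X Y : K) (h : AlgebraicIndependent ℂ ![s, t])
    [hXY : Algebra.IsAlgebraic (Algebra.adjoin ℂ ({X, Y} : Set K)) K] :
    Algebra.IsAlgebraic (Algebra.adjoin ℂ ({s, t} : Set K)) K := by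
  have h2 : Algebra.trdeg ℂ K ≤ Cardinal.mk ({X, Y} : Set K) :=
    Algebra.IsAlgebraic.trdeg_le_cardinalMk ℂ ({X, Y} : Set K)
  have h3 : Cardinal.mk ({X, Y} : Set K) ≤ 2 := by
    have := Cardinal.mk_insert_le (s := ({Y} : Set K)) (a := X)
    rw [Cardinal.mk_singleton] at this
    refine this.trans ?_
    norm_num
  have h4 : IsTranscendenceBasis ℂ ![s, t] := by
    refine h.isTranscendenceBasis_of_lift_trdeg_le_of_finite ?_
    have : Cardinal.lift.{0} (Algebra.trdeg ℂ K) ≤ 2 := by
      simpa using h2.trans h3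
    simpa using this
  have h5 := h4.isAlgebraic
  rwa [range_pair] at h5

section Main

open IntermediateField.algebraAdjoinAdjoin

/-- Noether normalization data: `A` is the integral closure of `ℂ[s,t]` in `K`. -/
noncomputable def clos (s t : K) : Subalgebra ℂ K :=
  (integralClosure (Algebra.adjoin ℂ ({s, t} : Set K)) K).restrictScalars ℂ

theorem mem_clos (s t x : K) : x ∈ clos s t ↔ IsIntegral (Algebra.adjoin ℂ ({s, t} : Set K)) x :=
  Iff.rfl

theorem adjoin_le_clos (s t : K) : Algebra.adjoin ℂ ({s, t} : Set K) ≤ clos s t := by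
  intro x hx
  exact isIntegral_algebraMap (R := Algebra.adjoin ℂ ({s, t} : Set K)) (x := ⟨x, hx⟩)

theorem left_mem_clos (s t : K) : s ∈ clos s t :=
  adjoin_le_clos s t (Algebra.subset_adjoin (by simp))

theorem right_mem_clos (s t : K) : t ∈ clos s t :=
  adjoin_le_clos s t (Algebra.subset_adjoin (by simp))

variable (s t : K) (h : AlgebraicIndependent ℂ ![s, t])

include h in
theorem isNoetherianRing_adjoin : IsNoetherianRing (Algebra.adjoin ℂ ({s, t} : Set K)) :=
  isNoetherianRing_of_ringEquiv _ (adjoinEquiv s t h).toRingEquiv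

include h in
theorem isIntegrallyClosed_adjoin : IsIntegrallyClosed (Algebra.adjoin ℂ ({s, t} : Set K)) :=
  IsIntegrallyClosed.of_equiv (adjoinEquiv s t h).toRingEquiv

include h in
theorem ringKrullDim_adjoin : ringKrullDim (Algebra.adjoin ℂ ({s, t} : Set K)) = 2 := by
  rw [← ringKrullDim_eq_of_ringEquiv (adjoinEquiv s t h).toRingEquiv,
    MvPolynomial.ringKrullDim_of_isNoetherianRing, ringKrullDim_eq_zero_of_field]
  simp

include h in
theorem finiteDimensional_adjoin (X Y : K)
    [hXY : Algebra.IsAlgebraic (Algebra.adjoin ℂ ({X, Y} : Set K)) K]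
    (S : Set K) (hSf : S.Finite) (hS : IntermediateField.adjoin ℂ S = ⊤) :
    FiniteDimensional (IntermediateField.adjoin ℂ ({s, t} : Set K)) K := by
  have halg := isAlgebraic_of_gen s t X Y h
  have halg' : Algebra.IsAlgebraic (IntermediateField.adjoin ℂ ({s, t} : Set K)) K :=
    Algebra.IsAlgebraic.extendScalars (R := Algebra.adjoin ℂ ({s, t} : Set K))
      (FaithfulSMul.algebraMap_injective _ _)
  let K₀ := IntermediateField.adjoin ℂ ({s, t} : Set K)
  have h1 : IntermediateField.adjoin K₀ S = ⊤ := by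
    rw [eq_top_iff]
    intro x _
    have hx : x ∈ IntermediateField.adjoin ℂ S := by rw [hS]; trivial
    have hle : IntermediateField.adjoin ℂ S
        ≤ (IntermediateField.adjoin K₀ S).restrictScalars ℂ := by
      rw [IntermediateField.adjoin_le_iff]
      exact IntermediateField.subset_adjoin K₀ S
    exact hle hx
  have : Finite S := hSf
  have h2 : FiniteDimensional K₀ (IntermediateField.adjoin K₀ S) :=
    IntermediateField.finiteDimensional_adjoin fun x _ =>
      (Algebra.IsAlgebraic.isAlgebraic (R := K₀) x).isIntegral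
  rw [h1] at h2
  exact LinearEquiv.finiteDimensional IntermediateField.topEquiv.toLinearEquiv

include h in
theorem clos_finite (hfin : FiniteDimensional (IntermediateField.adjoin ℂ ({s, t} : Set K)) K) :
    Module.Finite (Algebra.adjoin ℂ ({s, t} : Set K))
      (integralClosure (Algebra.adjoin ℂ ({s, t} : Set K)) K) := by
  have := isNoetherianRing_adjoin s t h
  have := isIntegrallyClosed_adjoin s t h
  exact IsIntegralClosure.finite (Algebra.adjoin ℂ ({s, t} : Set K))
    (IntermediateField.adjoin ℂ ({s, t} : Set K)) K _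

end Main

end Crest.Agent.R278
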