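import Mathlib

set_option linter.style.haveILetI false

/-! Row 278 (S0421): punctured valuation criterion, integral closures of `ℂ[s,t]`. -/

namespace Crest.Agent.R278

open Polynomial

/-- coefficients of the minimal polynomial over the fraction field lie in any integrally closed
subring over which the element is integral. -/
theorem coeff_minpoly_mem {S F L : Type*} [CommRing S] [IsDomain S] [IsIntegrallyClosed S]
    [Field F] [Algebra S F] [IsFractionRing S F] [Field L] [Algebra F L] [Algebra S L]
    [IsScalarTower S F L] {f : L} (hf : IsIntegral S f) (i : ℕ) :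
    ∃ a : S, algebraMap S F a = (minpoly F f).coeff i := by
  rw [minpoly.isIntegrallyClosed_eq_field_fractions' F hf]
  exact ⟨_, (Polynomial.coeff_map _ _).symm⟩

/-- An element of the field `L` lying in all valuation subrings containing `B` and `s⁻¹` is
such that its minimal polynomial has coefficients in `B[1/s]`. -/
theorem coeff_minpoly_pow_mul {B F L : Type*} [CommRing B] [IsDomain B] [IsIntegrallyClosed B]
    [Field F] [Algebra B F] [IsFractionRing B F] [Field L] [Algebra F L] [Algebra B L]
    [IsScalarTower B F L] {f : L} (s : B) (hs : s ≠ 0)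
    (h : ∀ V : ValuationSubring L, (∀ b : B, algebraMap B L b ∈ V) → (algebraMap B L s)⁻¹ ∈ V →
      f ∈ V) (i : ℕ) :
    ∃ (n : ℕ) (a : B), algebraMap B F s ^ n * (minpoly F f).coeff i = algebraMap B F a := by
  classical
  let S1 := Localization.Away s
  have hle : Submonoid.powers s ≤ nonZeroDivisors B :=
    powers_le_nonZeroDivisors_of_noZeroDivisors hs
  have hinj : Function.Injective (algebraMap B F) := IsFractionRing.injective B F
  have hsF : algebraMap B F s ≠ 0 := by
    rw [Ne, map_eq_zero_iff _ hinj]; exact hs
  have hu : IsUnit (algebraMap B F s) := hsF.isUnit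
  letI : Algebra S1 F := (IsLocalization.Away.lift (S := S1) s hu).toAlgebra
  haveI : IsScalarTower B S1 F := by
    refine IsScalarTower.of_algebraMap_eq fun b => ?_
    change _ = IsLocalization.Away.lift (S := S1) s hu _
    rw [IsLocalization.Away.lift_eq]
  haveI : IsDomain S1 := IsLocalization.isDomain_localization hle
  haveI : IsFractionRing S1 F :=
    IsFractionRing.isFractionRing_of_isDomain_of_isLocalization (Submonoid.powers s) S1 F
  haveI : IsIntegrallyClosed S1 := isIntegrallyClosed_of_isLocalization S1 (Submonoid.powers s) hle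
  letI : Algebra S1 L := ((algebraMap F L).comp (algebraMap S1 F)).toAlgebra
  haveI : IsScalarTower S1 F L := IsScalarTower.of_algebraMap_eq fun b => rfl
  have hBL : ∀ b : B, algebraMap S1 L (algebraMap B S1 b) = algebraMap B L b := by
    intro b
    rw [IsScalarTower.algebraMap_apply S1 F L, ← IsScalarTower.algebraMap_apply B S1 F,
      ← IsScalarTower.algebraMap_apply B F L]
  -- `f` is integral over `S1`
  have hf : IsIntegral S1 f := by
    set T : Set L := Set.range (algebraMap B L) ∪ {(algebraMap B L s)⁻¹} with hT
    have h1 : f ∈ (⨅ V : {V : ValuationSubring L // T ⊆ V.toSubring}, V.1.toSubring) := by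
      rw [Subring.mem_iInf]
      rintro ⟨V, hV⟩
      exact h V (fun b => hV (Or.inl ⟨b, rfl⟩)) (hV (Or.inr rfl))
    rw [iInf_valuationSubring_superset] at h1
    have h2 : IsIntegral (Subring.closure T) f := h1
    -- the closure is contained in the range of S1
    have h3 : Subring.closure T ≤ (algebraMap S1 L).range := by
      rw [Subring.closure_le]
      rintro x (⟨b, rfl⟩ | rfl)
      · exact ⟨algebraMap B S1 b, hBL b⟩
      · refine ⟨IsLocalization.Away.invSelf s, ?_⟩
        have h4 : algebraMap B S1 s * IsLocalization.Away.invSelf s = 1 :=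
          IsLocalization.Away.mul_invSelf s
        have h5 := congrArg (algebraMap S1 L) h4
        rw [map_mul, map_one, hBL] at h5
        exact eq_inv_of_mul_eq_one_right h5
    obtain ⟨p, hpm, hp⟩ := h2
    -- transport monic polynomial
    have h6 : IsIntegral (algebraMap S1 L).range f := by
      refine ⟨p.map (Subring.inclusion h3), hpm.map _, ?_⟩
      rw [Polynomial.eval₂_map]
      exact hp
    obtain ⟨q, hqm, hq⟩ := h6
    have h7 : IsIntegral (algebraMap S1 L).range f := ⟨q, hqm, hq⟩
    -- lift through the surjection onto range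
    have hsurj : Function.Surjective (algebraMap S1 L).rangeRestrict :=
      RingHom.rangeRestrict_surjective _
    obtain ⟨r, hr1, hr2, hr3⟩ := Polynomial.lifts_and_degree_eq_and_monic
      (f := (algebraMap S1 L).rangeRestrict) ((Polynomial.mem_lifts q).2
        (by
          obtain ⟨r, hr⟩ := Polynomial.map_surjective _ hsurj q
          exact ⟨r, hr⟩)) hqm
    refine ⟨r, hr3, ?_⟩
    have : algebraMap S1 L = (algebraMap (algebraMap S1 L).range L).comp
        (algebraMap S1 L).rangeRestrict := rfl
    rw [this, ← Polynomial.eval₂_map, hr1]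
    exact hq
  obtain ⟨a, ha⟩ := coeff_minpoly_mem (F := F) hf i
  obtain ⟨n, b, hb⟩ := IsLocalization.Away.surj s a
  refine ⟨n, b, ?_⟩
  rw [← ha]
  have := congrArg (algebraMap S1 F) hb
  rw [map_mul, map_pow, ← IsScalarTower.algebraMap_apply B S1 F,
    ← IsScalarTower.algebraMap_apply B S1 F] at this
  rw [mul_comm]
  exact this

/-- **Punctured valuation criterion.** `B` normal, `s, t ∈ B` with
`s^n a = t^m b → s^n ∣ b`-type property (relatively prime). -/
theorem isIntegral_of_forall_valuationSubring {B L : Type*} [CommRing B] [IsDomain B]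
    [IsIntegrallyClosed B] [DecompositionMonoid B]
    [Field L] [Algebra B L] [FaithfulSMul B L] [Algebra.IsAlgebraic B L] {s t : B} (hs : s ≠ 0)
    (ht : t ≠ 0) (hst : IsRelPrime s t) {f : L}
    (h : ∀ V : ValuationSubring L, (∀ b : B, algebraMap B L b ∈ V) →
      ((algebraMap B L s)⁻¹ ∈ V ∨ (algebraMap B L t)⁻¹ ∈ V) → f ∈ V) :
    IsIntegral B f := by
  classical
  let F := FractionRing B
  letI : Algebra F L := FractionRing.liftAlgebra B L
  haveI : IsScalarTower B F L := inferInstance
  haveI : Algebra.IsAlgebraic F L := Algebra.IsAlgebraic.extendScalars (R := B) (S := F) (IsFractionRing.injective B F)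
  have hfi : IsIntegral F f := Algebra.IsIntegral.isIntegral f
  have hinj : Function.Injective (algebraMap B F) := IsFractionRing.injective B F
  have key : ∀ i, (minpoly F f).coeff i ∈ (algebraMap B F).range := by
    intro i
    obtain ⟨n, a, ha⟩ := coeff_minpoly_pow_mul (F := F) s hs
      (fun V h1 h2 => h V h1 (Or.inl h2)) i
    obtain ⟨m, b, hb⟩ := coeff_minpoly_pow_mul (F := F) t ht
      (fun V h1 h2 => h V h1 (Or.inr h2)) i
    have h1 : s ^ n * b = t ^ m * a := by
      apply hinj
      rw [map_mul, map_mul, map_pow, map_pow, ← ha, ← hb]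
      ring
    have h2 : IsRelPrime (s ^ n) (t ^ m) := hst.pow
    have h3 : s ^ n ∣ a := h2.dvd_of_dvd_mul_left ⟨b, h1.symm⟩
    obtain ⟨c, rfl⟩ := h3
    refine ⟨c, ?_⟩
    have h4 : algebraMap B F s ^ n ≠ 0 :=
      pow_ne_zero _ (by rw [Ne, map_eq_zero_iff _ hinj]; exact hs)
    rw [map_mul, map_pow] at ha
    exact (mul_left_cancel₀ h4 ha).symm
  -- lift the minimal polynomial
  have hlift : minpoly F f ∈ Polynomial.lifts (algebraMap B F) := by
    rw [Polynomial.lifts_iff_coeff_lifts]
    intro i
    obtain ⟨c, hc⟩ := key i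
    exact ⟨c, hc⟩
  obtain ⟨r, hr1, hr2, hr3⟩ := Polynomial.lifts_and_degree_eq_and_monic hlift (minpoly.monic hfi)
  refine ⟨r, hr3, ?_⟩
  rw [IsScalarTower.algebraMap_eq B F L, ← Polynomial.eval₂_map, hr1]
  exact minpoly.aeval F f

end Crest.Agent.R278
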