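import Mathlib
import Crest.Agent.R278.Punct
import Crest.Agent.R278.Fin

set_option linter.style.haveILetI false
set_option autoImplicit false

/-! Row 278 (S0421): membership in `clos s t` by a cover of the punctured spectrum. -/

namespace Crest.Agent.R278

open MvPolynomial

variable {K : Type} [Field K] [Algebra ℂ K]

/-- the integral closure of `ℂ[G]` in `K`, as a `ℂ`-subalgebra of `K`. -/
noncomputable def intClos (G : Set K) : Subalgebra ℂ K :=
  (integralClosure (Algebra.adjoin ℂ G) K).restrictScalars ℂ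

theorem mem_intClos {G : Set K} {f : K} :
    f ∈ intClos G ↔ IsIntegral (Algebra.adjoin ℂ G) f := Iff.rfl

theorem subset_intClos {G : Set K} {g : K} (hg : g ∈ G) : g ∈ intClos G :=
  isIntegral_algebraMap (R := Algebra.adjoin ℂ G) (x := ⟨g, Algebra.subset_adjoin hg⟩)

theorem clos_eq_intClos (s t : K) : clos s t = intClos {s, t} := rfl

/-- integral elements lie in every valuation subring containing the ring. -/
theorem mem_valuationSubring_of_isIntegral {R : Type*} [CommRing R] [Algebra R K]
    (V : ValuationSubring K) (hR : ∀ r : R, algebraMap R K r ∈ V) {f : K} (hf : IsIntegral R f) :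
    f ∈ V := by
  obtain ⟨p, hp1, hp2⟩ := hf
  have h1 : IsIntegral V f := by
    let j : R →+* V := (algebraMap R K).codRestrict V (fun r => hR r)
    refine ⟨p.map j, hp1.map _, ?_⟩
    rw [Polynomial.eval₂_map]
    exact hp2
  obtain ⟨v, hv⟩ := IsIntegrallyClosed.isIntegral_iff.1 h1
  rw [← hv]
  exact v.2

theorem adjoin_le_valuationSubring (V : ValuationSubring K)
    (hV : ∀ c : ℂ, algebraMap ℂ K c ∈ V) {G : Set K} (hG : ∀ g ∈ G, g ∈ V) :
    ∀ r ∈ Algebra.adjoin ℂ G, r ∈ V := by
  intro r hr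
  induction hr using Algebra.adjoin_induction with
  | mem x hx => exact hG x hx
  | algebraMap c => exact hV c
  | add x y _ _ hx hy => exact V.add_mem _ _ hx hy
  | mul x y _ _ hx hy => exact V.mul_mem _ _ hx hy

theorem intClos_le_valuationSubring (V : ValuationSubring K)
    (hV : ∀ c : ℂ, algebraMap ℂ K c ∈ V) {G : Set K} (hG : ∀ g ∈ G, g ∈ V) :
    ∀ r ∈ intClos G, r ∈ V := by
  intro r hr
  refine mem_valuationSubring_of_isIntegral (R := Algebra.adjoin ℂ G) V ?_ (mem_intClos.1 hr)
  intro r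
  exact adjoin_le_valuationSubring V hV hG r.1 r.2

/-- membership in `intClos` by valuation subrings. -/
theorem mem_intClos_iff_valuationSubring {G : Set K} {f : K} :
    f ∈ intClos G ↔ ∀ V : ValuationSubring K, (∀ c : ℂ, algebraMap ℂ K c ∈ V) →
      (∀ g ∈ G, g ∈ V) → f ∈ V := by
  constructor
  · intro hf V hV hG
    exact intClos_le_valuationSubring V hV hG f hf
  · intro h
    set T : Set K := Set.range (algebraMap ℂ K) ∪ G with hT
    have h1 : f ∈ (⨅ V : {V : ValuationSubring K // T ⊆ V.toSubring}, V.1.toSubring) := by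
      rw [Subring.mem_iInf]
      rintro ⟨V, hV⟩
      exact h V (fun b => hV (Or.inl ⟨b, rfl⟩)) (fun g hg => hV (Or.inr hg))
    rw [iInf_valuationSubring_superset] at h1
    have h2 : IsIntegral (Subring.closure T) f := h1
    obtain ⟨p, hpm, hp⟩ := h2
    have h3 : Subring.closure T ≤ (Algebra.adjoin ℂ G).toSubring := by
      rw [Subring.closure_le]
      rintro x (⟨b, rfl⟩ | hx)
      · exact (Algebra.adjoin ℂ G).algebraMap_mem b
      · exact Algebra.subset_adjoin hx
    refine ⟨p.map (Subring.inclusion h3), hpm.map _, ?_⟩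
    rw [Polynomial.eval₂_map]
    exact hp

theorem intClos_mono_of_mem {G G' : Set K} (h : ∀ g ∈ G, g ∈ intClos G') :
    intClos G ≤ intClos G' := by
  intro f hf
  rw [mem_intClos_iff_valuationSubring]
  intro V hV hG'
  refine intClos_le_valuationSubring V hV (fun g hg => ?_) f hf
  exact intClos_le_valuationSubring V hV hG' g (h g hg)

/-- **membership in `clos s t` by a cover of the punctured spectrum.** -/
theorem mem_clos_of_cover (s t : K) (hst : AlgebraicIndependent ℂ ![s, t])
    [Algebra.IsAlgebraic (Algebra.adjoin ℂ ({s, t} : Set K)) K]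
    {ι : Type*} (G : ι → Set K)
    (hcov : ∀ V : ValuationSubring K, (∀ c : ℂ, algebraMap ℂ K c ∈ V) → s ∈ V → t ∈ V →
      (s⁻¹ ∈ V ∨ t⁻¹ ∈ V) → ∃ l, ∀ g ∈ G l, g ∈ V)
    (k : K) (hk : ∀ l, k ∈ intClos (G l)) : k ∈ clos s t := by
  classical
  have hinj : Function.Injective (aeval ![s, t] : MvPolynomial (Fin 2) ℂ →ₐ[ℂ] K) := hst
  letI : Algebra (MvPolynomial (Fin 2) ℂ) K :=
    ((aeval ![s, t] : MvPolynomial (Fin 2) ℂ →ₐ[ℂ] K) : MvPolynomial (Fin 2) ℂ →+* K).toAlgebra
  have hmap : ∀ b, algebraMap (MvPolynomial (Fin 2) ℂ) K b = aeval ![s, t] b := fun _ => rfl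
  haveI : FaithfulSMul (MvPolynomial (Fin 2) ℂ) K := by
    rw [faithfulSMul_iff_algebraMap_injective]
    exact hinj
  set R := Algebra.adjoin ℂ ({s, t} : Set K) with hR
  let e := adjoinEquiv s t hst
  have he : ∀ b, ((e b : R) : K) = aeval ![s, t] b := by
    intro b
    have h1 := hst.algebraMap_aevalEquiv b
    rw [← h1]
    rfl
  letI : Algebra (MvPolynomial (Fin 2) ℂ) R := (e : MvPolynomial (Fin 2) ℂ →+* R).toAlgebra
  haveI : IsScalarTower (MvPolynomial (Fin 2) ℂ) R K :=
    IsScalarTower.of_algebraMap_eq fun b => (he b).symm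
  haveI : Algebra.IsIntegral (MvPolynomial (Fin 2) ℂ) R :=
    Algebra.isIntegral_of_surjective e.surjective
  haveI : FaithfulSMul (MvPolynomial (Fin 2) ℂ) R := by
    rw [faithfulSMul_iff_algebraMap_injective]
    exact e.injective
  haveI : Algebra.IsAlgebraic (MvPolynomial (Fin 2) ℂ) K :=
    Algebra.IsAlgebraic.trans (MvPolynomial (Fin 2) ℂ) R K
  have hrel : IsRelPrime (X 0 : MvPolynomial (Fin 2) ℂ) (X 1) := by
    have h0 : Prime (X 0 : MvPolynomial (Fin 2) ℂ) := MvPolynomial.X_prime
    rw [h0.irreducible.isRelPrime_iff_not_dvd]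
    intro hdvd
    rw [MvPolynomial.X_dvd_X] at hdvd
    exact absurd hdvd (by simp)
  have key : IsIntegral (MvPolynomial (Fin 2) ℂ) k := by
    refine isIntegral_of_forall_valuationSubring (X_ne_zero 0) (X_ne_zero 1) hrel ?_
    intro V hV1 hV2
    have hs : algebraMap (MvPolynomial (Fin 2) ℂ) K (X 0) = s := by
      rw [hmap, aeval_X]; rfl
    have ht : algebraMap (MvPolynomial (Fin 2) ℂ) K (X 1) = t := by
      rw [hmap, aeval_X]; rfl
    have hVC : ∀ c : ℂ, algebraMap ℂ K c ∈ V := by
      intro c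
      have := hV1 (C c)
      rw [hmap, aeval_C] at this
      exact this
    have hsV := hV1 (X 0)
    have htV := hV1 (X 1)
    rw [hs] at hsV hV2
    rw [ht] at htV hV2
    obtain ⟨l, hl⟩ := hcov V hVC hsV htV hV2
    exact intClos_le_valuationSubring V hVC hl k (hk l)
  exact key.tower_top (A := R)

end Crest.Agent.R278
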