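import Crest.Agent.R278.DerStable
import Crest.Agent.R278.Cover

/-!
P4 in the form used by `statement_of_charts`: derivations of `K = F(g)` mapping the two chart
coordinates into `intClos {p, q, 1/h}` preserve `intClos {p, q, 1/h}`.
-/

set_option autoImplicit false

namespace Crest.Agent.R278

open MvPolynomial

variable {F : Type*} {K : Type} [Field F] [Algebra ℂ F] [Field K] [Algebra F K] [Algebra ℂ K]
  [IsScalarTower ℂ F K]

theorem mem_intCl_adjoin_iff (S : Set F) (f : K) :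
    f ∈ intCl K (Algebra.adjoin ℂ S) ↔ f ∈ intClos ((algebraMap F K) '' S) := by
  rw [mem_intCl, mem_intClos]
  have hmap : (Algebra.adjoin ℂ S).map (IsScalarTower.toAlgHom ℂ F K) =
      Algebra.adjoin ℂ ((algebraMap F K) '' S) := by
    rw [AlgHom.map_adjoin]
    rfl
  constructor
  · rintro ⟨p, hp, hp0⟩
    let j : Algebra.adjoin ℂ S →+* Algebra.adjoin ℂ ((algebraMap F K) '' S) :=
      ((algebraMap F K).comp (algebraMap (Algebra.adjoin ℂ S) F)).codRestrict
        (Algebra.adjoin ℂ ((algebraMap F K) '' S)) (fun r => by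
          rw [← hmap]
          exact ⟨r.1, r.2, rfl⟩)
    refine ⟨p.map j, hp.map _, ?_⟩
    rw [Polynomial.eval₂_map]
    exact hp0
  · rintro ⟨p, hp, hp0⟩
    let j : Algebra.adjoin ℂ S →+* Algebra.adjoin ℂ ((algebraMap F K) '' S) :=
      ((algebraMap F K).comp (algebraMap (Algebra.adjoin ℂ S) F)).codRestrict
        (Algebra.adjoin ℂ ((algebraMap F K) '' S)) (fun r => by
          rw [← hmap]
          exact ⟨r.1, r.2, rfl⟩)
    have hj : Function.Surjective j := by
      rintro ⟨y, hy⟩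
      have hy' := hy
      rw [← hmap] at hy'
      obtain ⟨r, hr, hry⟩ := hy'
      exact ⟨⟨r, hr⟩, Subtype.ext hry⟩
    obtain ⟨r, hr1, hr2, hr3⟩ := Polynomial.lifts_and_degree_eq_and_monic
      (f := j) ((Polynomial.mem_lifts p).2 (by
        obtain ⟨r, hr⟩ := Polynomial.map_surjective _ hj p
        exact ⟨r, hr⟩)) hp
    refine ⟨r, hr3, ?_⟩
    rw [← hr1, Polynomial.eval₂_map] at hp0
    exact hp0

/-- **P4.** `F` is the field `ℂ(p,q)`, `K = F(g)` Kummer of degree `N`, `h ∈ ℂ[p,q]` nonzero, and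
`(e g)^N = u` with `u, u⁻¹ ∈ ℂ[p,q,1/h]`, `e ∈ F` nonzero. A derivation of `K` mapping `p, q` into
`intClos {p, q, 1/h}` preserves `intClos {p, q, 1/h}`. -/
theorem intClos_der_mem {p q h : F} (hc : IsChart ℂ p q) (hh : h ∈ polyRing ℂ p q) (h0 : h ≠ 0)
    {N : ℕ} {g : K} (hK : IsKummer F N g) {e : F} (he : e ≠ 0) {u : F} (hu0 : u ≠ 0)
    (hu : u ∈ chartRing ℂ p q h) (hu' : u⁻¹ ∈ chartRing ℂ p q h)
    (hg : (algebraMap F K e * g) ^ N = algebraMap F K u) (D : Derivation ℂ K K)
    (hp : D (algebraMap F K p) ∈ intClos {algebraMap F K p, algebraMap F K q,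
      (algebraMap F K h)⁻¹})
    (hq : D (algebraMap F K q) ∈ intClos {algebraMap F K p, algebraMap F K q,
      (algebraMap F K h)⁻¹}) :
    ∀ v ∈ intClos {algebraMap F K p, algebraMap F K q, (algebraMap F K h)⁻¹},
      D v ∈ intClos {algebraMap F K p, algebraMap F K q, (algebraMap F K h)⁻¹} := by
  have hset : (algebraMap F K) '' {p, q, h⁻¹} = {algebraMap F K p, algebraMap F K q,
      (algebraMap F K h)⁻¹} := by
    simp [Set.image_insert_eq]
  intro v hv
  rw [← hset, ← mem_intCl_adjoin_iff] at hv hp hq ⊢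
  exact chart_der_mem hc hh h0 (hK.smul he) hu hu' hu0 hg D hp hq hv

/-- Elements of `intClos {p, q, 1/h}` are `∑ rᵢ (e g)ⁱ` with `rᵢ ∈ ℂ[p,q,1/h]`. -/
theorem intClos_sum {p q h : F} (hc : IsChart ℂ p q) (hh : h ∈ polyRing ℂ p q) (h0 : h ≠ 0)
    {N : ℕ} {g : K} (hK : IsKummer F N g) {e : F} (he : e ≠ 0) {u : F} (hu0 : u ≠ 0)
    (hu : u ∈ chartRing ℂ p q h) (hu' : u⁻¹ ∈ chartRing ℂ p q h)
    (hg : (algebraMap F K e * g) ^ N = algebraMap F K u) {v : K}
    (hv : v ∈ intClos {algebraMap F K p, algebraMap F K q, (algebraMap F K h)⁻¹}) :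
    ∃ r : Fin N → F, (∀ i, r i ∈ chartRing ℂ p q h) ∧
      v = ∑ i, algebraMap F K (r i) * (algebraMap F K e * g) ^ (i : ℕ) := by
  have hset : (algebraMap F K) '' {p, q, h⁻¹} = {algebraMap F K p, algebraMap F K q,
      (algebraMap F K h)⁻¹} := by
    simp [Set.image_insert_eq]
  rw [← hset, ← mem_intCl_adjoin_iff] at hv
  have := hc.chartRing_isIntegrallyClosed hh h0
  have := hc.chartRing_isFractionRing (h := h)
  exact kummer_sum (hK.smul he) hu hu' hu0 hg hv

/-- charts from a fraction ring structure. -/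
theorem isChart_of_isFractionRing {p q : F} [Algebra (MvPolynomial (Fin 2) ℂ) F]
    (halg : ∀ f, algebraMap (MvPolynomial (Fin 2) ℂ) F f = aeval ![p, q] f)
    [IsFractionRing (MvPolynomial (Fin 2) ℂ) F] : IsChart ℂ p q := by
  have hinj : Function.Injective (algebraMap (MvPolynomial (Fin 2) ℂ) F) :=
    IsFractionRing.injective _ _
  constructor
  · intro f g hfg
    exact hinj (by rw [halg, halg]; exact hfg)
  · intro f
    obtain ⟨a, b, hb, hab⟩ := IsFractionRing.div_surjective (A := MvPolynomial (Fin 2) ℂ) f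
    refine ⟨aeval ![p, q] a, (mem_polyRing_iff p q _).2 ⟨a, rfl⟩, aeval ![p, q] b,
      (mem_polyRing_iff p q _).2 ⟨b, rfl⟩, ?_, ?_⟩
    · rw [← halg]
      intro h
      rw [← map_zero (algebraMap (MvPolynomial (Fin 2) ℂ) F)] at h
      exact nonZeroDivisors.ne_zero hb (hinj h)
    · rw [← halg, ← halg, hab]

end Crest.Agent.R278
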