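import Mathlib

/-!
Row 278, part P6: derivations of a finite (algebraic) extension `L` of `ℂ(x,y)`.

* `existsUnique_derivation_extend`: a derivation `S → T` over `R` extends uniquely to `T → T` when
  `T` is formally étale over `S`;
* `existsUnique_derivation`: for `L` algebraic over `F₀ = ℂ(x,y)` and `a b : L` there is a unique
  `D : Derivation ℂ L L` with `D x = a`, `D y = b`; `derivXY a b` is that derivation;
* `derivation_algHom_apply`: chain rule `D (φ f) = φ f_x * D (φ x) + φ f_y * D (φ y)`;
* `derivation_eq_zero_of_adjoin`, `derivation_eq_zero_of_chart`: a derivation killing `p, q` is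
  zero when `L` is algebraic over `ℂ(p,q)`;
* `derivation_root`: `D g = g * D w / (N * w)` if `g ^ N = w`.
-/

namespace Crest.Agent.R278

open MvPolynomial TensorProduct

section General

variable (R : Type*) {S T : Type*} [CommRing R] [CommRing S] [CommRing T]
variable [Algebra R S] [Algebra R T] [Algebra S T] [IsScalarTower R S T]

/-- A derivation `S → T` extends uniquely to `T → T` if `T` is formally étale over `S`. -/
theorem existsUnique_derivation_extend [Algebra.FormallyEtale S T] (d : Derivation R S T) :
    ∃! D : Derivation R T T, ∀ s : S, D (algebraMap S T s) = d s := by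
  classical
  let e := KaehlerDifferential.tensorKaehlerEquivOfFormallyEtale R S T
  refine ⟨((d.liftKaehlerDifferential.liftBaseChange T).comp e.symm.toLinearMap).compDer
    (KaehlerDifferential.D R T), ?_, ?_⟩
  · intro s
    have h1 := KaehlerDifferential.tensorKaehlerEquivOfFormallyEtale_symm_D_algebraMap R S T s
    rw [Derivation.coe_comp]
    change (d.liftKaehlerDifferential.liftBaseChange T)
      (e.symm ((KaehlerDifferential.D R T) ((algebraMap S T) s))) = _
    rw [show e.symm ((KaehlerDifferential.D R T) ((algebraMap S T) s)) =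
      1 ⊗ₜ KaehlerDifferential.D R S s from h1]
    simp
  · intro D hD
    have key : D.liftKaehlerDifferential =
        (d.liftKaehlerDifferential.liftBaseChange T).comp e.symm.toLinearMap := by
      apply LinearMap.ext
      intro w
      obtain ⟨v, rfl⟩ := e.surjective w
      simp only [LinearMap.comp_apply, LinearEquiv.coe_coe, LinearEquiv.symm_apply_apply]
      induction v using TensorProduct.induction_on with
      | zero => simp
      | add u v hu hv => simp only [map_add, hu, hv]
      | tmul t ω =>
        have hω : ω ∈ Submodule.span S (Set.range (KaehlerDifferential.D R S)) := by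
          rw [KaehlerDifferential.span_range_derivation]; trivial
        induction hω using Submodule.span_induction generalizing t with
        | zero => simp
        | add u v _ _ hu hv => simp only [TensorProduct.tmul_add, map_add, hu, hv]
        | smul s u _ hu =>
          rw [← TensorProduct.smul_tmul]
          exact hu (s • t)
        | mem u hu =>
          obtain ⟨s, rfl⟩ := hu
          simp only [e, KaehlerDifferential.tensorKaehlerEquivOfFormallyEtale_apply,
            KaehlerDifferential.mapBaseChange_tmul, KaehlerDifferential.map_D, map_smul,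
            LinearMap.liftBaseChange_tmul, Derivation.liftKaehlerDifferential_comp_D, hD]
    ext t
    have := congrArg (fun l => l (KaehlerDifferential.D R T t)) key
    simpa using this

end General

section Kill

variable {K L : Type*} [Field K] [Field L] [CharZero K] [Algebra K L]

/-- A derivation of `L` killing a subfield `E` (characteristic zero) over which `L` is algebraic
is zero. -/
theorem derivation_eq_zero_of_algebraic {K L : Type*} [CommRing K] [Field L] [Algebra K L]
    (E : Type*) [Field E] [CharZero E] [Algebra E L] [Algebra.IsAlgebraic E L]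
    (D : Derivation K L L) (hE : ∀ t : E, D (algebraMap E L t) = 0) : D = 0 := by
  let D' : Derivation E L L :=
    { toFun := D
      map_add' := map_add D
      map_smul' := by
        intro c t
        simp only [RingHom.id_apply]
        rw [Algebra.smul_def, D.leibniz, hE c, smul_zero, add_zero, smul_eq_mul,
          Algebra.smul_def]
      map_one_eq_zero' := by exact D.map_one_eq_zero
      leibniz' := by exact D.leibniz }
  have : Algebra.IsSeparable E L := inferInstance
  have : Algebra.FormallyUnramified E L := Algebra.FormallyUnramified.of_isSeparable _ _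
  have h0 : D' = 0 := by
    have : D'.liftKaehlerDifferential = 0 := by
      apply LinearMap.ext
      intro w
      rw [Subsingleton.elim w 0, map_zero, map_zero]
    ext t
    have h2 := D'.liftKaehlerDifferential_comp_D t
    rw [this] at h2
    simpa using h2.symm
  ext t
  exact congrArg (fun d : Derivation E L L => d t) h0

/-- A derivation of `L` over `K` (characteristic zero) killing a set `s` such that `L` is
algebraic over `K(s)` is zero. -/
theorem derivation_eq_zero_of_adjoin (s : Set L)
    [Algebra.IsAlgebraic (IntermediateField.adjoin K s) L]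
    (D : Derivation K L L) (h : ∀ t ∈ s, D t = 0) : D = 0 := by
  have hE : ∀ t ∈ IntermediateField.adjoin K s, D t = 0 := by
    intro t ht
    induction ht using IntermediateField.adjoin_induction with
    | mem x hx => exact h x hx
    | algebraMap x => exact D.map_algebraMap x
    | add x y _ _ hx hy => rw [map_add, hx, hy, add_zero]
    | inv x _ hx => rw [D.leibniz_inv, hx, smul_zero]
    | mul x y _ _ hx hy => rw [D.leibniz, hx, hy, smul_zero, smul_zero, add_zero]
  have : CharZero (IntermediateField.adjoin K s) :=
    charZero_of_injective_algebraMap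
      (algebraMap K (IntermediateField.adjoin K s)).injective
  exact derivation_eq_zero_of_algebraic (IntermediateField.adjoin K s) D fun t => hE _ t.2

/-- A derivation of `L` killing `p` and `q` is zero if `L` is algebraic over `K(p,q)`. -/
theorem derivation_eq_zero_of_pair (p q : L)
    [Algebra.IsAlgebraic (IntermediateField.adjoin K {p, q}) L]
    (D : Derivation K L L) (hp : D p = 0) (hq : D q = 0) : D = 0 := by
  refine derivation_eq_zero_of_adjoin {p, q} D ?_
  rintro t (rfl | rfl)
  · exact hp
  · exact hq

/-- `D g = g * D w / (N w)` if `g ^ N = w`. -/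
theorem derivation_root (D : Derivation K L L) {g w : L} {N : ℕ} (hN : N ≠ 0) (hw : w ≠ 0)
    (h : g ^ N = w) : D g = g * D w / (N * w) := by
  have : CharZero L := charZero_of_injective_algebraMap (algebraMap K L).injective
  have hg : g ≠ 0 := by
    rintro rfl
    rw [zero_pow hN] at h
    exact hw h.symm
  have hN' : (N : L) ≠ 0 := Nat.cast_ne_zero.mpr hN
  rw [eq_div_iff (mul_ne_zero hN' hw)]
  have h1 : D w = N * g ^ (N - 1) * D g := by
    rw [← h, D.leibniz_pow]
    simp [mul_assoc]
  rw [h1, ← h]
  obtain ⟨n, rfl⟩ := Nat.exists_eq_succ_of_ne_zero hN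
  simp only [Nat.succ_sub_one, Nat.succ_eq_add_one]
  ring

/-- Chain rule for an algebra homomorphism out of `K[x,y]`. -/
theorem derivation_algHom_apply {K L : Type*} [CommRing K] [CommRing L] [Algebra K L]
    (D : Derivation K L L) (φ : MvPolynomial (Fin 2) K →ₐ[K] L) (f : MvPolynomial (Fin 2) K) :
    D (φ f) = φ (pderiv 0 f) * D (φ (X 0)) + φ (pderiv 1 f) * D (φ (X 1)) := by
  induction f using MvPolynomial.induction_on with
  | C a =>
    have h1 : φ (C a) = algebraMap K L a := φ.commutes a
    simp [h1]
  | add p q hp hq =>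
    simp only [map_add, hp, hq]; ring
  | mul_X p i hp =>
    simp only [map_mul, D.leibniz, hp, Derivation.leibniz, map_add, smul_eq_mul]
    fin_cases i
    · simp [pderiv_X]; ring
    · simp [pderiv_X]; ring

/-- A derivation of `L` killing the two coordinates of a chart `φ : K[x,y] → F` whose field of
fractions is `F`, with `L` algebraic over `F`, is zero. -/
theorem derivation_eq_zero_of_chart {K F L : Type*} [CommRing K] [Field F] [CharZero F] [Field L]
    [Algebra K F] [Algebra F L] [Algebra K L] [IsScalarTower K F L] [Algebra.IsAlgebraic F L]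
    (φ : MvPolynomial (Fin 2) K →ₐ[K] F)
    (hφ : ∀ f : F, ∃ a b : MvPolynomial (Fin 2) K, φ b ≠ 0 ∧ f * φ b = φ a)
    (D : Derivation K L L) (h0 : D (algebraMap F L (φ (X 0))) = 0)
    (h1 : D (algebraMap F L (φ (X 1))) = 0) : D = 0 := by
  have hpoly : ∀ a : MvPolynomial (Fin 2) K, D (algebraMap F L (φ a)) = 0 := by
    intro a
    have h := derivation_algHom_apply D ((IsScalarTower.toAlgHom K F L).comp φ) a
    simp only [AlgHom.comp_apply, IsScalarTower.coe_toAlgHom'] at h
    rw [h, h0, h1, mul_zero, mul_zero, add_zero]
  refine derivation_eq_zero_of_algebraic F D fun f => ?_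
  obtain ⟨a, b, hb, hab⟩ := hφ f
  have h2 : algebraMap F L f * algebraMap F L (φ b) = algebraMap F L (φ a) := by
    rw [← map_mul, hab]
  have h3 := congrArg D h2
  rw [D.leibniz, hpoly a, hpoly b, smul_zero, zero_add, smul_eq_mul] at h3
  rcases mul_eq_zero.mp h3 with h | h
  · exact absurd ((map_eq_zero _).mp h) hb
  · exact h

/-- Same, with the hypothesis that `F` is the fraction field phrased through `φ.toAlgebra`. -/
theorem derivation_eq_zero_of_chart' {K F L : Type*} [Field K] [Field F] [CharZero F] [Field L]
    [Algebra K F] [Algebra F L] [Algebra K L] [IsScalarTower K F L] [Algebra.IsAlgebraic F L]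
    (φ : MvPolynomial (Fin 2) K →ₐ[K] F)
    (hφ : @IsFractionRing (MvPolynomial (Fin 2) K) _ F _ φ.toRingHom.toAlgebra)
    (D : Derivation K L L) (h0 : D (algebraMap F L (φ (X 0))) = 0)
    (h1 : D (algebraMap F L (φ (X 1))) = 0) : D = 0 := by
  refine derivation_eq_zero_of_chart φ ?_ D h0 h1
  let _ : Algebra (MvPolynomial (Fin 2) K) F := φ.toRingHom.toAlgebra
  intro f
  obtain ⟨a, b, hb, hab⟩ := IsFractionRing.div_surjective (A := MvPolynomial (Fin 2) K) f
  have hb0 : algebraMap (MvPolynomial (Fin 2) K) F b ≠ 0 :=
    IsFractionRing.to_map_ne_zero_of_mem_nonZeroDivisors hb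
  refine ⟨a, b, hb0, ?_⟩
  have : f * algebraMap (MvPolynomial (Fin 2) K) F b =
      algebraMap (MvPolynomial (Fin 2) K) F a := by
    rw [← hab, div_mul_cancel₀ _ hb0]
  exact this

end Kill

section Fields

variable {F₀ L : Type*} [Field F₀] [Field L]
variable [Algebra (MvPolynomial (Fin 2) ℂ) F₀] [IsFractionRing (MvPolynomial (Fin 2) ℂ) F₀]
variable [Algebra F₀ L] [Algebra (MvPolynomial (Fin 2) ℂ) L] [Algebra ℂ L]
variable [IsScalarTower (MvPolynomial (Fin 2) ℂ) F₀ L] [IsScalarTower ℂ (MvPolynomial (Fin 2) ℂ) L]

variable (F₀ L) in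
include F₀ in
omit [Algebra ℂ L] [IsScalarTower ℂ (MvPolynomial (Fin 2) ℂ) L] in
theorem formallyEtale_field [Algebra.IsAlgebraic F₀ L] :
    Algebra.FormallyEtale (MvPolynomial (Fin 2) ℂ) L := by
  have : CharZero F₀ := charZero_of_injective_algebraMap
    (IsFractionRing.injective (MvPolynomial (Fin 2) ℂ) F₀)
  have : Algebra.IsSeparable F₀ L := inferInstance
  have : Algebra.FormallyEtale F₀ L := Algebra.FormallyEtale.of_isSeparable F₀ L
  have : Algebra.FormallyEtale (MvPolynomial (Fin 2) ℂ) F₀ :=
    Algebra.FormallyEtale.of_isLocalization (nonZeroDivisors (MvPolynomial (Fin 2) ℂ))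
  exact Algebra.FormallyEtale.comp (MvPolynomial (Fin 2) ℂ) F₀ L

variable (F₀) in
include F₀ in
/-- For `L` algebraic over `ℂ(x,y)`, derivations are freely determined by the values at `x, y`. -/
theorem existsUnique_derivation [Algebra.IsAlgebraic F₀ L] (a b : L) :
    ∃! D : Derivation ℂ L L,
      D (algebraMap (MvPolynomial (Fin 2) ℂ) L (X 0)) = a ∧
      D (algebraMap (MvPolynomial (Fin 2) ℂ) L (X 1)) = b := by
  have := formallyEtale_field F₀ L
  obtain ⟨D, hD, hu⟩ := existsUnique_derivation_extend ℂ
    (mkDerivation ℂ ![a, b] : Derivation ℂ (MvPolynomial (Fin 2) ℂ) L)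
  refine ⟨D, ⟨?_, ?_⟩, ?_⟩
  · rw [hD, mkDerivation_X]; rfl
  · rw [hD, mkDerivation_X]; rfl
  · rintro E ⟨h0, h1⟩
    apply hu
    intro f
    have hE : (E.compAlgebraMap (MvPolynomial (Fin 2) ℂ) :
        Derivation ℂ (MvPolynomial (Fin 2) ℂ) L) = mkDerivation ℂ ![a, b] := by
      apply MvPolynomial.derivation_ext
      intro i
      rw [mkDerivation_X]
      fin_cases i
      · exact h0
      · exact h1
    have := congrArg (fun d : Derivation ℂ (MvPolynomial (Fin 2) ℂ) L => d f) hE
    exact this

variable (F₀) in
include F₀ in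
/-- The derivation of `L` with `D x = a`, `D y = b`. -/
noncomputable def derivXY [Algebra.IsAlgebraic F₀ L] (a b : L) : Derivation ℂ L L :=
  (existsUnique_derivation F₀ a b).choose

variable (F₀) in
theorem derivXY_X0 [Algebra.IsAlgebraic F₀ L] (a b : L) :
    derivXY F₀ a b (algebraMap (MvPolynomial (Fin 2) ℂ) L (X 0)) = a :=
  (existsUnique_derivation F₀ a b).choose_spec.1.1

variable (F₀) in
theorem derivXY_X1 [Algebra.IsAlgebraic F₀ L] (a b : L) :
    derivXY F₀ a b (algebraMap (MvPolynomial (Fin 2) ℂ) L (X 1)) = b :=
  (existsUnique_derivation F₀ a b).choose_spec.1.2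

variable (F₀) in
include F₀ in
/-- Derivations of `L` agreeing on `x` and `y` are equal. -/
theorem derivation_ext_XY [Algebra.IsAlgebraic F₀ L] {D E : Derivation ℂ L L}
    (h0 : D (algebraMap (MvPolynomial (Fin 2) ℂ) L (X 0)) =
      E (algebraMap (MvPolynomial (Fin 2) ℂ) L (X 0)))
    (h1 : D (algebraMap (MvPolynomial (Fin 2) ℂ) L (X 1)) =
      E (algebraMap (MvPolynomial (Fin 2) ℂ) L (X 1))) : D = E :=
  (existsUnique_derivation F₀ _ _).unique ⟨h0, h1⟩ ⟨rfl, rfl⟩

/-- Value of `D` on a polynomial in `x, y`. -/
theorem derivation_algebraMap_apply (D : Derivation ℂ L L) (f : MvPolynomial (Fin 2) ℂ) :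
    D (algebraMap (MvPolynomial (Fin 2) ℂ) L f) =
      algebraMap (MvPolynomial (Fin 2) ℂ) L (pderiv 0 f) *
        D (algebraMap (MvPolynomial (Fin 2) ℂ) L (X 0)) +
      algebraMap (MvPolynomial (Fin 2) ℂ) L (pderiv 1 f) *
        D (algebraMap (MvPolynomial (Fin 2) ℂ) L (X 1)) :=
  derivation_algHom_apply D (IsScalarTower.toAlgHom ℂ (MvPolynomial (Fin 2) ℂ) L) f

end Fields

end Crest.Agent.R278
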