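import Crest.Agent.R278.EVal
import Crest.Agent.R278.Deriv

/-!
P8, final form: for `K = F(g)`, `F = ℂ(x,y)`, a derivation `D` of `K` with `v_E(D x) < 1` and
`v_E(D y) < v_E(y)` maps `A = clos s t` to a proper ideal of `A`.
-/

set_option autoImplicit false

namespace Crest.Agent.R278

open Polynomial

section LD

variable {K : Type*} [Field K] [Algebra ℂ K] {V : ValuationSubring K} {D : Derivation ℂ K K}

/-- `a ≠ 0` and `v (D a) < v a`. -/
def LD (V : ValuationSubring K) (D : Derivation ℂ K K) (a : K) : Prop :=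
  a ≠ 0 ∧ V.valuation (D a) < V.valuation a

theorem LD.mul {a b : K} (ha : LD V D a) (hb : LD V D b) : LD V D (a * b) := by
  refine ⟨mul_ne_zero ha.1 hb.1, ?_⟩
  have hbv : V.valuation b ≠ 0 := by simpa using hb.1
  have hav : V.valuation a ≠ 0 := by simpa using ha.1
  rw [D.leibniz, smul_eq_mul, smul_eq_mul, map_mul]
  refine V.valuation.map_add_lt ?_ ?_
  · rw [map_mul]; exact mul_lt_mul_of_pos_left hb.2 (zero_lt_iff.2 hav)
  · rw [map_mul, mul_comm]; exact mul_lt_mul_of_pos_right ha.2 (zero_lt_iff.2 hbv)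

theorem LD.one : LD V D 1 := by
  refine ⟨one_ne_zero, ?_⟩
  rw [D.map_one_eq_zero, map_zero, map_one]
  exact zero_lt_one

theorem LD.pow {a : K} (ha : LD V D a) (n : ℕ) : LD V D (a ^ n) := by
  induction n with
  | zero => rw [pow_zero]; exact LD.one
  | succ n ih => rw [pow_succ]; exact ih.mul ha

theorem LD.div {a b : K} (ha : LD V D a) (hb : LD V D b) : LD V D (a / b) :=
  ⟨div_ne_zero ha.1 hb.1, val_der_div hb.1 ha.1 ha.2 hb.2⟩

end LD

theorem exists_evxy_of_mem_adjoin {K : Type*} [Field K] [Algebra ℂ K] {x y f : K}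
    (hf : f ∈ Algebra.adjoin ℂ ({x, y} : Set K)) : ∃ P : ℂ[X][X], f = evxy x y P := by
  induction hf using Algebra.adjoin_induction with
  | mem z hz =>
    rcases hz with rfl | hz
    · exact ⟨C X, by rw [evxy, eval₂_C]; simp⟩
    · rw [Set.mem_singleton_iff] at hz
      subst hz
      exact ⟨X, by rw [evxy, eval₂_X]⟩
  | algebraMap c => exact ⟨C (C c), by rw [evxy, eval₂_C]; simp⟩
  | add a b _ _ ha hb =>
    obtain ⟨P, rfl⟩ := ha
    obtain ⟨Q, rfl⟩ := hb
    exact ⟨P + Q, by rw [evxy, evxy, evxy, eval₂_add]⟩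
  | mul a b _ _ ha hb =>
    obtain ⟨P, rfl⟩ := ha
    obtain ⟨Q, rfl⟩ := hb
    exact ⟨P * Q, by rw [evxy, evxy, evxy, eval₂_mul]⟩

section F

variable {F K : Type*} [Field F] [Algebra ℂ F] [Field K] [Algebra F K] [Algebra ℂ K]
  [IsScalarTower ℂ F K]

theorem map_evxy (x y : F) (P : ℂ[X][X]) :
    algebraMap F K (evxy x y P) = evxy (algebraMap F K x) (algebraMap F K y) P := by
  rw [evxy, evxy, hom_eval₂]
  congr 1
  refine RingHom.ext fun p => ?_
  exact (aeval_algebraMap_apply K x p).symm

theorem exists_evxy_div {x y : F} (hc : RatCoord ℂ F x y) (f : F) (hf : f ≠ 0) :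
    ∃ P Q : ℂ[X][X], P ≠ 0 ∧ Q ≠ 0 ∧ f = evxy x y P / evxy x y Q := by
  have hz : f ∈ IntermediateField.adjoin ℂ ({x, y} : Set F) := by rw [hc.top]; trivial
  rw [IntermediateField.mem_adjoin_iff_div] at hz
  obtain ⟨a, ha, b, hb, rfl⟩ := hz
  obtain ⟨P, rfl⟩ := exists_evxy_of_mem_adjoin ha
  obtain ⟨Q, rfl⟩ := exists_evxy_of_mem_adjoin hb
  refine ⟨P, Q, ?_, ?_, rfl⟩
  · rintro rfl; apply hf; rw [evxy, eval₂_zero, zero_div]
  · rintro rfl; apply hf; rw [evxy, evxy, eval₂_zero, div_zero]

theorem IsVE.LD_algebraMap {V : ValuationSubring K} {x y : F} (hc : RatCoord ℂ F x y)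
    (h : IsVE V (algebraMap F K x) (algebraMap F K y)) (D : Derivation ℂ K K)
    (hx : V.valuation (D (algebraMap F K x)) < 1)
    (hy : V.valuation (D (algebraMap F K y)) < V.valuation (algebraMap F K y)) {f : F}
    (hf : f ≠ 0) : LD V D (algebraMap F K f) := by
  obtain ⟨P, Q, hP, hQ, rfl⟩ := exists_evxy_div hc f hf
  rw [map_div₀, map_evxy, map_evxy]
  exact ⟨div_ne_zero (h.ev_ne_zero P hP) (h.ev_ne_zero Q hQ),
    h.der_frac_lt D hx hy P Q hP hQ⟩

theorem IsVE.LD_root {V : ValuationSubring K} {x y : F} (hc : RatCoord ℂ F x y)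
    (h : IsVE V (algebraMap F K x) (algebraMap F K y)) (D : Derivation ℂ K K)
    (hx : V.valuation (D (algebraMap F K x)) < 1)
    (hy : V.valuation (D (algebraMap F K y)) < V.valuation (algebraMap F K y)) {w : F} {g : K}
    {N : ℕ} (hN : 0 < N) (hw : w ≠ 0) (hg : g ^ N = algebraMap F K w) : LD V D g := by
  have hw' : algebraMap F K w ≠ 0 := by simpa using hw
  have hg0 : g ≠ 0 := by
    rintro rfl
    rw [zero_pow hN.ne'] at hg
    exact hw' hg.symm
  refine ⟨hg0, ?_⟩
  rw [derivation_root D hN.ne' hw' hg]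
  have h1 := (h.LD_algebraMap hc D hx hy hw).2
  have hN' : V.valuation ((N : ℕ) : K) = 1 := by
    have := h.complex (c := (N : ℂ)) (by exact_mod_cast hN.ne')
    rwa [map_natCast] at this
  have hwv : V.valuation (algebraMap F K w) ≠ 0 := by simpa using hw
  have hgv : V.valuation g ≠ 0 := by simpa using hg0
  rw [map_div₀, map_mul, map_mul, hN', one_mul]
  calc V.valuation g * V.valuation (D (algebraMap F K w)) / V.valuation (algebraMap F K w)
      < V.valuation g * V.valuation (algebraMap F K w) / V.valuation (algebraMap F K w) :=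
        div_lt_div_of_pos_right (mul_lt_mul_of_pos_left h1 (zero_lt_iff.2 hgv))
          (zero_lt_iff.2 hwv)
    _ = V.valuation g := by rw [mul_div_assoc, div_self hwv, mul_one]

end F

section Final

/-- `KF`-components of integral elements are integral. -/
theorem component_mem_clos {F : Type} [Field F] [Algebra ℂ F] {N : ℕ} (hN : 0 < N) (w : F)
    [Fact (Irreducible (X ^ N - C w : F[X]))] (s t : F) (c : Fin N → F)
    (hf : ∑ i, algebraMap F (KF N w) (c i) * (KF.g N w) ^ (i : ℕ) ∈
      clos (algebraMap F (KF N w) s) (algebraMap F (KF N w) t)) (l : Fin N) :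
    algebraMap F (KF N w) (c l) * (KF.g N w) ^ (l : ℕ) ∈
      clos (algebraMap F (KF N w) s) (algebraMap F (KF N w) t) := by
  set K := KF N w with hK
  set ζ : F := algebraMap ℂ F (Complex.exp (2 * Real.pi * Complex.I / N)) with hζdef
  have hζ : IsPrimitiveRoot ζ N :=
    (Complex.isPrimitiveRoot_exp N hN.ne').map_of_injective (algebraMap ℂ F).injective
  have hcomp := KF.component hN w ζ hζ c l
  have hNK : (N : K) ≠ 0 := by
    have : CharZero K := charZero_of_injective_algebraMap (algebraMap ℂ K).injective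
    exact_mod_cast hN.ne'
  -- constants from `F` fixed by `twist`
  set R := Algebra.adjoin ℂ ({algebraMap F K s, algebraMap F K t} : Set K) with hR
  have hRF : ∀ r ∈ R, ∃ r0 : F, algebraMap F K r0 = r := by
    intro r hr
    have h1 : R ≤ (IsScalarTower.toAlgHom ℂ F K).range := by
      rw [hR, Algebra.adjoin_le_iff]
      rintro z (rfl | hz)
      · exact ⟨s, rfl⟩
      · rw [Set.mem_singleton_iff] at hz; subst hz; exact ⟨t, rfl⟩
    obtain ⟨r0, hr0⟩ := h1 hr
    exact ⟨r0, hr0⟩
  have htw : ∀ (ξ : F) (hξ : ξ ^ N = 1) (v : K), v ∈ clos (algebraMap F K s) (algebraMap F K t) →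
      KF.twist N w ξ hξ v ∈ clos (algebraMap F K s) (algebraMap F K t) := by
    intro ξ hξ v hv
    rw [mem_clos] at hv ⊢
    let σ : K →ₐ[R] K :=
      { (KF.twist N w ξ hξ : K →+* K) with
        commutes' := by
          intro r
          obtain ⟨r0, hr0⟩ := hRF r r.2
          have : (algebraMap R K r) = algebraMap F K r0 := hr0.symm
          simp only [RingHom.toMonoidHom_eq_coe, OneHom.toFun_eq_coe, MonoidHom.toOneHom_coe,
            MonoidHom.coe_coe, RingHom.coe_coe]
          rw [this]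
          exact AlgHom.commutes _ _ }
    exact hv.map σ
  have hsum : (N : K) * (algebraMap F K (c l) * (KF.g N w) ^ (l : ℕ)) ∈
      clos (algebraMap F K s) (algebraMap F K t) := by
    rw [hcomp]
    refine sum_mem fun j _ => mul_mem ?_ (htw _ _ _ hf)
    have : algebraMap F K (ζ⁻¹ ^ ((j : ℕ) * l)) = algebraMap ℂ K
        ((Complex.exp (2 * Real.pi * Complex.I / N))⁻¹ ^ ((j : ℕ) * l)) := by
      rw [hζdef, ← map_inv₀, ← map_pow, ← IsScalarTower.algebraMap_apply ℂ F K]
    rw [this]
    exact Subalgebra.algebraMap_mem _ _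
  have h2 : algebraMap F K (c l) * (KF.g N w) ^ (l : ℕ) = algebraMap ℂ K (N : ℂ)⁻¹ *
      ((N : K) * (algebraMap F K (c l) * (KF.g N w) ^ (l : ℕ))) := by
    rw [map_inv₀, map_natCast, ← mul_assoc, inv_mul_cancel₀ hNK, one_mul]
  rw [h2]
  exact mul_mem (Subalgebra.algebraMap_mem _ _) hsum

/-- **P8.** -/
theorem exists_ideal_of_IsVE {F : Type} [Field F] [Algebra ℂ F] {x y : F}
    (hc : RatCoord ℂ F x y) {N : ℕ} (hN : 0 < N) {w : F} (hw : w ≠ 0)
    [Fact (Irreducible (X ^ N - C w : F[X]))] {s t : F}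
    {V : ValuationSubring (KF N w)}
    (hV : IsVE V (algebraMap F (KF N w) x) (algebraMap F (KF N w) y))
    (hs : algebraMap F (KF N w) s ∈ V) (ht : algebraMap F (KF N w) t ∈ V)
    (D : Derivation ℂ (KF N w) (KF N w))
    (hx : V.valuation (D (algebraMap F (KF N w) x)) < 1)
    (hy : V.valuation (D (algebraMap F (KF N w) y)) < V.valuation (algebraMap F (KF N w) y)) :
    ∃ I : Ideal (clos (algebraMap F (KF N w) s) (algebraMap F (KF N w) t)), I ≠ ⊤ ∧
      ∀ a, a ∈ clos (algebraMap F (KF N w) s) (algebraMap F (KF N w) t) →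
        ∀ h : D a ∈ clos (algebraMap F (KF N w) s) (algebraMap F (KF N w) t),
          (⟨D a, h⟩ : clos (algebraMap F (KF N w) s) (algebraMap F (KF N w) t)) ∈ I := by
  set K := KF N w with hK
  set A := clos (algebraMap F K s) (algebraMap F K t) with hA
  have hVC : ∀ c : ℂ, algebraMap ℂ K c ∈ V := fun c =>
    (V.valuation_le_one_iff _).1 (hV.complex_le c)
  have hAV : ∀ r ∈ A, r ∈ V := by
    intro r hr
    rw [hA, clos_eq_intClos] at hr
    refine intClos_le_valuationSubring V hVC ?_ r hr
    rintro z (rfl | hz)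
    · exact hs
    · rw [Set.mem_singleton_iff] at hz; subst hz; exact ht
  let I : Ideal A :=
    { carrier := {a | V.valuation (a : K) < 1}
      add_mem' := by
        intro a b ha hb
        exact V.valuation.map_add_lt ha hb
      zero_mem' := by
        change V.valuation ((0 : A) : K) < 1
        rw [ZeroMemClass.coe_zero, map_zero]; exact zero_lt_one
      smul_mem' := by
        intro r a ha
        change V.valuation ((r * a : A) : K) < 1
        rw [MulMemClass.coe_mul, map_mul]
        have hr : V.valuation (r : K) ≤ 1 := (V.valuation_le_one_iff _).2 (hAV _ r.2)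
        calc V.valuation (r : K) * V.valuation (a : K) ≤ 1 * V.valuation (a : K) :=
              mul_le_mul_left hr _
          _ = V.valuation (a : K) := one_mul _
          _ < 1 := ha }
  refine ⟨I, ?_, ?_⟩
  · intro h1
    have h2 : (1 : A) ∈ I := by rw [h1]; trivial
    have h3 : V.valuation ((1 : A) : K) < 1 := h2
    rw [OneMemClass.coe_one, map_one] at h3
    exact lt_irrefl _ h3
  · intro a ha h
    change V.valuation (D a) < 1
    obtain ⟨c, rfl⟩ := KF.exists_repr hN w a
    rw [map_sum]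
    refine V.valuation.map_sum_lt one_ne_zero fun i _ => ?_
    by_cases hci : c i = 0
    · rw [hci, map_zero, zero_mul, map_zero, map_zero]; exact zero_lt_one
    · have h1 : LD V D (algebraMap F K (c i) * (KF.g N w) ^ (i : ℕ)) :=
        (hV.LD_algebraMap hc D hx hy hci).mul
          ((hV.LD_root hc D hx hy hN hw (KF.g_pow N w)).pow _)
      refine h1.2.trans_le ?_
      exact (V.valuation_le_one_iff _).2 (hAV _ (component_mem_clos hN w s t c ha i))

end Final

end Crest.Agent.R278
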