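import Crest.Agent.R278.Charts
import Crest.Agent.R278.ChartDer
import Crest.Agent.R278.EIdeal
import Crest.Agent.R278.Deriv

/-!
Row 278 (S0421): assembly of the certificate in chart form, with all conditions in the base field
`F = ℂ(x,y)` of the Kummer extension `K = F(g)`, `g ^ N = w`.
-/

set_option autoImplicit false

namespace Crest.Agent.R278

open MvPolynomial

section Ext

variable {F : Type} [Field F] [Algebra ℂ F] [Algebra (MvPolynomial (Fin 2) ℂ) F]
  [IsScalarTower ℂ (MvPolynomial (Fin 2) ℂ) F] [IsFractionRing (MvPolynomial (Fin 2) ℂ) F]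

/-- the coordinate `x` of `F`. -/
noncomputable abbrev xF (F : Type) [Field F] [Algebra (MvPolynomial (Fin 2) ℂ) F] : F :=
  algebraMap (MvPolynomial (Fin 2) ℂ) F (X 0)

/-- the coordinate `y` of `F`. -/
noncomputable abbrev yF (F : Type) [Field F] [Algebra (MvPolynomial (Fin 2) ℂ) F] : F :=
  algebraMap (MvPolynomial (Fin 2) ℂ) F (X 1)

omit [Algebra ℂ F] [IsScalarTower ℂ (MvPolynomial (Fin 2) ℂ) F]
  [IsFractionRing (MvPolynomial (Fin 2) ℂ) F] in
theorem alg_ne {K : Type} [Field K] [Algebra F K] {b : MvPolynomial (Fin 2) ℂ}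
    (hb : algebraMap (MvPolynomial (Fin 2) ℂ) F b ≠ 0) :
    algebraMap F K (algebraMap (MvPolynomial (Fin 2) ℂ) F b) ≠ 0 := by
  rwa [Ne, map_eq_zero]

/-- Two derivations `V` of `F` and `D` of `K ⊇ F` with `D = γ V` on the coordinates satisfy
`D = γ V` on `F`. -/
theorem der_ext {K : Type} [Field K] [Algebra F K] [Algebra ℂ K] [IsScalarTower ℂ F K]
    (V : Derivation ℂ F F) (D : Derivation ℂ K K) (γ : K)
    (hx : D (algebraMap F K (xF F)) = γ * algebraMap F K (V (xF F)))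
    (hy : D (algebraMap F K (yF F)) = γ * algebraMap F K (V (yF F))) (f : F) :
    D (algebraMap F K f) = γ * algebraMap F K (V f) := by
  have hpoly : ∀ a : MvPolynomial (Fin 2) ℂ,
      D (algebraMap F K (algebraMap (MvPolynomial (Fin 2) ℂ) F a)) =
        γ * algebraMap F K (V (algebraMap (MvPolynomial (Fin 2) ℂ) F a)) := by
    intro a
    have h1 := derivation_algHom_apply D ((IsScalarTower.toAlgHom ℂ F K).comp
      (IsScalarTower.toAlgHom ℂ (MvPolynomial (Fin 2) ℂ) F)) a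
    have h2 := derivation_algHom_apply V (IsScalarTower.toAlgHom ℂ (MvPolynomial (Fin 2) ℂ) F) a
    simp only [AlgHom.comp_apply, IsScalarTower.coe_toAlgHom'] at h1 h2
    rw [h1, h2, hx, hy, map_add, map_mul, map_mul]
    ring
  obtain ⟨a, b, hb, rfl⟩ := IsFractionRing.div_surjective (A := MvPolynomial (Fin 2) ℂ) f
  have hb0 : algebraMap (MvPolynomial (Fin 2) ℂ) F b ≠ 0 :=
    IsFractionRing.to_map_ne_zero_of_mem_nonZeroDivisors hb
  have hb1 := alg_ne (K := K) hb0
  have e1 : D (algebraMap F K (algebraMap (MvPolynomial (Fin 2) ℂ) F a /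
      algebraMap (MvPolynomial (Fin 2) ℂ) F b)) =
      (algebraMap F K (algebraMap (MvPolynomial (Fin 2) ℂ) F b) *
        D (algebraMap F K (algebraMap (MvPolynomial (Fin 2) ℂ) F a)) -
        algebraMap F K (algebraMap (MvPolynomial (Fin 2) ℂ) F a) *
        D (algebraMap F K (algebraMap (MvPolynomial (Fin 2) ℂ) F b))) /
        algebraMap F K (algebraMap (MvPolynomial (Fin 2) ℂ) F b) ^ 2 := by
    rw [map_div₀, D.leibniz_div]
    simp only [smul_eq_mul]
    field_simp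
  have e2 : V (algebraMap (MvPolynomial (Fin 2) ℂ) F a /
      algebraMap (MvPolynomial (Fin 2) ℂ) F b) =
      (algebraMap (MvPolynomial (Fin 2) ℂ) F b * V (algebraMap (MvPolynomial (Fin 2) ℂ) F a) -
        algebraMap (MvPolynomial (Fin 2) ℂ) F a * V (algebraMap (MvPolynomial (Fin 2) ℂ) F b)) /
        algebraMap (MvPolynomial (Fin 2) ℂ) F b ^ 2 := by
    rw [V.leibniz_div]
    simp only [smul_eq_mul]
    field_simp
  rw [e1, e2, hpoly, hpoly, map_div₀, map_sub, map_mul, map_mul, map_pow]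
  field_simp

/-- Existence of the derivation `γ V` of `K`. -/
theorem exists_der {K : Type} [Field K] [Algebra F K] [Algebra ℂ K] [IsScalarTower ℂ F K]
    [Algebra.IsAlgebraic F K] (V : Derivation ℂ F F) (γ : K) :
    ∃ D : Derivation ℂ K K, ∀ f : F, D (algebraMap F K f) = γ * algebraMap F K (V f) := by
  let _ : Algebra (MvPolynomial (Fin 2) ℂ) K :=
    ((algebraMap F K).comp (algebraMap (MvPolynomial (Fin 2) ℂ) F)).toAlgebra
  have : IsScalarTower (MvPolynomial (Fin 2) ℂ) F K := IsScalarTower.of_algebraMap_eq fun _ => rfl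
  have : IsScalarTower ℂ (MvPolynomial (Fin 2) ℂ) K := by
    refine IsScalarTower.of_algebraMap_eq fun c => ?_
    change algebraMap ℂ K c = algebraMap F K (algebraMap (MvPolynomial (Fin 2) ℂ) F
      (algebraMap ℂ (MvPolynomial (Fin 2) ℂ) c))
    rw [← IsScalarTower.algebraMap_apply ℂ (MvPolynomial (Fin 2) ℂ) F,
      ← IsScalarTower.algebraMap_apply ℂ F K]
  refine ⟨derivXY F (γ * algebraMap F K (V (xF F))) (γ * algebraMap F K (V (yF F))), ?_⟩
  exact der_ext V _ γ (derivXY_X0 F _ _) (derivXY_X1 F _ _)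

omit [Algebra (MvPolynomial (Fin 2) ℂ) F] [IsScalarTower ℂ (MvPolynomial (Fin 2) ℂ) F]
  [IsFractionRing (MvPolynomial (Fin 2) ℂ) F] in
theorem RatCoord.isChart {p q : F} (h : RatCoord ℂ F p q) : IsChart ℂ p q := by
  refine ⟨h.ind, fun f => ?_⟩
  obtain ⟨a, b, hb, rfl⟩ := h.exists_div f
  refine ⟨_, (mem_polyRing_iff p q _).2 ⟨a, rfl⟩, _, (mem_polyRing_iff p q _).2 ⟨b, rfl⟩, ?_, rfl⟩
  intro h0
  exact hb ((injective_iff_map_eq_zero _).1 h.ind b h0)

end Ext

/-- The conclusion of S0421. -/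
def Concl : Prop :=
    ∃ (A : Type) (_ : CommRing A) (_ : Algebra ℂ A),
      IsDomain A ∧ Algebra.FiniteType ℂ A ∧ IsIntegrallyClosed A ∧
      ringKrullDim A = 2 ∧
      Nonempty (Derivation ℂ A A ≃ₗ[A] (Fin 2 → A)) ∧
      ∃ (m : Ideal A) (_ : m.IsMaximal), ¬ IsRegularLocalRing (Localization.AtPrime m)

section Minor

/-- If `D₁, D₂` are independent and `K` is algebraic over `ℂ(s,t)`, the minor of `s, t` is
nonzero. -/
theorem minor_ne_zero {K : Type} [Field K] [Algebra ℂ K] (D₁ D₂ : Derivation ℂ K K) {p q : K}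
    (hpq : minor D₁ D₂ p q ≠ 0) (s t : K)
    [Algebra.IsAlgebraic (IntermediateField.adjoin ℂ {s, t}) K] : minor D₁ D₂ s t ≠ 0 := by
  intro h
  unfold minor at h hpq
  -- the combination killing `s` and `t`
  have hA : D₂ s • D₁ - D₁ s • D₂ = 0 := by
    refine derivation_eq_zero_of_pair s t _ ?_ ?_
    · simp only [Derivation.sub_apply, Derivation.smul_apply, smul_eq_mul]; ring
    · simp only [Derivation.sub_apply, Derivation.smul_apply, smul_eq_mul]
      linear_combination -h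
  have hB : D₂ t • D₁ - D₁ t • D₂ = 0 := by
    refine derivation_eq_zero_of_pair s t _ ?_ ?_
    · simp only [Derivation.sub_apply, Derivation.smul_apply, smul_eq_mul]
      linear_combination h
    · simp only [Derivation.sub_apply, Derivation.smul_apply, smul_eq_mul]; ring
  have hA' : ∀ k, D₂ s * D₁ k - D₁ s * D₂ k = 0 := fun k => by
    have := congrArg (fun D : Derivation ℂ K K => D k) hA
    simpa [Derivation.sub_apply] using this
  have hB' : ∀ k, D₂ t * D₁ k - D₁ t * D₂ k = 0 := fun k => by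
    have := congrArg (fun D : Derivation ℂ K K => D k) hB
    simpa [Derivation.sub_apply] using this
  have h1 : D₁ s = 0 := by
    have : D₁ s * (D₁ p * D₂ q - D₁ q * D₂ p) = 0 := by
      linear_combination D₁ q * hA' p - D₁ p * hA' q
    exact (mul_eq_zero.1 this).resolve_right hpq
  have h2 : D₁ t = 0 := by
    have : D₁ t * (D₁ p * D₂ q - D₁ q * D₂ p) = 0 := by
      linear_combination D₁ q * hB' p - D₁ p * hB' q
    exact (mul_eq_zero.1 this).resolve_right hpq
  have h3 : D₁ = 0 := derivation_eq_zero_of_pair s t _ h1 h2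
  rw [h3] at hpq
  simp at hpq

end Minor

section Main

variable {F : Type} [Field F] [Algebra ℂ F] [Algebra (MvPolynomial (Fin 2) ℂ) F]
  [IsScalarTower ℂ (MvPolynomial (Fin 2) ℂ) F] [IsFractionRing (MvPolynomial (Fin 2) ℂ) F]

omit [Algebra (MvPolynomial (Fin 2) ℂ) F] [IsScalarTower ℂ (MvPolynomial (Fin 2) ℂ) F]
  [IsFractionRing (MvPolynomial (Fin 2) ℂ) F] in
theorem alg_mem_intClos {K : Type} [Field K] [Algebra F K] [Algebra ℂ K] [IsScalarTower ℂ F K]
    {p q h r : F} (hr : r ∈ chartRing ℂ p q h) :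
    algebraMap F K r ∈ intClos {algebraMap F K p, algebraMap F K q, (algebraMap F K h)⁻¹} := by
  have h1 := map_chartRing (K := K) hr
  exact isIntegral_algebraMap (R := Algebra.adjoin ℂ ({algebraMap F K p, algebraMap F K q,
    (algebraMap F K h)⁻¹} : Set K)) (x := ⟨_, h1⟩)

omit [Algebra (MvPolynomial (Fin 2) ℂ) F] [IsScalarTower ℂ (MvPolynomial (Fin 2) ℂ) F]
  [IsFractionRing (MvPolynomial (Fin 2) ℂ) F] in
/-- membership of `r g^m` in a chart. -/
theorem mul_pow_mem_intClos {K : Type} [Field K] [Algebra F K] [Algebra ℂ K]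
    [IsScalarTower ℂ F K] {N : ℕ} (hN : 0 < N) {g : K} {w p q h e r : F} (m : ℕ)
    (hg : g ^ N = algebraMap F K w) (he : e ≠ 0)
    (hu : e ^ N * w ∈ chartRing ℂ p q h) (hr : r / e ^ m ∈ chartRing ℂ p q h) :
    algebraMap F K r * g ^ m ∈
      intClos {algebraMap F K p, algebraMap F K q, (algebraMap F K h)⁻¹} := by
  have he' : algebraMap F K e ≠ 0 := by rwa [Ne, map_eq_zero]
  have h1 : algebraMap F K e * g ∈
      intClos {algebraMap F K p, algebraMap F K q, (algebraMap F K h)⁻¹} := by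
    have h2 : (algebraMap F K e * g) ^ N ∈
        intClos {algebraMap F K p, algebraMap F K q, (algebraMap F K h)⁻¹} := by
      rw [mul_pow, hg, ← map_pow, ← map_mul]
      exact alg_mem_intClos hu
    exact IsIntegral.of_pow hN h2
  have h3 : algebraMap F K r * g ^ m =
      algebraMap F K (r / e ^ m) * (algebraMap F K e * g) ^ m := by
    rw [map_div₀, map_pow, mul_pow]
    field_simp
  rw [h3]
  exact Subalgebra.mul_mem _ (alg_mem_intClos hr) (Subalgebra.pow_mem _ h1 m)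

theorem KF.isKummer {F : Type} [Field F] {N : ℕ} (hN : 0 < N) (w : F)
    [Fact (Irreducible (Polynomial.X ^ N - Polynomial.C w : Polynomial F))] :
    IsKummer F N (KF.g N w) :=
  ⟨hN, ⟨KF.basis hN w, KF.basis_apply hN w⟩, ⟨w, KF.g_pow N w⟩⟩

omit [Algebra (MvPolynomial (Fin 2) ℂ) F] [IsScalarTower ℂ (MvPolynomial (Fin 2) ℂ) F]
  [IsFractionRing (MvPolynomial (Fin 2) ℂ) F] in
theorem indep_alg {K : Type} [Field K] [Algebra F K] [Algebra ℂ K] [IsScalarTower ℂ F K]
    {x y : F} (h : AlgebraicIndependent ℂ ![x, y]) :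
    AlgebraicIndependent ℂ ![algebraMap F K x, algebraMap F K y] := by
  have h2 := h.map' (f := IsScalarTower.toAlgHom ℂ F K) (algebraMap F K).injective
  have h3 : (⇑(IsScalarTower.toAlgHom ℂ F K) ∘ ![x, y]) = ![algebraMap F K x, algebraMap F K y] := by
    funext i
    fin_cases i <;> simp
  rw [h3] at h2
  exact h2

/-- **Assembly theorem**: the certificate in chart form, with all conditions in `F = ℂ(x,y)`. -/
theorem concl_of_kummer_charts {N : ℕ} (hN : 0 < N) {w : F} (hw : w ≠ 0)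
    [Fact (Irreducible (Polynomial.X ^ N - Polynomial.C w : Polynomial F))]
    (V₁ V₂ : Derivation ℂ F F) (r₁ r₂ : F) (m₁ m₂ : ℕ) (s t : F)
    [Algebra.IsAlgebraic (IntermediateField.adjoin ℂ
      {algebraMap F (KF N w) s, algebraMap F (KF N w) t}) (KF N w)]
    {ι : Type*} [Finite ι] [Nonempty ι] (p q h e : ι → F)
    (hc : ∀ l, RatCoord ℂ F (p l) (q l))
    (hh : ∀ l, h l ∈ polyRing ℂ (p l) (q l)) (h0 : ∀ l, h l ≠ 0)
    (he : ∀ l, e l ≠ 0) (hu : ∀ l, e l ^ N * w ∈ chartRing ℂ (p l) (q l) (h l))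
    (hu' : ∀ l, (e l ^ N * w)⁻¹ ∈ chartRing ℂ (p l) (q l) (h l))
    (h1p : ∀ l, r₁ * V₁ (p l) / e l ^ m₁ ∈ chartRing ℂ (p l) (q l) (h l))
    (h1q : ∀ l, r₁ * V₁ (q l) / e l ^ m₁ ∈ chartRing ℂ (p l) (q l) (h l))
    (h2p : ∀ l, r₂ * V₂ (p l) / e l ^ m₂ ∈ chartRing ℂ (p l) (q l) (h l))
    (h2q : ∀ l, r₂ * V₂ (q l) / e l ^ m₂ ∈ chartRing ℂ (p l) (q l) (h l))
    (hm0 : ∀ l, r₁ * r₂ * (V₁ (p l) * V₂ (q l) - V₁ (q l) * V₂ (p l)) ≠ 0)
    (hm : ∀ l, (r₁ * r₂ * (V₁ (p l) * V₂ (q l) - V₁ (q l) * V₂ (p l)) / e l ^ (m₁ + m₂))⁻¹ ∈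
      chartRing ℂ (p l) (q l) (h l))
    (hle : ∀ l, clos (algebraMap F (KF N w) s) (algebraMap F (KF N w) t) ≤
      intClos {algebraMap F (KF N w) (p l), algebraMap F (KF N w) (q l),
        (algebraMap F (KF N w) (h l))⁻¹})
    (hinter : ∀ k : KF N w, (∀ l, k ∈ intClos {algebraMap F (KF N w) (p l),
      algebraMap F (KF N w) (q l), (algebraMap F (KF N w) (h l))⁻¹}) →
      k ∈ clos (algebraMap F (KF N w) s) (algebraMap F (KF N w) t))
    (b : ι → KF N w)
    (hb : ∀ l, b l ∈ clos (algebraMap F (KF N w) s) (algebraMap F (KF N w) t))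
    (hbp : ∀ l, b l * algebraMap F (KF N w) (p l) ∈
      clos (algebraMap F (KF N w) s) (algebraMap F (KF N w) t))
    (hbq : ∀ l, b l * algebraMap F (KF N w) (q l) ∈
      clos (algebraMap F (KF N w) s) (algebraMap F (KF N w) t))
    (hb0 : ∀ l, b l ≠ 0)
    (hbi : ∀ l, (b l)⁻¹ ∈ intClos {algebraMap F (KF N w) (p l),
      algebraMap F (KF N w) (q l), (algebraMap F (KF N w) (h l))⁻¹})
    (hE : ∀ V : ValuationSubring (KF N w),
      IsVE V (algebraMap F (KF N w) (xF F)) (algebraMap F (KF N w) (yF F)) →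
      algebraMap F (KF N w) s ∈ V ∧ algebraMap F (KF N w) t ∈ V ∧
      V.valuation (algebraMap F (KF N w) (r₁ * V₁ (xF F)) * KF.g N w ^ m₁) < 1 ∧
      V.valuation (algebraMap F (KF N w) (r₁ * V₁ (yF F)) * KF.g N w ^ m₁) <
        V.valuation (algebraMap F (KF N w) (yF F))) : Concl := by
  set g : KF N w := KF.g N w with hgdef
  have hfin : Module.Finite F (KF N w) := Module.Finite.of_basis (KF.basis hN w)
  have hg : g ^ N = algebraMap F (KF N w) w := KF.g_pow N w
  have hg0 : g ≠ 0 := KF.g_ne_zero hN hw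
  have hcoord : RatCoord ℂ F (xF F) (yF F) := RatCoord.coord
  obtain ⟨D₁, hD₁⟩ := exists_der (K := KF N w) V₁ (algebraMap F (KF N w) r₁ * g ^ m₁)
  obtain ⟨D₂, hD₂⟩ := exists_der (K := KF N w) V₂ (algebraMap F (KF N w) r₂ * g ^ m₂)
  have hD₁' : ∀ f : F, D₁ (algebraMap F (KF N w) f) = algebraMap F (KF N w) (r₁ * V₁ f) * g ^ m₁ := fun f => by
    rw [hD₁, map_mul]; ring
  have hD₂' : ∀ f : F, D₂ (algebraMap F (KF N w) f) = algebraMap F (KF N w) (r₂ * V₂ f) * g ^ m₂ := fun f => by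
    rw [hD₂, map_mul]; ring
  have hminor : ∀ f f' : F, minor D₁ D₂ (algebraMap F (KF N w) f) (algebraMap F (KF N w) f') =
      algebraMap F (KF N w) (r₁ * r₂ * (V₁ f * V₂ f' - V₁ f' * V₂ f)) * g ^ (m₁ + m₂) := fun f f' => by
    unfold minor
    rw [hD₁, hD₂, hD₁, hD₂, map_mul, map_mul, map_sub, map_mul, map_mul, pow_add]
    ring
  have hminor0 : ∀ l, minor D₁ D₂ (algebraMap F (KF N w) (p l)) (algebraMap F (KF N w) (q l)) ≠ 0 := by
    intro l
    rw [hminor]
    exact mul_ne_zero (by rw [Ne, map_eq_zero]; exact hm0 l) (pow_ne_zero _ hg0)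
  -- stability
  have hstab : ∀ (V : Derivation ℂ F F) (r : F) (m : ℕ) (D : Derivation ℂ (KF N w) (KF N w))
      (_ : ∀ f : F, D (algebraMap F (KF N w) f) = algebraMap F (KF N w) (r * V f) * g ^ m)
      (_ : ∀ l, r * V (p l) / e l ^ m ∈ chartRing ℂ (p l) (q l) (h l))
      (_ : ∀ l, r * V (q l) / e l ^ m ∈ chartRing ℂ (p l) (q l) (h l)) (l : ι),
      ∀ a ∈ intClos {algebraMap F (KF N w) (p l), algebraMap F (KF N w) (q l), (algebraMap F (KF N w) (h l))⁻¹},
      D a ∈ intClos {algebraMap F (KF N w) (p l), algebraMap F (KF N w) (q l), (algebraMap F (KF N w) (h l))⁻¹} := by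
    intro V r m D hD hp hq l
    refine intClos_der_mem (hc l).isChart (hh l) (h0 l) (KF.isKummer hN w) (he l)
      (mul_ne_zero (pow_ne_zero N (he l)) hw) (hu l) (hu' l) ?_ D ?_ ?_
    · rw [mul_pow, ← hgdef, hg, map_mul, map_pow]
    · rw [hD]
      exact mul_pow_mem_intClos hN m hg (he l) (hu l) (hp l)
    · rw [hD]
      exact mul_pow_mem_intClos hN m hg (he l) (hu l) (hq l)
  obtain ⟨V, hV⟩ := exists_VE (K := KF N w) (indep_alg hcoord.ind)
  obtain ⟨hs, ht, hx, hy⟩ := hE V hV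
  obtain ⟨I, hI, hDI⟩ := exists_ideal_of_IsVE hcoord hN hw hV hs ht D₁
    (by rw [hD₁']; exact hx) (by rw [hD₁']; exact hy)
  have hadj := KF.adjoin_eq_top (k := ℂ) hN w (xF F) (yF F) hcoord
  have halg := KF.isAlgebraic (k := ℂ) hN w (xF F) (yF F) hcoord
  exact statement_of_charts (KF N w) D₁ D₂ (algebraMap F (KF N w) (xF F)) (algebraMap F (KF N w) (yF F))
    _ (by simp) hadj (algebraMap F (KF N w) s) (algebraMap F (KF N w) t)
    (minor_ne_zero D₁ D₂ (hminor0 (Classical.arbitrary ι)) _ _)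
    (fun l => intClos {algebraMap F (KF N w) (p l), algebraMap F (KF N w) (q l), (algebraMap F (KF N w) (h l))⁻¹})
    hle hinter (hstab V₁ r₁ m₁ D₁ hD₁' h1p h1q) (hstab V₂ r₂ m₂ D₂ hD₂' h2p h2q) b
    (fun l => algebraMap F (KF N w) (p l)) (fun l => algebraMap F (KF N w) (q l)) hb hbp hbq hb0 hbi hminor0
    (fun l => by
      change (minor D₁ D₂ (algebraMap F (KF N w) (p l)) (algebraMap F (KF N w) (q l)))⁻¹ ∈ _
      have h1 : (minor D₁ D₂ (algebraMap F (KF N w) (p l)) (algebraMap F (KF N w) (q l)))⁻¹ =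
        algebraMap F (KF N w) (r₁ * r₂ * (V₁ (p l) * V₂ (q l) - V₁ (q l) * V₂ (p l)))⁻¹ *
          g⁻¹ ^ (m₁ + m₂) := by
        rw [hminor, mul_inv, map_inv₀, inv_pow]
      rw [h1]
      refine mul_pow_mem_intClos (w := w⁻¹) (e := (e l)⁻¹) hN (m₁ + m₂) ?_
        (inv_ne_zero (he l)) ?_ ?_
      · rw [inv_pow, hg, map_inv₀]
      · rw [inv_pow, ← mul_inv]; exact hu' l
      · have h2 : (r₁ * r₂ * (V₁ (p l) * V₂ (q l) - V₁ (q l) * V₂ (p l)))⁻¹ /
            (e l)⁻¹ ^ (m₁ + m₂) =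
            (r₁ * r₂ * (V₁ (p l) * V₂ (q l) - V₁ (q l) * V₂ (p l)) / e l ^ (m₁ + m₂))⁻¹ := by
          rw [inv_pow, inv_div, div_inv_eq_mul, div_eq_mul_inv, mul_comm]
        rw [h2]
        exact hm l)
    I hI hDI

end Main

end Crest.Agent.R278
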