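import Crest.Agent.R278.Fin

set_option autoImplicit false

namespace Crest.Agent.R278

section

variable {K : Type} [Field K] [Algebra ℂ K]

open IntermediateField.algebraAdjoinAdjoin

theorem clos_finiteType (s t : K) (h : AlgebraicIndependent ℂ ![s, t])
    (hfin : FiniteDimensional (IntermediateField.adjoin ℂ ({s, t} : Set K)) K) :
    Algebra.FiniteType ℂ (clos s t) := by
  have h1 := clos_finite s t h hfin
  have h2 : Algebra.FiniteType ℂ (Algebra.adjoin ℂ ({s, t} : Set K)) := by
    rw [← Subalgebra.fg_iff_finiteType]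
    exact Subalgebra.fg_def.mpr ⟨{s, t}, Set.toFinite _, rfl⟩
  have h3 : Algebra.FiniteType (Algebra.adjoin ℂ ({s, t} : Set K))
      (integralClosure (Algebra.adjoin ℂ ({s, t} : Set K)) K) := inferInstance
  have h4 : Algebra.FiniteType ℂ (integralClosure (Algebra.adjoin ℂ ({s, t} : Set K)) K) :=
    Algebra.FiniteType.trans h2 h3
  exact h4

theorem clos_isIntegrallyClosed (s t : K)
    (hfin : FiniteDimensional (IntermediateField.adjoin ℂ ({s, t} : Set K)) K) :
    IsIntegrallyClosed (clos s t) := by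
  have : IsIntegrallyClosed (integralClosure (Algebra.adjoin ℂ ({s, t} : Set K)) K) :=
    integralClosure.isIntegrallyClosedOfFiniteExtension
      (IntermediateField.adjoin ℂ ({s, t} : Set K))
  exact this

theorem clos_dim (s t : K) (h : AlgebraicIndependent ℂ ![s, t]) :
    ringKrullDim (clos s t) = 2 := by
  have h1 : ringKrullDim (integralClosure (Algebra.adjoin ℂ ({s, t} : Set K)) K)
      = ringKrullDim (Algebra.adjoin ℂ ({s, t} : Set K)) := by
    apply ringKrullDim_eq_of_isIntegral
    intro a b hab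
    have h2 : ((algebraMap (Algebra.adjoin ℂ ({s, t} : Set K))
        (integralClosure (Algebra.adjoin ℂ ({s, t} : Set K)) K) a : _) : K)
        = ((algebraMap (Algebra.adjoin ℂ ({s, t} : Set K))
        (integralClosure (Algebra.adjoin ℂ ({s, t} : Set K)) K) b : _) : K) := by rw [hab]
    exact Subtype.ext h2
  rw [ringKrullDim_adjoin s t h] at h1
  exact h1

/-- Zariski's lemma. -/
theorem exists_const_sub_mem (A : Subalgebra ℂ K) [Algebra.FiniteType ℂ A] (m : Ideal A)
    [m.IsMaximal] (a : A) : ∃ c : ℂ, a - algebraMap ℂ A c ∈ m := by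
  let _ : Field (A ⧸ m) := Ideal.Quotient.field m
  have h1 : Module.Finite ℂ (A ⧸ m) := finite_of_finite_type_of_isJacobsonRing ℂ (A ⧸ m)
  have h2 : Function.Bijective (algebraMap ℂ (A ⧸ m)) :=
    IsAlgClosed.algebraMap_bijective_of_isIntegral
  obtain ⟨c, hc⟩ := h2.2 (Ideal.Quotient.mk m a)
  refine ⟨c, ?_⟩
  rw [← Ideal.Quotient.eq_zero_iff_mem, map_sub, ← hc]
  exact sub_self _

end

/-- **The certificate theorem for S0421.**  `K` is a field, finitely generated over `ℂ` and
algebraic over `ℂ[X,Y]`; `A = clos s t` is the integral closure of `ℂ[s,t]` in `K`; `D₁, D₂` are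
derivations of `K` preserving `A`, with nonzero minor on `(s,t)`; finitely many pairs in `A` have
minors generating an ideal of grade at least two (in the weak sense `hgr`); `m` is a maximal ideal
preserved by `D₁`. -/
theorem statement_of_cert (K : Type) [Field K] [Algebra ℂ K] (D₁ D₂ : Derivation ℂ K K)
    (X Y : K) [Algebra.IsAlgebraic (Algebra.adjoin ℂ ({X, Y} : Set K)) K]
    (S : Set K) (hSf : S.Finite) (hS : IntermediateField.adjoin ℂ S = ⊤)
    (s t : K) (hst : minor D₁ D₂ s t ≠ 0)
    (h1 : ∀ a ∈ clos s t, D₁ a ∈ clos s t) (h2 : ∀ a ∈ clos s t, D₂ a ∈ clos s t)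
    {ι : Type*} [Finite ι] (x y : ι → K) (hx : ∀ i, x i ∈ clos s t) (hy : ∀ i, y i ∈ clos s t)
    (hgr : ∀ k : K, (∀ i, minor D₁ D₂ (x i) (y i) * k ∈ clos s t) → k ∈ clos s t)
    (m : Ideal (clos s t)) [hm : m.IsMaximal]
    (hm1 : ∀ a : clos s t, a ∈ m → (⟨D₁ a, h1 a a.2⟩ : clos s t) ∈ m) :
    ∃ (A : Type) (_ : CommRing A) (_ : Algebra ℂ A),
      IsDomain A ∧ Algebra.FiniteType ℂ A ∧ IsIntegrallyClosed A ∧
      ringKrullDim A = 2 ∧
      Nonempty (Derivation ℂ A A ≃ₗ[A] (Fin 2 → A)) ∧
      ∃ (m : Ideal A) (_ : m.IsMaximal), ¬ IsRegularLocalRing (Localization.AtPrime m) := by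
  have hind := algebraicIndependent_of_minor D₁ D₂ s t hst
  have hfin := finiteDimensional_adjoin s t hind X Y S hSf hS
  have hft := clos_finiteType s t hind hfin
  refine ⟨clos s t, inferInstance, inferInstance, inferInstance, hft,
    clos_isIntegrallyClosed s t hfin, clos_dim s t hind, ?_, m, hm, ?_⟩
  · exact der_free (clos s t) D₁ D₂ h1 h2 s t (left_mem_clos s t) (right_mem_clos s t)
      (fun a ha => ha) hst x y hx hy hgr
  · exact not_regular (clos s t) m D₁ D₂ h1 h2 hm1 s t (left_mem_clos s t) (right_mem_clos s t)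
      hst (clos_dim s t hind).le (exists_const_sub_mem (clos s t) m) x y hx hy hgr

end Crest.Agent.R278
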