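import Mathlib

set_option autoImplicit false

/-! Row 278, part P7: birational chart maps `k[X₀,X₁] → k(x,y)`. -/

namespace Crest.Agent.R278

open MvPolynomial

section Chart

variable {k : Type*} [Field k] {F : Type*} [Field F] [Algebra k F]

theorem adjoin_range_pair (u v : F) :
    Set.range ![u, v] = ({u, v} : Set F) := by
  ext z
  simp [eq_comm, or_comm]

/-- If `k(u,v) = k(x,y) = F` and `x, y` are algebraically independent, so are `u, v`. -/
theorem algebraicIndependent_of_adjoin_eq_top (x y u v : F)
    (hxy : AlgebraicIndependent k ![x, y])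
    (huv : IntermediateField.adjoin k ({u, v} : Set F) = ⊤) :
    AlgebraicIndependent k ![u, v] := by
  have h2 : (2 : Cardinal) ≤ Algebra.trdeg k F := by
    have := hxy.lift_cardinalMk_le_trdeg
    simpa using this
  have halg : Algebra.IsAlgebraic (Algebra.adjoin k (Set.range ![u, v])) F := by
    rw [adjoin_range_pair]
    constructor
    intro z
    have hz : z ∈ IntermediateField.adjoin k ({u, v} : Set F) := by rw [huv]; trivial
    rw [IntermediateField.mem_adjoin_iff_div] at hz
    obtain ⟨a, ha, b, hb, rfl⟩ := hz
    have h1 : IsAlgebraic (Algebra.adjoin k ({u, v} : Set F)) a :=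
      isAlgebraic_algebraMap (⟨a, ha⟩ : Algebra.adjoin k ({u, v} : Set F))
    have h2 : IsAlgebraic (Algebra.adjoin k ({u, v} : Set F)) b :=
      isAlgebraic_algebraMap (⟨b, hb⟩ : Algebra.adjoin k ({u, v} : Set F))
    rw [div_eq_mul_inv]
    exact h1.mul h2.inv
  exact (Algebra.IsAlgebraic.isTranscendenceBasis_of_lift_le_trdeg_of_finite k ![u, v]
    (by simpa using h2)).1

/-- The map `k[X₀,X₁] → F` sending the variables to `u, v`, with fraction field `F`. -/
theorem isFractionRing_of_adjoin_eq_top [Algebra (MvPolynomial (Fin 2) k) F]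
    [IsScalarTower k (MvPolynomial (Fin 2) k) F]
    (x y : F) (hxy : AlgebraicIndependent k ![x, y])
    (huv : IntermediateField.adjoin k
      ({algebraMap (MvPolynomial (Fin 2) k) F (X 0),
        algebraMap (MvPolynomial (Fin 2) k) F (X 1)} : Set F) = ⊤) :
    IsFractionRing (MvPolynomial (Fin 2) k) F := by
  set u := algebraMap (MvPolynomial (Fin 2) k) F (X 0) with hu
  set v := algebraMap (MvPolynomial (Fin 2) k) F (X 1) with hv
  have hind := algebraicIndependent_of_adjoin_eq_top x y u v hxy huv
  have hmap : ∀ p : MvPolynomial (Fin 2) k,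
      algebraMap (MvPolynomial (Fin 2) k) F p = aeval ![u, v] p := by
    intro p
    have : (IsScalarTower.toAlgHom k (MvPolynomial (Fin 2) k) F) = aeval ![u, v] := by
      apply MvPolynomial.algHom_ext
      intro i
      fin_cases i
      · simp [hu]
      · simp [hv]
    exact DFunLike.congr_fun this p
  have hinj : Function.Injective (algebraMap (MvPolynomial (Fin 2) k) F) := by
    intro p q hpq
    rw [hmap, hmap] at hpq
    exact hind hpq
  have : FaithfulSMul (MvPolynomial (Fin 2) k) F :=
    (faithfulSMul_iff_algebraMap_injective _ _).mpr hinj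
  refine IsFractionRing.of_field _ _ ?_
  intro z
  have hz : z ∈ IntermediateField.adjoin k (Set.range ![u, v]) := by
    rw [adjoin_range_pair, huv]; trivial
  rw [IntermediateField.mem_adjoin_range_iff] at hz
  obtain ⟨p, q, hpq⟩ := hz
  exact ⟨p, q, by rw [hmap, hmap, hpq]⟩

/-- The same, for an algebra homomorphism. -/
theorem chart_of_adjoin_eq_top (φ : MvPolynomial (Fin 2) k →ₐ[k] F)
    (x y : F) (hxy : AlgebraicIndependent k ![x, y])
    (huv : IntermediateField.adjoin k ({φ (X 0), φ (X 1)} : Set F) = ⊤) :
    Function.Injective φ ∧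
      @IsFractionRing (MvPolynomial (Fin 2) k) _ F _ φ.toRingHom.toAlgebra := by
  let _ : Algebra (MvPolynomial (Fin 2) k) F := φ.toRingHom.toAlgebra
  have : IsScalarTower k (MvPolynomial (Fin 2) k) F := by
    refine IsScalarTower.of_algebraMap_eq ?_
    intro r
    exact (φ.commutes r).symm
  have h := isFractionRing_of_adjoin_eq_top (k := k) (F := F) x y hxy huv
  refine ⟨?_, h⟩
  exact IsFractionRing.injective (MvPolynomial (Fin 2) k) F

/-- Coordinates of the fraction field of `k[X₀,X₁]` are algebraically independent. -/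
theorem algebraicIndependent_coord [Algebra (MvPolynomial (Fin 2) k) F]
    [IsScalarTower k (MvPolynomial (Fin 2) k) F] [IsFractionRing (MvPolynomial (Fin 2) k) F] :
    AlgebraicIndependent k ![algebraMap (MvPolynomial (Fin 2) k) F (X 0),
      algebraMap (MvPolynomial (Fin 2) k) F (X 1)] := by
  have hmap : aeval ![algebraMap (MvPolynomial (Fin 2) k) F (X 0),
      algebraMap (MvPolynomial (Fin 2) k) F (X 1)]
        = IsScalarTower.toAlgHom k (MvPolynomial (Fin 2) k) F := by
    apply MvPolynomial.algHom_ext
    intro i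
    fin_cases i <;> simp
  unfold AlgebraicIndependent
  rw [hmap]
  exact IsFractionRing.injective (MvPolynomial (Fin 2) k) F

/-- Coordinates generate the fraction field. -/
theorem adjoin_coord [Algebra (MvPolynomial (Fin 2) k) F]
    [IsScalarTower k (MvPolynomial (Fin 2) k) F] [IsFractionRing (MvPolynomial (Fin 2) k) F] :
    IntermediateField.adjoin k ({algebraMap (MvPolynomial (Fin 2) k) F (X 0),
      algebraMap (MvPolynomial (Fin 2) k) F (X 1)} : Set F) = ⊤ := by
  rw [eq_top_iff]
  intro z _
  rw [← adjoin_range_pair, IntermediateField.mem_adjoin_range_iff]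
  obtain ⟨a, b, hb, rfl⟩ := IsFractionRing.div_surjective (A := MvPolynomial (Fin 2) k) z
  have hmap : aeval ![algebraMap (MvPolynomial (Fin 2) k) F (X 0),
      algebraMap (MvPolynomial (Fin 2) k) F (X 1)]
        = IsScalarTower.toAlgHom k (MvPolynomial (Fin 2) k) F := by
    apply MvPolynomial.algHom_ext
    intro i
    fin_cases i <;> simp
  exact ⟨a, b, by rw [hmap]; rfl⟩

variable (k F) in
/-- A field of rational functions in the two variables `x, y`. -/
structure RatCoord (x y : F) : Prop where
  ind : AlgebraicIndependent k ![x, y]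
  top : IntermediateField.adjoin k ({x, y} : Set F) = ⊤

theorem RatCoord.of_mem {x y : F} (h : RatCoord k F x y) (u v : F)
    (hx : x ∈ IntermediateField.adjoin k ({u, v} : Set F))
    (hy : y ∈ IntermediateField.adjoin k ({u, v} : Set F)) : RatCoord k F u v := by
  have htop : IntermediateField.adjoin k ({u, v} : Set F) = ⊤ := by
    rw [eq_top_iff, ← h.top, IntermediateField.adjoin_le_iff]
    rintro z (rfl | hz)
    · exact hx
    · rw [Set.mem_singleton_iff] at hz
      rw [hz]; exact hy
  exact ⟨algebraicIndependent_of_adjoin_eq_top x y u v h.ind htop, htop⟩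

/-- The chart `(x - c, (y - b)/(x - c))`. -/
theorem RatCoord.blowup {x y : F} (h : RatCoord k F x y) (c b : k) :
    RatCoord k F (x - algebraMap k F c) ((y - algebraMap k F b) / (x - algebraMap k F c)) := by
  have hx0 : x - algebraMap k F c ≠ 0 := by
    intro h0
    have h1 : aeval ![x, y] (X 0 - C c : MvPolynomial (Fin 2) k) = 0 := by
      simp [← h0]
    have h2 := (injective_iff_map_eq_zero _).mp h.ind _ h1
    have h3 := congrArg (MvPolynomial.eval (fun _ : Fin 2 => c + 1)) h2
    simp at h3
  set E := IntermediateField.adjoin k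
    ({x - algebraMap k F c, (y - algebraMap k F b) / (x - algebraMap k F c)} : Set F) with hE
  have hu : x - algebraMap k F c ∈ E := IntermediateField.subset_adjoin _ _ (by simp)
  have hv : (y - algebraMap k F b) / (x - algebraMap k F c) ∈ E :=
    IntermediateField.subset_adjoin _ _ (by simp)
  refine h.of_mem _ _ ?_ ?_
  · have := E.add_mem hu (E.algebraMap_mem c)
    simpa using this
  · have := E.add_mem (E.mul_mem hv hu) (E.algebraMap_mem b)
    rw [div_mul_cancel₀ _ hx0] at this
    simpa using this

theorem RatCoord.left_ne_zero {x y : F} (h : RatCoord k F x y) : x ≠ 0 := by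
  intro h0
  have h1 : aeval ![x, y] (X 0 : MvPolynomial (Fin 2) k) = 0 := by
    simp [h0]
  have h2 := (injective_iff_map_eq_zero _).mp h.ind _ h1
  exact MvPolynomial.X_ne_zero (0 : Fin 2) h2

theorem RatCoord.right_ne_zero {x y : F} (h : RatCoord k F x y) : y ≠ 0 := by
  intro h0
  have h1 : aeval ![x, y] (X 1 : MvPolynomial (Fin 2) k) = 0 := by
    simp [h0]
  have h2 := (injective_iff_map_eq_zero _).mp h.ind _ h1
  exact MvPolynomial.X_ne_zero (1 : Fin 2) h2

theorem RatCoord.swap {x y : F} (h : RatCoord k F x y) : RatCoord k F y x :=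
  h.of_mem _ _ (IntermediateField.subset_adjoin _ _ (by simp))
    (IntermediateField.subset_adjoin _ _ (by simp))

/-- The chart `(1/x, y/x)`. -/
theorem RatCoord.infty {x y : F} (h : RatCoord k F x y) :
    RatCoord k F (1 / x) (y / x) := by
  have hx0 := h.left_ne_zero
  set E := IntermediateField.adjoin k ({1 / x, y / x} : Set F) with hE
  have hu : 1 / x ∈ E := IntermediateField.subset_adjoin _ _ (by simp)
  have hv : y / x ∈ E := IntermediateField.subset_adjoin _ _ (by simp)
  refine h.of_mem _ _ ?_ ?_
  · have := E.inv_mem hu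
    rwa [one_div, inv_inv] at this
  · have := E.div_mem hv hu
    have e : y / x / (1 / x) = y := by field_simp
    rwa [e] at this

/-- The chart `(x/y, 1/y)`. -/
theorem RatCoord.infty' {x y : F} (h : RatCoord k F x y) :
    RatCoord k F (x / y) (1 / y) := h.swap.infty.swap

/-- Affine changes and the like: `(a x + b, c y + d)` with `a, c ≠ 0`. -/
theorem RatCoord.affine {x y : F} (h : RatCoord k F x y) (b d : k) :
    RatCoord k F (x - algebraMap k F b) (y - algebraMap k F d) := by
  set E := IntermediateField.adjoin k
    ({x - algebraMap k F b, y - algebraMap k F d} : Set F) with hE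
  have hu : x - algebraMap k F b ∈ E := IntermediateField.subset_adjoin _ _ (by simp)
  have hv : y - algebraMap k F d ∈ E := IntermediateField.subset_adjoin _ _ (by simp)
  refine h.of_mem _ _ ?_ ?_
  · simpa using E.add_mem hu (E.algebraMap_mem b)
  · simpa using E.add_mem hv (E.algebraMap_mem d)

theorem RatCoord.injective {x y : F} (h : RatCoord k F x y) :
    Function.Injective (aeval ![x, y] : MvPolynomial (Fin 2) k →ₐ[k] F) := h.ind

theorem RatCoord.isFractionRing {x y : F} (h : RatCoord k F x y) :
    @IsFractionRing (MvPolynomial (Fin 2) k) _ F _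
      (aeval ![x, y] : MvPolynomial (Fin 2) k →ₐ[k] F).toRingHom.toAlgebra :=
  (chart_of_adjoin_eq_top (aeval ![x, y]) x y h.ind (by simpa using h.top)).2

theorem RatCoord.coord [Algebra (MvPolynomial (Fin 2) k) F]
    [IsScalarTower k (MvPolynomial (Fin 2) k) F] [IsFractionRing (MvPolynomial (Fin 2) k) F] :
    RatCoord k F (algebraMap (MvPolynomial (Fin 2) k) F (X 0))
      (algebraMap (MvPolynomial (Fin 2) k) F (X 1)) :=
  ⟨algebraicIndependent_coord, adjoin_coord⟩

/-- The substitution endomorphism of `F` attached to new coordinates. -/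
theorem RatCoord.exists_div {x y : F} (h : RatCoord k F x y) (z : F) :
    ∃ p q : MvPolynomial (Fin 2) k, q ≠ 0 ∧ z = aeval ![x, y] p / aeval ![x, y] q := by
  have hz : z ∈ IntermediateField.adjoin k (Set.range ![x, y]) := by
    rw [adjoin_range_pair, h.top]; trivial
  rw [IntermediateField.mem_adjoin_range_iff] at hz
  obtain ⟨p, q, hpq⟩ := hz
  by_cases hq : q = 0
  · exact ⟨0, 1, one_ne_zero, by rw [hpq, hq]; simp⟩
  · exact ⟨p, q, hq, hpq⟩

end Chart

end Crest.Agent.R278
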