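import Crest.Agent.R278.Cert

set_option autoImplicit false

namespace Crest.Agent.R278

/-- **The chart form of the certificate theorem for S0421.**  `C l` (`l : ι`, finitely many) are
subalgebras of `K` with `⋂ C l = clos s t` (`hle`, `hinter`), preserved by `D₁` and `D₂`; for each
`l` there are `b, p, q` with `b, b p, b q ∈ A = clos s t`, `b⁻¹ ∈ C l` and
`(minor D₁ D₂ p q)⁻¹ ∈ C l`; and `D₁` maps `A` to a proper ideal `I` of `A`. -/
theorem statement_of_charts (K : Type) [Field K] [Algebra ℂ K] (D₁ D₂ : Derivation ℂ K K)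
    (X Y : K) [Algebra.IsAlgebraic (Algebra.adjoin ℂ ({X, Y} : Set K)) K]
    (S : Set K) (hSf : S.Finite) (hS : IntermediateField.adjoin ℂ S = ⊤)
    (s t : K) (hst : minor D₁ D₂ s t ≠ 0)
    {ι : Type*} [Finite ι] (C : ι → Subalgebra ℂ K)
    (hle : ∀ l, clos s t ≤ C l) (hinter : ∀ k : K, (∀ l, k ∈ C l) → k ∈ clos s t)
    (h1 : ∀ l, ∀ a ∈ C l, D₁ a ∈ C l) (h2 : ∀ l, ∀ a ∈ C l, D₂ a ∈ C l)
    (b p q : ι → K) (hb : ∀ l, b l ∈ clos s t) (hbp : ∀ l, b l * p l ∈ clos s t)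
    (hbq : ∀ l, b l * q l ∈ clos s t) (hb0 : ∀ l, b l ≠ 0) (hbi : ∀ l, (b l)⁻¹ ∈ C l)
    (hm0 : ∀ l, minor D₁ D₂ (p l) (q l) ≠ 0)
    (hmi : ∀ l, (minor D₁ D₂ (p l) (q l))⁻¹ ∈ C l)
    (I : Ideal (clos s t)) (hI : I ≠ ⊤)
    (hDI : ∀ (a : K), a ∈ clos s t → ∀ h : D₁ a ∈ clos s t, (⟨D₁ a, h⟩ : clos s t) ∈ I) :
    ∃ (A : Type) (_ : CommRing A) (_ : Algebra ℂ A),
      IsDomain A ∧ Algebra.FiniteType ℂ A ∧ IsIntegrallyClosed A ∧
      ringKrullDim A = 2 ∧
      Nonempty (Derivation ℂ A A ≃ₗ[A] (Fin 2 → A)) ∧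
      ∃ (m : Ideal A) (_ : m.IsMaximal), ¬ IsRegularLocalRing (Localization.AtPrime m) := by
  have H1 : ∀ a ∈ clos s t, D₁ a ∈ clos s t := fun a ha =>
    hinter _ fun l => h1 l a (hle l ha)
  have H2 : ∀ a ∈ clos s t, D₂ a ∈ clos s t := fun a ha =>
    hinter _ fun l => h2 l a (hle l ha)
  obtain ⟨m, hm, hIm⟩ := Ideal.exists_le_maximal I hI
  -- the pairs : for each chart `(b p, b q)`, `(b, b p)`, `(b, b q)`
  let x : ι × Fin 3 → K := fun i => match i.2 with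
    | 0 => b i.1 * p i.1
    | 1 => b i.1
    | 2 => b i.1
  let y : ι × Fin 3 → K := fun i => match i.2 with
    | 0 => b i.1 * q i.1
    | 1 => b i.1 * p i.1
    | 2 => b i.1 * q i.1
  have hx : ∀ i, x i ∈ clos s t := by
    rintro ⟨l, j⟩
    fin_cases j
    · exact hbp l
    · exact hb l
    · exact hb l
  have hy : ∀ i, y i ∈ clos s t := by
    rintro ⟨l, j⟩
    fin_cases j
    · exact hbq l
    · exact hbp l
    · exact hbq l
  refine statement_of_cert K D₁ D₂ X Y S hSf hS s t hst H1 H2 x y hx hy ?_ m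
    (fun a _ => hIm (hDI a a.2 _))
  intro k hk
  refine hinter k fun l => ?_
  have e0 : minor D₁ D₂ (b l * p l) (b l * q l) * k ∈ C l := hle l (hk (l, 0))
  have e1 : minor D₁ D₂ (b l) (b l * p l) * k ∈ C l := hle l (hk (l, 1))
  have e2 : minor D₁ D₂ (b l) (b l * q l) * k ∈ C l := hle l (hk (l, 2))
  have hid : b l ^ 3 * minor D₁ D₂ (p l) (q l)
      = b l * minor D₁ D₂ (b l * p l) (b l * q l) + b l * q l * minor D₁ D₂ (b l) (b l * p l)
        - b l * p l * minor D₁ D₂ (b l) (b l * q l) := by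
    unfold minor
    simp only [Derivation.leibniz, smul_eq_mul]
    ring
  have e3 : b l ^ 3 * minor D₁ D₂ (p l) (q l) * k ∈ C l := by
    rw [hid]
    have : (b l * minor D₁ D₂ (b l * p l) (b l * q l) + b l * q l * minor D₁ D₂ (b l) (b l * p l)
        - b l * p l * minor D₁ D₂ (b l) (b l * q l)) * k
        = b l * (minor D₁ D₂ (b l * p l) (b l * q l) * k)
          + b l * q l * (minor D₁ D₂ (b l) (b l * p l) * k)
          - b l * p l * (minor D₁ D₂ (b l) (b l * q l) * k) := by ring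
    rw [this]
    exact (C l).sub_mem ((C l).add_mem ((C l).mul_mem (hle l (hb l)) e0)
      ((C l).mul_mem (hle l (hbq l)) e1)) ((C l).mul_mem (hle l (hbp l)) e2)
  have hk' : k = (b l)⁻¹ ^ 3 * (minor D₁ D₂ (p l) (q l))⁻¹
      * (b l ^ 3 * minor D₁ D₂ (p l) (q l) * k) := by
    have h3 := hb0 l
    have h4 := hm0 l
    field_simp
  rw [hk']
  exact (C l).mul_mem ((C l).mul_mem ((C l).pow_mem (hbi l) 3) (hmi l)) e3

end Crest.Agent.R278
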