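import Crest.Agent.R278.TwoRad

/-!
Row 278 (S0421): the charts at the blown-up points, from polynomial facts.
-/

set_option autoImplicit false

namespace Crest.Agent.R278

open MvPolynomial

section Basic

variable {F : Type} [Field F] [Algebra ℂ F] [Algebra (MvPolynomial (Fin 2) ℂ) F]
  [IsScalarTower ℂ (MvPolynomial (Fin 2) ℂ) F]

/-- `f(x,y)` as an element of `F`. -/
noncomputable abbrev φF (F : Type) [Field F] [Algebra (MvPolynomial (Fin 2) ℂ) F]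
    (f : MvPolynomial (Fin 2) ℂ) : F := algebraMap (MvPolynomial (Fin 2) ℂ) F f

theorem φF_C (c : ℂ) : φF F (C c) = algebraMap ℂ F c := by
  rw [φF, ← algebraMap_eq, ← IsScalarTower.algebraMap_apply]

/-- the substitution `x = a + X`, `y = b + X W` -/
noncomputable def subst (a b : ℂ) : MvPolynomial (Fin 2) ℂ →ₐ[ℂ] MvPolynomial (Fin 2) ℂ :=
  aeval ![C a + X 0, C b + X 0 * X 1]

theorem aeval_subst {a b : ℂ} {p q : F} (hp : xF F = algebraMap ℂ F a + p)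
    (hq : yF F = algebraMap ℂ F b + p * q) (f : MvPolynomial (Fin 2) ℂ) :
    aeval ![p, q] (subst a b f) = φF F f := by
  have h1 : (aeval ![p, q] : MvPolynomial (Fin 2) ℂ →ₐ[ℂ] F).comp (subst a b) =
      IsScalarTower.toAlgHom ℂ (MvPolynomial (Fin 2) ℂ) F := by
    apply MvPolynomial.algHom_ext
    intro i
    fin_cases i
    · simp only [subst, AlgHom.comp_apply, Fin.zero_eta, aeval_X, IsScalarTower.coe_toAlgHom']
      simp [hp]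
    · simp only [subst, AlgHom.comp_apply, Fin.mk_one, aeval_X, IsScalarTower.coe_toAlgHom']
      simp [hq]
  exact DFunLike.congr_fun h1 f

omit [Algebra (MvPolynomial (Fin 2) ℂ) F] [IsScalarTower ℂ (MvPolynomial (Fin 2) ℂ) F] in
theorem aeval_mem_polyRing_pc (p q : F) (f : MvPolynomial (Fin 2) ℂ) :
    aeval ![p, q] f ∈ polyRing ℂ p q := (mem_polyRing_iff p q _).2 ⟨f, rfl⟩

omit [Algebra (MvPolynomial (Fin 2) ℂ) F] [IsScalarTower ℂ (MvPolynomial (Fin 2) ℂ) F] in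
/-- factors of `h` are units of the chart ring. -/
theorem inv_mem_of_mul_eq {p q h u v : F} (hv : v ∈ polyRing ℂ p q) (h0 : h ≠ 0)
    (huv : u * v = h) : u⁻¹ ∈ chartRing ℂ p q h := by
  have hv0 : v ≠ 0 := by rintro rfl; rw [mul_zero] at huv; exact h0 huv.symm
  have hu0 : u ≠ 0 := by rintro rfl; rw [zero_mul] at huv; exact h0 huv.symm
  have : u⁻¹ = v * h⁻¹ := by
    rw [← huv]; field_simp
  rw [this]
  exact Subalgebra.mul_mem _ (polyRing_le_chartRing _ _ _ hv) (inv_mem_chartRing _ _ _)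

end Basic

/-- The polynomial data. -/
structure VFData where
  r : ℕ
  a : Fin r → ℂ
  a_inj : Function.Injective a
  pts : Fin r → Finset ℂ
  c : ℂ
  c_ne : c ≠ 0
  z : MvPolynomial (Fin 2) ℂ
  w₁ : MvPolynomial (Fin 2) ℂ
  w₂ : MvPolynomial (Fin 2) ℂ
  ell : MvPolynomial (Fin 2) ℂ
  α₁ : MvPolynomial (Fin 2) ℂ
  β₁ : MvPolynomial (Fin 2) ℂ
  α₂ : MvPolynomial (Fin 2) ℂ
  β₂ : MvPolynomial (Fin 2) ℂ
  z_ne : z ≠ 0
  w₁_ne : w₁ ≠ 0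
  w₂_ne : w₂ ≠ 0
  ell_ne : ell ≠ 0
  wedge : α₁ * β₂ - α₂ * β₁ = C c * (∏ k, (X 0 - C (a k))) * z

/-- Polynomial facts at the point `(a i, b)`. -/
structure PointFacts (N : ℕ) (S : VFData) (i : Fin S.r) (b : ℂ) where
  mz : ℕ
  m₁ : ℕ
  m₂ : ℕ
  me : ℕ
  l₁ : ℕ
  l₂ : ℕ
  g₁ : ℕ
  g₂ : ℕ
  zt : MvPolynomial (Fin 2) ℂ
  w₁t : MvPolynomial (Fin 2) ℂ
  w₂t : MvPolynomial (Fin 2) ℂ
  et : MvPolynomial (Fin 2) ℂ
  α₁t : MvPolynomial (Fin 2) ℂ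
  γ₁t : MvPolynomial (Fin 2) ℂ
  α₂t : MvPolynomial (Fin 2) ℂ
  γ₂t : MvPolynomial (Fin 2) ℂ
  hz : subst (S.a i) b S.z = X 0 ^ mz * zt
  hz' : ¬ X 0 ∣ zt
  hw₁ : subst (S.a i) b S.w₁ = X 0 ^ m₁ * w₁t
  hw₁' : ¬ X 0 ∣ w₁t
  hw₂ : subst (S.a i) b S.w₂ = X 0 ^ m₂ * w₂t
  hw₂' : ¬ X 0 ∣ w₂t
  he : subst (S.a i) b S.ell = X 0 ^ me * et
  he' : ¬ X 0 ∣ et
  hα₁ : subst (S.a i) b S.α₁ = X 0 ^ (l₁ + g₁) * α₁t
  hγ₁ : subst (S.a i) b S.β₁ - X 1 * subst (S.a i) b S.α₁ = X 0 ^ (l₁ + 1) * γ₁t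
  hα₂ : subst (S.a i) b S.α₂ = X 0 ^ (l₂ + g₂) * α₂t
  hγ₂ : subst (S.a i) b S.β₂ - X 1 * subst (S.a i) b S.α₂ = X 0 ^ (l₂ + 1) * γ₂t
  d : ℕ
  hd0 : 0 < d
  hdN : d ∣ N
  hd₁ : (d : ℤ) ∣ 1 - m₁
  hd₂ : (d : ℤ) ∣ 1 - m₂
  hπ : ∃ (e : ℤ) (c₁ c₂ : Fin N), N * e + (((c₁ : ℕ) : ℤ) * (1 - m₁) + ((c₂ : ℕ) : ℤ) * (1 - m₂)) = d
  hi₁ : (0 : ℤ) ≤ N * (((l₁ + g₁ : ℕ) : ℤ) - me - 1) + (1 - m₁) + d
  hj₁ : (0 : ℤ) ≤ N * ((l₁ : ℤ) - me) + (1 - m₁)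
  hi₂ : (0 : ℤ) ≤ N * (((l₂ + g₂ : ℕ) : ℤ) - me - 1) + (1 - m₂) + d
  hj₂ : (0 : ℤ) ≤ N * ((l₂ : ℤ) - me) + (1 - m₂)
  hk : N * ((mz : ℤ) - 2 * me) + ((1 - m₁) + (1 - m₂)) = (N : ℤ) - d

namespace VFData

variable (S : VFData)
variable (F : Type) [Field F] [Algebra ℂ F] [Algebra (MvPolynomial (Fin 2) ℂ) F]
  [IsScalarTower ℂ (MvPolynomial (Fin 2) ℂ) F] [IsFractionRing (MvPolynomial (Fin 2) ℂ) F]

/-- `x - a_i` -/
noncomputable def Xi (i : Fin S.r) : F := xF F - algebraMap ℂ F (S.a i)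

/-- `P = ∏ (x - a_k)` -/
noncomputable def P : F := ∏ k, S.Xi F k

/-- the radicand `P / w₁` -/
noncomputable def W₁ : F := S.P F / φF F S.w₁
noncomputable def W₂ : F := S.P F / φF F S.w₂

/-- `Θ = z w₁ w₂ ell³` -/
noncomputable def Θ : F := φF F S.z * φF F S.w₁ * φF F S.w₂ * φF F S.ell ^ 3

/-- the vector fields on `F` -/
noncomputable def V₁ : Derivation ℂ F F := derivXY F (φF F S.α₁) (φF F S.β₁)
noncomputable def V₂ : Derivation ℂ F F := derivXY F (φF F S.α₂) (φF F S.β₂)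

theorem V₁_x : S.V₁ F (xF F) = φF F S.α₁ := derivXY_X0 F _ _
theorem V₁_y : S.V₁ F (yF F) = φF F S.β₁ := derivXY_X1 F _ _
theorem V₂_x : S.V₂ F (xF F) = φF F S.α₂ := derivXY_X0 F _ _
theorem V₂_y : S.V₂ F (yF F) = φF F S.β₂ := derivXY_X1 F _ _

/-- `r = 1/ell` -/
noncomputable def R : F := (φF F S.ell)⁻¹

omit [IsFractionRing (MvPolynomial (Fin 2) ℂ) F] in
theorem φF_prod : φF F (∏ k, (X 0 - C (S.a k))) = S.P F := by
  rw [φF, map_prod]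
  refine Finset.prod_congr rfl fun k _ => ?_
  rw [map_sub]
  change xF F - φF F (C (S.a k)) = _
  rw [φF_C]
  rfl

omit [IsFractionRing (MvPolynomial (Fin 2) ℂ) F] in
theorem wedgeF : φF F S.α₁ * φF F S.β₂ - φF F S.α₂ * φF F S.β₁ =
    algebraMap ℂ F S.c * S.P F * φF F S.z := by
  have h := congrArg (φF F) S.wedge
  rw [← φF_prod, ← φF_C]
  simpa only [φF, map_sub, map_mul] using h

theorem φF_ne {f : MvPolynomial (Fin 2) ℂ} (hf : f ≠ 0) : φF F f ≠ 0 := by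
  intro h
  exact hf ((injective_iff_map_eq_zero _).1
    (IsFractionRing.injective (MvPolynomial (Fin 2) ℂ) F) f h)

theorem Xi_ne (i : Fin S.r) : S.Xi F i ≠ 0 := by
  have h1 : S.Xi F i = φF F (X 0 - C (S.a i)) := by
    rw [φF, map_sub]
    change _ = xF F - φF F (C (S.a i))
    rw [φF_C]; rfl
  rw [h1]
  refine φF_ne F ?_
  intro h
  have := congrArg (MvPolynomial.eval (fun _ => S.a i + 1)) h
  simp at this

theorem P_ne : S.P F ≠ 0 := Finset.prod_ne_zero_iff.2 fun i _ => S.Xi_ne F i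

/-- first coordinate times second coordinate at a point chart -/
theorem point_y (i : Fin S.r) (b : ℂ) : yF F = algebraMap ℂ F b +
    S.Xi F i * ((yF F - algebraMap ℂ F b) / S.Xi F i) := by
  rw [mul_div_cancel₀ _ (S.Xi_ne F i)]; ring

omit [IsFractionRing (MvPolynomial (Fin 2) ℂ) F] in
theorem point_x (i : Fin S.r) : xF F = algebraMap ℂ F (S.a i) + S.Xi F i := by
  unfold Xi; ring

end VFData

namespace PointFacts

variable {N : ℕ} {S : VFData} {i : Fin S.r} {b : ℂ} (T : PointFacts N S i b)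
variable (F : Type) [Field F] [Algebra ℂ F] [Algebra (MvPolynomial (Fin 2) ℂ) F]
  [IsScalarTower ℂ (MvPolynomial (Fin 2) ℂ) F] [IsFractionRing (MvPolynomial (Fin 2) ℂ) F]

/-- second chart coordinate -/
noncomputable def q (_ : PointFacts N S i b) : F := (yF F - algebraMap ℂ F b) / S.Xi F i

/-- evaluation of polynomials in the chart coordinates -/
noncomputable def ψ (_ : PointFacts N S i b) : MvPolynomial (Fin 2) ℂ →ₐ[ℂ] F :=
  aeval ![S.Xi F i, (yF F - algebraMap ℂ F b) / S.Xi F i]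

theorem ψ_subst (f : MvPolynomial (Fin 2) ℂ) : T.ψ F (subst (S.a i) b f) = φF F f :=
  aeval_subst (S.point_x F i) (S.point_y F i b) f

theorem ψ_X0 : T.ψ F (X 0) = S.Xi F i := by
  unfold ψ; rw [aeval_X]; rfl

theorem ψ_X1 : T.ψ F (X 1) = (yF F - algebraMap ℂ F b) / S.Xi F i := by
  unfold ψ; rw [aeval_X]; rfl

theorem of_subst {f ft : MvPolynomial (Fin 2) ℂ} {m : ℕ}
    (h : subst (S.a i) b f = X 0 ^ m * ft) : φF F f = S.Xi F i ^ m * T.ψ F ft := by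
  rw [← T.ψ_subst F, h, map_mul, map_pow, T.ψ_X0]

theorem ψ_mem (f : MvPolynomial (Fin 2) ℂ) :
    T.ψ F f ∈ polyRing ℂ (S.Xi F i) ((yF F - algebraMap ℂ F b) / S.Xi F i) :=
  aeval_mem_polyRing_pc _ _ f

theorem ratCoord : RatCoord ℂ F (S.Xi F i) ((yF F - algebraMap ℂ F b) / S.Xi F i) :=
  RatCoord.coord.blowup (S.a i) b

theorem ψ_inj : Function.Injective (T.ψ F) := (ratCoord F (S := S) (i := i) (b := b)).injective

theorem ψ_ne {f : MvPolynomial (Fin 2) ℂ} (hf : f ≠ 0) : T.ψ F f ≠ 0 := by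
  intro h
  exact hf ((injective_iff_map_eq_zero _).1 (T.ψ_inj F) f h)

/-- the polynomial `∏_{k ≠ i} (x - a_k)` in the chart -/
noncomputable def Qt (_ : PointFacts N S i b) : MvPolynomial (Fin 2) ℂ :=
  ∏ k ∈ Finset.univ.erase i, (X 0 + C (S.a i - S.a k))

theorem ψ_Qt : T.ψ F T.Qt = ∏ k ∈ Finset.univ.erase i, S.Xi F k := by
  unfold Qt
  rw [map_prod]
  refine Finset.prod_congr rfl fun k _ => ?_
  rw [map_add, T.ψ_X0]
  have h1 : T.ψ F (C (S.a i - S.a k)) = algebraMap ℂ F (S.a i - S.a k) := by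
    unfold ψ; rw [aeval_C]
  rw [h1, map_sub]
  unfold VFData.Xi
  ring

theorem X_not_dvd_Qt : ¬ (X 0 : MvPolynomial (Fin 2) ℂ) ∣ T.Qt := by
  intro h
  have hp : Prime (X 0 : MvPolynomial (Fin 2) ℂ) := MvPolynomial.X_prime
  obtain ⟨k, hk, h1⟩ := hp.exists_mem_finset_dvd h
  have hki := Finset.ne_of_mem_erase hk
  obtain ⟨u, hu⟩ := h1
  have h2 := congrArg (MvPolynomial.eval (fun _ => (0 : ℂ))) hu
  simp only [map_add, map_mul, eval_X, eval_C, zero_add, zero_mul] at h2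
  exact hki (S.a_inj (sub_eq_zero.1 h2)).symm

theorem ne_zero_of_not_dvd {f : MvPolynomial (Fin 2) ℂ} (h : ¬ (X 0) ∣ f) : f ≠ 0 := by
  rintro rfl; exact h (dvd_zero _)

/-- the total multiplicity of `Θ` -/
def M : ℕ := T.mz + T.m₁ + T.m₂ + 3 * T.me

/-- the polynomial `∏_{b' ≠ b} (y - b')` in the chart -/
noncomputable def Yt (_ : PointFacts N S i b) : MvPolynomial (Fin 2) ℂ :=
  ∏ b' ∈ (S.pts i).erase b, (C (b - b') + X 0 * X 1)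

theorem ψ_Yt : T.ψ F T.Yt = ∏ b' ∈ (S.pts i).erase b, (yF F - algebraMap ℂ F b') := by
  unfold Yt
  rw [map_prod]
  refine Finset.prod_congr rfl fun k _ => ?_
  have h1 : T.ψ F (C (b - k)) = algebraMap ℂ F (b - k) := by
    unfold ψ; rw [aeval_C]
  rw [map_add, map_mul, T.ψ_X0, T.ψ_X1, h1, map_sub, mul_div_cancel₀ _ (S.Xi_ne F i)]
  ring

theorem X_not_dvd_Yt : ¬ (X 0 : MvPolynomial (Fin 2) ℂ) ∣ T.Yt := by
  intro h
  have hp : Prime (X 0 : MvPolynomial (Fin 2) ℂ) := MvPolynomial.X_prime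
  obtain ⟨k, hk, h1⟩ := hp.exists_mem_finset_dvd h
  have hki := Finset.ne_of_mem_erase hk
  obtain ⟨u, hu⟩ := h1
  have h2 := congrArg (MvPolynomial.eval (fun _ => (0 : ℂ))) hu
  simp only [map_add, map_mul, eval_X, eval_C, zero_mul, add_zero] at h2
  exact hki (sub_eq_zero.1 h2).symm

/-- the denominator of the chart -/
noncomputable def h : F := S.Θ F / S.Xi F i ^ T.M * (∏ k ∈ Finset.univ.erase i, S.Xi F k) *
  ∏ b' ∈ (S.pts i).erase b, (yF F - algebraMap ℂ F b')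

/-- the denominator of the chart as a polynomial -/
noncomputable def ht : MvPolynomial (Fin 2) ℂ := T.zt * T.w₁t * T.w₂t * T.et ^ 3 * T.Qt * T.Yt

theorem h_eq : T.h F = T.ψ F T.ht := by
  unfold h ht VFData.Θ M
  rw [T.of_subst F T.hz, T.of_subst F T.hw₁, T.of_subst F T.hw₂, T.of_subst F T.he, map_mul,
    map_mul, map_mul, map_mul, map_mul, map_pow, T.ψ_Qt, T.ψ_Yt]
  have h1 := S.Xi_ne F i
  rw [pow_add, pow_add, pow_add, pow_mul' (S.Xi F i) 3]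
  field_simp

theorem X_not_dvd_ht : ¬ (X 0 : MvPolynomial (Fin 2) ℂ) ∣ T.ht := by
  intro h
  have hp : Prime (X 0 : MvPolynomial (Fin 2) ℂ) := MvPolynomial.X_prime
  unfold ht at h
  rcases hp.dvd_or_dvd h with h | h
  · rcases hp.dvd_or_dvd h with h | h
    · rcases hp.dvd_or_dvd h with h | h
      · rcases hp.dvd_or_dvd h with h | h
        · rcases hp.dvd_or_dvd h with h | h
          · exact T.hz' h
          · exact T.hw₁' h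
        · exact T.hw₂' h
      · exact T.he' (hp.dvd_of_dvd_pow h)
    · exact T.X_not_dvd_Qt h
  · exact T.X_not_dvd_Yt h

theorem h_ne : T.h F ≠ 0 := by
  rw [T.h_eq]; exact T.ψ_ne F (ne_zero_of_not_dvd T.X_not_dvd_ht)

theorem h_not_dvd : T.h F / S.Xi F i ∉
    polyRing ℂ (S.Xi F i) ((yF F - algebraMap ℂ F b) / S.Xi F i) := by
  intro h1
  obtain ⟨u, hu⟩ := (mem_polyRing_iff _ _ _).1 h1
  apply T.X_not_dvd_ht
  refine ⟨u, ?_⟩
  apply T.ψ_inj F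
  rw [map_mul, T.ψ_X0, ← T.h_eq]
  change _ = S.Xi F i * aeval ![S.Xi F i, (yF F - algebraMap ℂ F b) / S.Xi F i] u
  rw [← hu, mul_div_cancel₀ _ (S.Xi_ne F i)]

theorem h_mem : T.h F ∈ polyRing ℂ (S.Xi F i) ((yF F - algebraMap ℂ F b) / S.Xi F i) := by
  rw [T.h_eq]; exact T.ψ_mem F _

/-- factors of `ht` are units of the chart ring -/
theorem inv_ψ_mem {f f' : MvPolynomial (Fin 2) ℂ} (hf : f * f' = T.ht) : (T.ψ F f)⁻¹ ∈
    chartRing ℂ (S.Xi F i) ((yF F - algebraMap ℂ F b) / S.Xi F i) (T.h F) := by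
  refine inv_mem_of_mul_eq (T.ψ_mem F f') (T.h_ne F) ?_
  rw [← map_mul, hf, T.h_eq]

theorem ψ_mem' (f : MvPolynomial (Fin 2) ℂ) : T.ψ F f ∈
    chartRing ℂ (S.Xi F i) ((yF F - algebraMap ℂ F b) / S.Xi F i) (T.h F) :=
  polyRing_le_chartRing _ _ _ (T.ψ_mem F f)

theorem inv_zt : (T.ψ F T.zt)⁻¹ ∈
    chartRing ℂ (S.Xi F i) ((yF F - algebraMap ℂ F b) / S.Xi F i) (T.h F) :=
  T.inv_ψ_mem F (f' := T.w₁t * T.w₂t * T.et ^ 3 * T.Qt * T.Yt) (by unfold ht; ring)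

theorem inv_w₁t : (T.ψ F T.w₁t)⁻¹ ∈
    chartRing ℂ (S.Xi F i) ((yF F - algebraMap ℂ F b) / S.Xi F i) (T.h F) :=
  T.inv_ψ_mem F (f' := T.zt * T.w₂t * T.et ^ 3 * T.Qt * T.Yt) (by unfold ht; ring)

theorem inv_w₂t : (T.ψ F T.w₂t)⁻¹ ∈
    chartRing ℂ (S.Xi F i) ((yF F - algebraMap ℂ F b) / S.Xi F i) (T.h F) :=
  T.inv_ψ_mem F (f' := T.zt * T.w₁t * T.et ^ 3 * T.Qt * T.Yt) (by unfold ht; ring)

theorem inv_et : (T.ψ F T.et)⁻¹ ∈
    chartRing ℂ (S.Xi F i) ((yF F - algebraMap ℂ F b) / S.Xi F i) (T.h F) :=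
  T.inv_ψ_mem F (f' := T.zt * T.w₁t * T.w₂t * T.et ^ 2 * T.Qt * T.Yt) (by unfold ht; ring)

theorem inv_Qt : (T.ψ F T.Qt)⁻¹ ∈
    chartRing ℂ (S.Xi F i) ((yF F - algebraMap ℂ F b) / S.Xi F i) (T.h F) :=
  T.inv_ψ_mem F (f' := T.zt * T.w₁t * T.w₂t * T.et ^ 3 * T.Yt) (by unfold ht; ring)

theorem P_eq : S.P F = S.Xi F i * T.ψ F T.Qt := by
  rw [T.ψ_Qt, VFData.P, Finset.mul_prod_erase _ _ (Finset.mem_univ i)]

omit [IsFractionRing (MvPolynomial (Fin 2) ℂ) F] in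
theorem der_Xi (V : Derivation ℂ F F) (i : Fin S.r) : V (S.Xi F i) = V (xF F) := by
  rw [VFData.Xi, map_sub, V.map_algebraMap, sub_zero]

theorem der_q (V : Derivation ℂ F F) (i : Fin S.r) (b : ℂ) :
    V ((yF F - algebraMap ℂ F b) / S.Xi F i) =
      (V (yF F) - (yF F - algebraMap ℂ F b) / S.Xi F i * V (xF F)) / S.Xi F i := by
  have h1 := S.Xi_ne F i
  rw [V.leibniz_div, der_Xi, map_sub, V.map_algebraMap, sub_zero]
  simp only [smul_eq_mul]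
  field_simp

theorem V₁_p : S.V₁ F (S.Xi F i) = S.Xi F i ^ (T.l₁ + T.g₁) * T.ψ F T.α₁t := by
  rw [der_Xi, S.V₁_x, T.of_subst F T.hα₁]

theorem V₂_p : S.V₂ F (S.Xi F i) = S.Xi F i ^ (T.l₂ + T.g₂) * T.ψ F T.α₂t := by
  rw [der_Xi, S.V₂_x, T.of_subst F T.hα₂]

theorem V₁_q : S.V₁ F ((yF F - algebraMap ℂ F b) / S.Xi F i) =
    S.Xi F i ^ T.l₁ * T.ψ F T.γ₁t := by
  have h1 := S.Xi_ne F i
  have h2 := congrArg (T.ψ F) T.hγ₁
  rw [map_sub, map_mul, T.ψ_X1, T.ψ_subst, T.ψ_subst, map_mul, map_pow, T.ψ_X0, pow_succ] at h2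
  rw [der_q, S.V₁_x, S.V₁_y, h2]
  field_simp

theorem V₂_q : S.V₂ F ((yF F - algebraMap ℂ F b) / S.Xi F i) =
    S.Xi F i ^ T.l₂ * T.ψ F T.γ₂t := by
  have h1 := S.Xi_ne F i
  have h2 := congrArg (T.ψ F) T.hγ₂
  rw [map_sub, map_mul, T.ψ_X1, T.ψ_subst, T.ψ_subst, map_mul, map_pow, T.ψ_X0, pow_succ] at h2
  rw [der_q, S.V₂_x, S.V₂_y, h2]
  field_simp

theorem minor_eq : S.V₁ F (S.Xi F i) * S.V₂ F ((yF F - algebraMap ℂ F b) / S.Xi F i) -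
    S.V₁ F ((yF F - algebraMap ℂ F b) / S.Xi F i) * S.V₂ F (S.Xi F i) =
    algebraMap ℂ F S.c * T.ψ F T.Qt * (S.Xi F i ^ T.mz * T.ψ F T.zt) := by
  have h1 := S.Xi_ne F i
  have h2 := S.wedgeF F
  rw [T.P_eq, T.of_subst F T.hz] at h2
  rw [der_q, der_q, der_Xi, der_Xi, S.V₁_x, S.V₁_y, S.V₂_x, S.V₂_y]
  have h3 : algebraMap ℂ F S.c * T.ψ F T.Qt * (S.Xi F i ^ T.mz * T.ψ F T.zt) =
      (φF F S.α₁ * φF F S.β₂ - φF F S.α₂ * φF F S.β₁) / S.Xi F i := by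
    rw [h2]; field_simp
  rw [h3]
  field_simp
  ring

/-- **The chart at a point.** -/
noncomputable def chart : ChartData N (S.W₁ F) (S.W₂ F) (S.V₁ F) (S.V₂ F) (S.R F) (S.R F) where
  p := S.Xi F i
  q := (yF F - algebraMap ℂ F b) / S.Xi F i
  h := T.h F
  hc := ratCoord F
  hh := T.h_mem F
  h0 := T.h_ne F
  e₁ := 1
  e₂ := 1
  ω₁ := T.ψ F T.Qt * (T.ψ F T.w₁t)⁻¹
  ω₂ := T.ψ F T.Qt * (T.ψ F T.w₂t)⁻¹
  ρ₁ := 1 - T.m₁
  ρ₂ := 1 - T.m₂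
  he₁ := one_ne_zero
  he₂ := one_ne_zero
  hω₁ := Subalgebra.mul_mem _ (T.ψ_mem' F _) (T.inv_w₁t F)
  hω₁' := by
    rw [mul_inv, inv_inv]
    exact Subalgebra.mul_mem _ (T.inv_Qt F) (T.ψ_mem' F _)
  hω₂ := Subalgebra.mul_mem _ (T.ψ_mem' F _) (T.inv_w₂t F)
  hω₂' := by
    rw [mul_inv, inv_inv]
    exact Subalgebra.mul_mem _ (T.inv_Qt F) (T.ψ_mem' F _)
  hω₁0 := mul_ne_zero (T.ψ_ne F (ne_zero_of_not_dvd T.X_not_dvd_Qt))
    (inv_ne_zero (T.ψ_ne F (ne_zero_of_not_dvd T.hw₁')))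
  hω₂0 := mul_ne_zero (T.ψ_ne F (ne_zero_of_not_dvd T.X_not_dvd_Qt))
    (inv_ne_zero (T.ψ_ne F (ne_zero_of_not_dvd T.hw₂')))
  hw₁ := by
    have h1 := S.Xi_ne F i
    rw [VFData.W₁, T.P_eq, T.of_subst F T.hw₁, one_pow, one_mul, zpow_sub₀ h1, zpow_one,
      zpow_natCast]
    field_simp
  hw₂ := by
    have h1 := S.Xi_ne F i
    rw [VFData.W₂, T.P_eq, T.of_subst F T.hw₂, one_pow, one_mul, zpow_sub₀ h1, zpow_one,
      zpow_natCast]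
    field_simp
  hd := Or.inr (T.h_not_dvd F)
  d := T.d
  hd0 := T.hd0
  hdN := T.hdN
  hd₁ := T.hd₁
  hd₂ := T.hd₂
  hπ := T.hπ
  i₁ := ((T.l₁ + T.g₁ : ℕ) : ℤ) - T.me
  j₁ := (T.l₁ : ℤ) - T.me
  i₂ := ((T.l₂ + T.g₂ : ℕ) : ℤ) - T.me
  j₂ := (T.l₂ : ℤ) - T.me
  k := (T.mz : ℤ) - 2 * T.me
  h1p := by
    have h1 := S.Xi_ne F i
    have : S.R F * S.V₁ F (S.Xi F i) / 1 / S.Xi F i ^ (((T.l₁ + T.g₁ : ℕ) : ℤ) - T.me) =
        T.ψ F T.α₁t * (T.ψ F T.et)⁻¹ := by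
      rw [VFData.R, T.V₁_p, T.of_subst F T.he, zpow_sub₀ h1, zpow_natCast, zpow_natCast]
      field_simp
    rw [this]
    exact Subalgebra.mul_mem _ (T.ψ_mem' F _) (T.inv_et F)
  h1q := by
    have h1 := S.Xi_ne F i
    have : S.R F * S.V₁ F ((yF F - algebraMap ℂ F b) / S.Xi F i) / 1 /
        S.Xi F i ^ ((T.l₁ : ℤ) - T.me) = T.ψ F T.γ₁t * (T.ψ F T.et)⁻¹ := by
      rw [VFData.R, T.V₁_q, T.of_subst F T.he, zpow_sub₀ h1, zpow_natCast, zpow_natCast]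
      field_simp
    rw [this]
    exact Subalgebra.mul_mem _ (T.ψ_mem' F _) (T.inv_et F)
  h2p := by
    have h1 := S.Xi_ne F i
    have : S.R F * S.V₂ F (S.Xi F i) / 1 / S.Xi F i ^ (((T.l₂ + T.g₂ : ℕ) : ℤ) - T.me) =
        T.ψ F T.α₂t * (T.ψ F T.et)⁻¹ := by
      rw [VFData.R, T.V₂_p, T.of_subst F T.he, zpow_sub₀ h1, zpow_natCast, zpow_natCast]
      field_simp
    rw [this]
    exact Subalgebra.mul_mem _ (T.ψ_mem' F _) (T.inv_et F)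
  h2q := by
    have h1 := S.Xi_ne F i
    have : S.R F * S.V₂ F ((yF F - algebraMap ℂ F b) / S.Xi F i) / 1 /
        S.Xi F i ^ ((T.l₂ : ℤ) - T.me) = T.ψ F T.γ₂t * (T.ψ F T.et)⁻¹ := by
      rw [VFData.R, T.V₂_q, T.of_subst F T.he, zpow_sub₀ h1, zpow_natCast, zpow_natCast]
      field_simp
    rw [this]
    exact Subalgebra.mul_mem _ (T.ψ_mem' F _) (T.inv_et F)
  hi₁ := T.hi₁
  hj₁ := T.hj₁
  hi₂ := T.hi₂
  hj₂ := T.hj₂
  hM0 := by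
    rw [T.minor_eq]
    have hc : algebraMap ℂ F S.c ≠ 0 := by rw [Ne, map_eq_zero]; exact S.c_ne
    have hR : S.R F ≠ 0 := inv_ne_zero (VFData.φF_ne F S.ell_ne)
    exact mul_ne_zero (mul_ne_zero hR hR) (mul_ne_zero (mul_ne_zero hc
      (T.ψ_ne F (ne_zero_of_not_dvd T.X_not_dvd_Qt))) (mul_ne_zero (pow_ne_zero _ (S.Xi_ne F i))
      (T.ψ_ne F (ne_zero_of_not_dvd T.hz'))))
  hM := by
    have h1 := S.Xi_ne F i
    have : S.R F * S.R F * (S.V₁ F (S.Xi F i) * S.V₂ F ((yF F - algebraMap ℂ F b) / S.Xi F i) -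
        S.V₁ F ((yF F - algebraMap ℂ F b) / S.Xi F i) * S.V₂ F (S.Xi F i)) / (1 * 1) /
        S.Xi F i ^ ((T.mz : ℤ) - 2 * T.me) =
        algebraMap ℂ F S.c * T.ψ F T.Qt * T.ψ F T.zt * ((T.ψ F T.et)⁻¹ * (T.ψ F T.et)⁻¹) := by
      rw [T.minor_eq, VFData.R, T.of_subst F T.he, zpow_sub₀ h1, zpow_natCast, two_mul,
        zpow_add₀ h1, zpow_natCast]
      field_simp
    rw [this]
    exact Subalgebra.mul_mem _ (Subalgebra.mul_mem _ (Subalgebra.mul_mem _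
      (Subalgebra.algebraMap_mem _ _) (T.ψ_mem' F _)) (T.ψ_mem' F _))
      (Subalgebra.mul_mem _ (T.inv_et F) (T.inv_et F))
  hM' := by
    have h1 := S.Xi_ne F i
    have : (S.R F * S.R F * (S.V₁ F (S.Xi F i) * S.V₂ F ((yF F - algebraMap ℂ F b) / S.Xi F i) -
        S.V₁ F ((yF F - algebraMap ℂ F b) / S.Xi F i) * S.V₂ F (S.Xi F i)) / (1 * 1) /
        S.Xi F i ^ ((T.mz : ℤ) - 2 * T.me))⁻¹ =
        algebraMap ℂ F S.c⁻¹ * (T.ψ F T.Qt)⁻¹ * (T.ψ F T.zt)⁻¹ * (T.ψ F T.et * T.ψ F T.et) := by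
      rw [T.minor_eq, VFData.R, T.of_subst F T.he, zpow_sub₀ h1, zpow_natCast, two_mul,
        zpow_add₀ h1, zpow_natCast, map_inv₀]
      field_simp
    rw [this]
    exact Subalgebra.mul_mem _ (Subalgebra.mul_mem _ (Subalgebra.mul_mem _
      (Subalgebra.algebraMap_mem _ _) (T.inv_Qt F)) (T.inv_zt F))
      (Subalgebra.mul_mem _ (T.ψ_mem' F _) (T.ψ_mem' F _))
  hk := T.hk

end PointFacts

end Crest.Agent.R278
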