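import Crest.Agent.R278.Plane2Cover
import Crest.Agent.R278.PointChart

/-!
Row 278 (S0421): the check list of polynomial facts.
-/

set_option autoImplicit false

namespace Crest.Agent.R278

open MvPolynomial

/-- The combinatorial and geometric check list. -/
structure CheckList (N : ℕ) (S : VFData) where
  dz : ℕ
  d₁ : ℕ
  d₂ : ℕ
  de : ℕ
  mz : Fin S.r → ℂ → ℕ
  m₁ : Fin S.r → ℂ → ℕ
  m₂ : Fin S.r → ℂ → ℕ
  me : Fin S.r → ℂ → ℕ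
  goodz : Good S.a S.pts S.z dz mz
  good₁ : Good S.a S.pts S.w₁ d₁ m₁
  good₂ : Good S.a S.pts S.w₂ d₂ m₂
  goode : Good S.a S.pts S.ell de me
  r_pos : 0 < S.r
  pts_ne : ∀ i, (S.pts i).Nonempty
  M_pos : ∀ i, ∀ b ∈ S.pts i, 0 < mz i b + m₁ i b + m₂ i b + 3 * me i b
  μ : Fin S.r → ℕ
  hμ : ∀ i, ∀ b ∈ S.pts i, mz i b + m₁ i b + m₂ i b + 3 * me i b ≤ μ i
  hμD : ∑ i, μ i < dz + d₁ + d₂ + 3 * de
  hN : ∀ i, ∀ b ∈ S.pts i, mz i b + m₁ i b + m₂ i b + 3 * me i b +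
    ∑ b' ∈ (S.pts i).erase b, ((mz i b' + m₁ i b' + m₂ i b' + 3 * me i b') -
      (mz i b + m₁ i b + m₂ i b + 3 * me i b)) +
    ∑ k ∈ Finset.univ.erase i, μ k < dz + d₁ + d₂ + 3 * de
  T : ∀ i, ∀ b ∈ S.pts i, PointFacts N S i b
  hTz : ∀ i b hb, (T i b hb).mz = mz i b
  hT₁ : ∀ i b hb, (T i b hb).m₁ = m₁ i b
  hT₂ : ∀ i b hb, (T i b hb).m₂ = m₂ i b
  hTe : ∀ i b hb, (T i b hb).me = me i b

namespace CheckList

variable {N : ℕ} {S : VFData} (Q : CheckList N S)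

/-- the plane data -/
noncomputable def plane : Plane2 where
  r := S.r
  r_pos := Q.r_pos
  a := S.a
  a_inj := S.a_inj
  S := S.pts
  S_ne := Q.pts_ne
  M i b := Q.mz i b + Q.m₁ i b + Q.m₂ i b + 3 * Q.me i b
  M_pos := Q.M_pos
  μ := Q.μ
  hμ := Q.hμ
  D := Q.dz + Q.d₁ + Q.d₂ + 3 * Q.de
  Θ := S.z * S.w₁ * S.w₂ * S.ell ^ 3
  good := ((Q.goodz.mul Q.good₁).mul Q.good₂).mul (Q.goode.pow 3)
  hμD := Q.hμD
  hN := Q.hN

variable {F : Type} [Field F] [Algebra ℂ F] [Algebra (MvPolynomial (Fin 2) ℂ) F]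
  [IsScalarTower ℂ (MvPolynomial (Fin 2) ℂ) F] [IsFractionRing (MvPolynomial (Fin 2) ℂ) F]

theorem aeval_xy (f : MvPolynomial (Fin 2) ℂ) : aeval ![xF F, yF F] f = φF F f := by
  have h1 : (aeval ![xF F, yF F] : MvPolynomial (Fin 2) ℂ →ₐ[ℂ] F) =
      IsScalarTower.toAlgHom ℂ (MvPolynomial (Fin 2) ℂ) F := by
    apply MvPolynomial.algHom_ext
    intro i
    fin_cases i
    · simp
    · simp
  rw [h1]; rfl

theorem th_eq : Q.plane.th (xF F) (yF F) = S.Θ F := by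
  unfold Plane2.th
  rw [aeval_xy]
  unfold plane VFData.Θ
  simp only [φF, map_mul, map_pow]

/-- the charts -/
noncomputable def chart (Ca Ci : ChartData N (S.W₁ F) (S.W₂ F) (S.V₁ F) (S.V₂ F) (S.R F) (S.R F)) :
    Q.plane.L → ChartData N (S.W₁ F) (S.W₂ F) (S.V₁ F) (S.V₂ F) (S.R F) (S.R F)
  | Sum.inl 0 => Ca
  | Sum.inl 1 => Ci
  | Sum.inr p => (Q.T p.1 p.2 p.2.2).chart F

theorem point_h (i : Fin S.r) (b : ℂ) (hb : b ∈ S.pts i) : (Q.T i b hb).h F =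
    S.Θ F / S.Xi F i ^ (Q.mz i b + Q.m₁ i b + Q.m₂ i b + 3 * Q.me i b) *
      (∏ k ∈ Finset.univ.erase i, S.Xi F k) *
      ∏ b' ∈ (S.pts i).erase b, (yF F - algebraMap ℂ F b') := by
  unfold PointFacts.h PointFacts.M
  rw [Q.hTz, Q.hT₁, Q.hT₂, Q.hTe]

end CheckList

end Crest.Agent.R278
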