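import Crest.Agent.R278.Cover

set_option autoImplicit false
set_option linter.unusedSectionVars false

/-!
# Cyclic extensions `L = F(g)`, `g^N = w`: integral closure of a normal ring `R` with
`Frac R = F` when `(e g)^N` is a unit of `R`; stability under derivations.
-/

namespace Crest.Agent.R278.Cyc

open Module Crest.Agent.R278

section Trace

variable {F L : Type*} [Field F] [Field L] [Algebra F L]
  {N : ℕ} (b : Basis (Fin N) F L) (g : L) (hb : ∀ i : Fin N, b i = g ^ (i : ℕ))
  (w : F) (hw : g ^ N = algebraMap F L w)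

include hb hw in
theorem repr_pow_eq_zero {j : ℕ} (hj : 0 < j) (hjN : j < N) (i : Fin N) :
    b.repr (g ^ j * b i) i = 0 := by
  classical
  rw [hb i, ← pow_add]
  rcases lt_or_ge (j + (i : ℕ)) N with h | h
  · have h1 : g ^ (j + (i : ℕ)) = b ⟨j + i, h⟩ := (hb ⟨j + i, h⟩).symm
    rw [h1, b.repr_self, Finsupp.single_apply, if_neg]
    intro h2
    have := congrArg Fin.val h2
    simp at this
    omega
  · have hi := i.isLt
    have h2 : j + (i : ℕ) - N < N := by omega
    have h1 : g ^ (j + (i : ℕ)) = w • b ⟨j + i - N, h2⟩ := by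
      rw [hb ⟨j + i - N, h2⟩, Algebra.smul_def, ← hw, ← pow_add]
      congr 1
      simp only
      omega
    rw [h1, map_smul, b.repr_self, Finsupp.smul_apply, Finsupp.single_apply, if_neg, smul_zero]
    intro h3
    have := congrArg Fin.val h3
    simp at this
    omega

include hb hw in
theorem trace_pow_eq_zero {j : ℕ} (hj : 0 < j) (hjN : j < N) :
    Algebra.trace F L (g ^ j) = 0 := by
  classical
  rw [Algebra.trace_eq_matrix_trace b, Matrix.trace]
  apply Finset.sum_eq_zero
  intro i _
  rw [Matrix.diag_apply, Algebra.leftMulMatrix_eq_repr_mul]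
  exact repr_pow_eq_zero b g hb w hw hj hjN i

include hb hw in
theorem trace_mul_inv_pow (hg : g ≠ 0) (f : L) (l : Fin N) :
    Algebra.trace F L (f * (g ^ (l : ℕ))⁻¹) = (N : F) * b.repr f l := by
  classical
  have hw0 : w ≠ 0 := by
    rintro rfl
    rw [map_zero] at hw
    exact hg (pow_eq_zero_iff (by have := l.isLt; omega) |>.mp hw)
  have hw0' : algebraMap F L w ≠ 0 := by
    rw [Ne, FaithfulSMul.algebraMap_eq_zero_iff]
    exact hw0
  have key : ∀ i : Fin N, Algebra.trace F L (g ^ (i : ℕ) * (g ^ (l : ℕ))⁻¹)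
      = if i = l then (N : F) else 0 := by
    intro i
    split_ifs with hil
    · subst hil
      rw [mul_inv_cancel₀ (pow_ne_zero _ hg)]
      have := Algebra.trace_algebraMap_of_basis b (1 : F)
      rw [map_one] at this
      rw [this]
      simp
    · have hne : (i : ℕ) ≠ (l : ℕ) := fun h => hil (Fin.ext h)
      have hi := i.isLt
      have hl := l.isLt
      rcases lt_or_gt_of_ne hne with h | h
      · have h1 : g ^ (i : ℕ) * (g ^ (l : ℕ))⁻¹ = w⁻¹ • g ^ (N + i - l) := by
          rw [Algebra.smul_def, map_inv₀, ← hw]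
          rw [mul_inv_eq_iff_eq_mul₀ (pow_ne_zero _ hg), mul_assoc, ← pow_add,
            eq_inv_mul_iff_mul_eq₀ (pow_ne_zero _ hg), ← pow_add]
          congr 1
          omega
        rw [h1, map_smul, trace_pow_eq_zero b g hb w hw (by omega) (by omega), smul_zero]
      · have h1 : g ^ (i : ℕ) * (g ^ (l : ℕ))⁻¹ = g ^ (i - l : ℕ) := by
          rw [mul_inv_eq_iff_eq_mul₀ (pow_ne_zero _ hg), ← pow_add]
          congr 1
          omega
        rw [h1, trace_pow_eq_zero b g hb w hw (by omega) (by omega)]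
  conv_lhs => rw [← b.sum_repr f]
  rw [Finset.sum_mul, map_sum]
  have : ∀ i : Fin N, Algebra.trace F L ((b.repr f) i • b i * (g ^ (l : ℕ))⁻¹)
      = if i = l then (N : F) * b.repr f i else 0 := by
    intro i
    rw [smul_mul_assoc, map_smul, hb i, key i]
    split_ifs <;> simp [mul_comm]
  rw [Finset.sum_congr rfl (fun i _ => this i), Finset.sum_ite_eq' Finset.univ l]
  simp

end Trace

section Integral

variable {F L : Type*} [Field F] [Field L] [Algebra F L]
  {N : ℕ} (b : Basis (Fin N) F L) (g : L) (hb : ∀ i : Fin N, b i = g ^ (i : ℕ))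
  (w : F) (hw : g ^ N = algebraMap F L w)
  (R : Type*) [CommRing R] [IsIntegrallyClosed R] [Algebra R F] [IsFractionRing R F]
  [Algebra R L] [IsScalarTower R F L]

include hb hw in
/-- Coordinates of an integral element, when `(e g)^N` is a unit of the normal ring `R`. -/
theorem coord_mem (hg : g ≠ 0) (e : F) (v : R) (hv : algebraMap R F v * (e ^ N * w) = 1)
    (hN : IsUnit (N : R)) (f : L) (hf : IsIntegral R f) (l : Fin N) :
    ∃ r : R, algebraMap R F r = b.repr f l * (e ^ (l : ℕ))⁻¹ := by
  classical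
  have hN0 : 0 < N := lt_of_le_of_lt (Nat.zero_le _) l.isLt
  have : FiniteDimensional F L := b.finiteDimensional_of_finite
  -- the inverse of `e g` is integral
  have hinv : IsIntegral R ((algebraMap F L e * g)⁻¹) := by
    apply IsIntegral.of_pow hN0
    have h1 : ((algebraMap F L e * g)⁻¹) ^ N = algebraMap R L v := by
      rw [inv_pow, inv_eq_iff_eq_inv, mul_pow, hw, ← map_pow, ← map_mul,
        IsScalarTower.algebraMap_apply R F L, ← map_inv₀]
      congr 1
      exact eq_inv_of_mul_eq_one_right hv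
    rw [h1]
    exact isIntegral_algebraMap
  have h2 : IsIntegral R (f * ((algebraMap F L e * g)⁻¹) ^ (l : ℕ)) := hf.mul (hinv.pow _)
  have h3 := Algebra.isIntegral_trace (L := F) h2
  have h4 : f * ((algebraMap F L e * g)⁻¹) ^ (l : ℕ)
      = ((e ^ (l : ℕ))⁻¹) • (f * (g ^ (l : ℕ))⁻¹) := by
    rw [Algebra.smul_def, map_inv₀, map_pow, mul_inv, mul_pow, inv_pow, inv_pow]
    ring
  rw [h4, map_smul, trace_mul_inv_pow b g hb w hw hg, smul_eq_mul] at h3
  obtain ⟨r, hr⟩ := (IsIntegrallyClosed.isIntegral_iff (R := R) (K := F)).mp h3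
  obtain ⟨n, hn⟩ := hN
  refine ⟨(↑(n⁻¹) : R) * r, ?_⟩
  rw [map_mul, hr]
  have h5 : algebraMap R F (↑(n⁻¹) : R) * (N : F) = 1 := by
    have : algebraMap R F ((↑(n⁻¹) : R) * (N : R)) = 1 := by
      rw [← hn, Units.inv_mul, map_one]
    rwa [map_mul, map_natCast] at this
  calc algebraMap R F (↑(n⁻¹) : R) * ((e ^ (l : ℕ))⁻¹ * ((N : F) * (b.repr f) l))
      = (algebraMap R F (↑(n⁻¹) : R) * (N : F)) * ((e ^ (l : ℕ))⁻¹ * (b.repr f) l) := by ring
    _ = _ := by rw [h5]; ring

end Integral

/-- If every element of the subring `C` is integral over `R`, then integral over `C`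
implies integral over `R`. -/
theorem isIntegral_of_subalgebra {k R L : Type*} [Field k] [CommRing R] [Field L] [Algebra k L]
    [Algebra R L] (C : Subalgebra k L) (hC : ∀ x ∈ C, IsIntegral R x) (f : L)
    (hf : IsIntegral C f) : IsIntegral R f := by
  have h1 : IsIntegral (integralClosure R L) f := by
    obtain ⟨p, hp, hpf⟩ := hf
    let ψ : C →+* integralClosure R L :=
      { toFun := fun x => ⟨x, hC x x.2⟩
        map_one' := rfl
        map_mul' := fun _ _ => rfl
        map_zero' := rfl
        map_add' := fun _ _ => rfl }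
    refine ⟨p.map ψ, hp.map ψ, ?_⟩
    rw [Polynomial.eval₂_map]
    exact hpf
  exact isIntegral_trans (R := R) (A := integralClosure R L) f h1

section Chart

open MvPolynomial

variable {F L : Type*} [Field F] [Field L] [Algebra ℂ F] [Algebra ℂ L] [Algebra F L]
  [IsScalarTower ℂ F L]

/-- The chart ring `ℂ[p, q, 1/u, e g]`, where `p, q` are the images of the two coordinates. -/
noncomputable def chartRing (φ : MvPolynomial (Fin 2) ℂ →ₐ[ℂ] F) (u : MvPolynomial (Fin 2) ℂ)
    (e : F) (g : L) : Subalgebra ℂ L :=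
  Algebra.adjoin ℂ {algebraMap F L (φ (X 0)), algebraMap F L (φ (X 1)),
    (algebraMap F L (φ u))⁻¹, algebraMap F L e * g}

variable (φ : MvPolynomial (Fin 2) ℂ →ₐ[ℂ] F) (u : MvPolynomial (Fin 2) ℂ) (e : F) (g : L)

theorem chartRing_poly (a : MvPolynomial (Fin 2) ℂ) :
    algebraMap F L (φ a) ∈ chartRing φ u e g := by
  induction a using MvPolynomial.induction_on with
  | C c =>
    rw [← MvPolynomial.algebraMap_eq, AlgHom.commutes, ← IsScalarTower.algebraMap_apply]
    exact Subalgebra.algebraMap_mem _ c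
  | add p q hp hq => rw [map_add, map_add]; exact Subalgebra.add_mem _ hp hq
  | mul_X p i hp =>
    rw [map_mul, map_mul]
    refine Subalgebra.mul_mem _ hp ?_
    fin_cases i
    · exact Algebra.subset_adjoin (by simp)
    · exact Algebra.subset_adjoin (by simp)

theorem chartRing_inv : (algebraMap F L (φ u))⁻¹ ∈ chartRing φ u e g :=
  Algebra.subset_adjoin (by simp)

theorem chartRing_gen : algebraMap F L e * g ∈ chartRing φ u e g :=
  Algebra.subset_adjoin (by simp)

/-- `f ∈ F` is of the form `φ a / (φ u)^n`. -/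
def MemAway (f : F) : Prop := ∃ (n : ℕ) (a : MvPolynomial (Fin 2) ℂ), φ u ^ n * f = φ a

theorem MemAway.mem_chartRing {φ : MvPolynomial (Fin 2) ℂ →ₐ[ℂ] F}
    (hφ : Function.Injective φ) {u : MvPolynomial (Fin 2) ℂ} (hu : u ≠ 0)
    {f : F} (h : MemAway φ u f) (e : F) (g : L) : algebraMap F L f ∈ chartRing φ u e g := by
  obtain ⟨n, a, h⟩ := h
  have hu' : φ u ≠ 0 := fun h0 => hu (hφ (by rw [h0, map_zero]))
  have h1 : algebraMap F L f = algebraMap F L (φ a) * ((algebraMap F L (φ u))⁻¹) ^ n := by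
    rw [← map_inv₀, ← map_pow, ← map_mul]
    congr 1
    rw [← h, inv_pow]
    field_simp
  rw [h1]
  exact Subalgebra.mul_mem _ (chartRing_poly φ u e g a)
    (Subalgebra.pow_mem _ (chartRing_inv φ u e g) n)

theorem IsScalarTower.algebraMap_apply' (c : ℂ) :
    algebraMap F L (algebraMap ℂ F c) = algebraMap ℂ L c :=
  (IsScalarTower.algebraMap_apply ℂ F L c).symm

/-- Data of a cyclic chart. -/
structure CycChart {N : ℕ} (b : Basis (Fin N) F L) (w : F) : Prop where
  inj : Function.Injective φ
  frac : ∀ f : F, ∃ p q : MvPolynomial (Fin 2) ℂ, q ≠ 0 ∧ f * φ q = φ p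
  u_ne : u ≠ 0
  g_ne : g ≠ 0
  bas : ∀ i : Fin N, b i = g ^ (i : ℕ)
  pow : g ^ N = algebraMap F L w
  e_ne : e ≠ 0
  unit₁ : MemAway φ u (e ^ N * w)
  unit₂ : MemAway φ u (e ^ N * w)⁻¹

variable {φ u e g}
variable {N : ℕ} {b : Basis (Fin N) F L} {w : F}

theorem CycChart.Npos (H : CycChart φ u e g b w) : 0 < N := by
  rcases Nat.eq_zero_or_pos N with h | h
  · exfalso
    subst h
    exact one_ne_zero (by rw [← b.sum_repr (1 : L)]; simp : (1 : L) = 0)
  · exact h

theorem CycChart.coord (H : CycChart φ u e g b w) (f : L)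
    (hf : IsIntegral (chartRing φ u e g) f) (l : Fin N) :
    MemAway φ u (b.repr f l * (e ^ (l : ℕ))⁻¹) := by
  classical
  have hφu : φ u ≠ 0 := fun h0 => H.u_ne (H.inj (by rw [h0, map_zero]))
  let alg : Algebra (MvPolynomial (Fin 2) ℂ) F := φ.toRingHom.toAlgebra
  have halg : ∀ a : MvPolynomial (Fin 2) ℂ, algebraMap (MvPolynomial (Fin 2) ℂ) F a = φ a :=
    fun a => rfl
  have : FaithfulSMul (MvPolynomial (Fin 2) ℂ) F :=
    (faithfulSMul_iff_algebraMap_injective _ _).mpr H.inj
  have hfr : IsFractionRing (MvPolynomial (Fin 2) ℂ) F := by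
    refine IsFractionRing.of_field (MvPolynomial (Fin 2) ℂ) F fun f => ?_
    obtain ⟨p, q, hq, hpq⟩ := H.frac f
    refine ⟨p, q, ?_⟩
    rw [halg, halg, eq_div_iff]
    · exact hpq
    · exact fun h0 => hq (H.inj (by rw [h0, map_zero]))
  let S : Submonoid (MvPolynomial (Fin 2) ℂ) := Submonoid.powers u
  have hS : S ≤ nonZeroDivisors (MvPolynomial (Fin 2) ℂ) :=
    powers_le_nonZeroDivisors_of_noZeroDivisors H.u_ne
  let R : Subalgebra (MvPolynomial (Fin 2) ℂ) F := Localization.subalgebra.ofField F S hS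
  have hRmem : ∀ f : F, f ∈ R ↔ MemAway φ u f := by
    intro f
    constructor
    · rintro ⟨a, s, hs, rfl⟩
      obtain ⟨n, rfl⟩ := hs
      refine ⟨n, a, ?_⟩
      rw [halg, halg, map_pow]
      have : φ u ^ n ≠ 0 := pow_ne_zero _ hφu
      field_simp
    · rintro ⟨n, a, h⟩
      refine ⟨a, u ^ n, ⟨n, rfl⟩, ?_⟩
      rw [halg, halg, map_pow, ← h]
      have : φ u ^ n ≠ 0 := pow_ne_zero _ hφu
      field_simp
  have : IsLocalization S R := Localization.subalgebra.isLocalization_ofField F S hS
  have : IsFractionRing R F := Localization.subalgebra.isFractionRing_ofField F S hS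
  have : IsIntegrallyClosed R := isIntegrallyClosed_of_isLocalization (R := MvPolynomial (Fin 2) ℂ) R S hS
  have : IsScalarTower R F L := inferInstance
  have hCint : ∀ x ∈ chartRing φ u e g, IsIntegral R x := by
    have hRint : ∀ f : F, MemAway φ u f → IsIntegral R (algebraMap F L f) := by
      intro f hf
      have := (hRmem f).mpr hf
      exact isIntegral_algebraMap (R := R) (A := L) (x := ⟨f, this⟩)
    intro x hx
    refine Algebra.adjoin_induction ?_ ?_ (fun x y _ _ hx hy => hx.add hy)
      (fun x y _ _ hx hy => hx.mul hy) hx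
    · intro x hx
      simp only [Set.mem_insert_iff, Set.mem_singleton_iff] at hx
      rcases hx with rfl | rfl | rfl | rfl
      · exact hRint _ ⟨0, X 0, by simp⟩
      · exact hRint _ ⟨0, X 1, by simp⟩
      · rw [← map_inv₀]
        exact hRint _ ⟨1, 1, by rw [pow_one, mul_inv_cancel₀ hφu, map_one]⟩
      · apply IsIntegral.of_pow H.Npos
        rw [mul_pow, H.pow, ← map_pow, ← map_mul]
        exact hRint _ H.unit₁
    · intro c
      rw [← IsScalarTower.algebraMap_apply' (F := F)]
      refine hRint _ ⟨0, C c, ?_⟩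
      rw [pow_zero, one_mul, ← MvPolynomial.algebraMap_eq, AlgHom.commutes]
  have hfR : IsIntegral R f := isIntegral_of_subalgebra _ hCint f hf
  have hw0 : w ≠ 0 := by
    rintro rfl
    have := H.pow
    rw [map_zero] at this
    exact H.g_ne (pow_eq_zero_iff H.Npos.ne' |>.mp this)
  have hv := H.unit₂
  rw [← hRmem] at hv
  obtain ⟨r, hr⟩ := coord_mem b g H.bas w H.pow R H.g_ne e ⟨_, hv⟩
    (by
      show (e ^ N * w)⁻¹ * (e ^ N * w) = 1
      exact inv_mul_cancel₀ (mul_ne_zero (pow_ne_zero _ H.e_ne) hw0))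
    (by
      have h1 : (N : ℂ) ≠ 0 := Nat.cast_ne_zero.mpr H.Npos.ne'
      have h2 : (C (N : ℂ)⁻¹ : MvPolynomial (Fin 2) ℂ) * (N : MvPolynomial (Fin 2) ℂ) = 1 := by
        rw [← map_natCast (C : ℂ →+* MvPolynomial (Fin 2) ℂ) N, ← map_mul, inv_mul_cancel₀ h1,
          map_one]
      have h3 : IsUnit (N : MvPolynomial (Fin 2) ℂ) := IsUnit.of_mul_eq_one_right _ h2
      have h4 := h3.map (algebraMap (MvPolynomial (Fin 2) ℂ) R)
      rwa [map_natCast] at h4)
    f hfR l
  rw [← hr, ← hRmem]
  exact r.2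

/-- **The chart ring is integrally closed in `L`.** -/
theorem CycChart.closed (H : CycChart φ u e g b w) (f : L)
    (hf : IsIntegral (chartRing φ u e g) f) : f ∈ chartRing φ u e g := by
  rw [← b.sum_repr f]
  refine Subalgebra.sum_mem _ fun l _ => ?_
  have h1 := (H.coord f hf l).mem_chartRing H.inj H.u_ne e g
  have h2 : b.repr f l • b l
      = algebraMap F L (b.repr f l * (e ^ (l : ℕ))⁻¹) * (algebraMap F L e * g) ^ (l : ℕ) := by
    rw [Algebra.smul_def, H.bas l, mul_pow, map_mul, map_inv₀, map_pow]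
    have : algebraMap F L e ^ (l : ℕ) ≠ 0 := by
      apply pow_ne_zero
      rw [Ne, FaithfulSMul.algebraMap_eq_zero_iff]
      exact H.e_ne
    field_simp
  rw [h2]
  exact Subalgebra.mul_mem _ h1 (Subalgebra.pow_mem _ (chartRing_gen φ u e g) _)

/-- Membership in the chart ring in terms of coordinates. -/
theorem CycChart.mem_iff (H : CycChart φ u e g b w) (f : L) :
    f ∈ chartRing φ u e g ↔ ∀ l : Fin N, MemAway φ u (b.repr f l * (e ^ (l : ℕ))⁻¹) := by
  constructor
  · intro hf l
    exact H.coord f (isIntegral_algebraMap (R := chartRing φ u e g) (A := L) (x := ⟨f, hf⟩)) l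
  · intro h
    rw [← b.sum_repr f]
    refine Subalgebra.sum_mem _ fun l _ => ?_
    have h1 := (h l).mem_chartRing H.inj H.u_ne e g
    have h2 : b.repr f l • b l
        = algebraMap F L (b.repr f l * (e ^ (l : ℕ))⁻¹) * (algebraMap F L e * g) ^ (l : ℕ) := by
      rw [Algebra.smul_def, H.bas l, mul_pow, map_mul, map_inv₀, map_pow]
      have : algebraMap F L e ^ (l : ℕ) ≠ 0 := by
        apply pow_ne_zero
        rw [Ne, FaithfulSMul.algebraMap_eq_zero_iff]
        exact H.e_ne
      field_simp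
    rw [h2]
    exact Subalgebra.mul_mem _ h1 (Subalgebra.pow_mem _ (chartRing_gen φ u e g) _)

/-- A derivation of a field preserves an adjoined subalgebra if it does so on generators. -/
theorem derivation_adjoin_mem (D : Derivation ℂ L L) (s : Set L)
    (hs : ∀ x ∈ s, D x ∈ Algebra.adjoin ℂ s) (f : L) (hf : f ∈ Algebra.adjoin ℂ s) :
    D f ∈ Algebra.adjoin ℂ s := by
  refine Algebra.adjoin_induction (p := fun x _ => D x ∈ Algebra.adjoin ℂ s) hs ?_ ?_ ?_ hf
  · intro c
    rw [D.map_algebraMap]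
    exact Subalgebra.zero_mem _
  · intro x y _ _ hx hy
    rw [map_add]
    exact Subalgebra.add_mem _ hx hy
  · intro x y hx' hy' hx hy
    rw [D.leibniz, smul_eq_mul, smul_eq_mul]
    exact Subalgebra.add_mem _ (Subalgebra.mul_mem _ hx' hy) (Subalgebra.mul_mem _ hy' hx)

theorem derivation_poly_mem (D : Derivation ℂ L L) (A : Subalgebra ℂ L) (p q : L) (hp : p ∈ A)
    (hq : q ∈ A) (hDp : D p ∈ A) (hDq : D q ∈ A) (a : MvPolynomial (Fin 2) ℂ) :
    D (aeval ![p, q] a) ∈ A ∧ aeval ![p, q] a ∈ A := by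
  induction a using MvPolynomial.induction_on with
  | C c =>
    rw [← MvPolynomial.algebraMap_eq, AlgHom.commutes, D.map_algebraMap]
    exact ⟨Subalgebra.zero_mem _, Subalgebra.algebraMap_mem _ c⟩
  | add a b ha hb =>
    rw [map_add, map_add]
    exact ⟨Subalgebra.add_mem _ ha.1 hb.1, Subalgebra.add_mem _ ha.2 hb.2⟩
  | mul_X a i ha =>
    have hi : D (aeval ![p, q] (X i : MvPolynomial (Fin 2) ℂ)) ∈ A ∧
        aeval ![p, q] (X i : MvPolynomial (Fin 2) ℂ) ∈ A := by
      rw [aeval_X]
      fin_cases i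
      · exact ⟨hDp, hp⟩
      · exact ⟨hDq, hq⟩
    rw [map_mul, D.leibniz, smul_eq_mul, smul_eq_mul]
    exact ⟨Subalgebra.add_mem _ (Subalgebra.mul_mem _ ha.2 hi.1)
      (Subalgebra.mul_mem _ hi.2 ha.1), Subalgebra.mul_mem _ ha.2 hi.2⟩

/-- **The chart ring is stable under `D`** if `D` maps both coordinates into it. -/
theorem CycChart.stable (H : CycChart φ u e g b w) (D : Derivation ℂ L L)
    (h0 : D (algebraMap F L (φ (X 0))) ∈ chartRing φ u e g)
    (h1 : D (algebraMap F L (φ (X 1))) ∈ chartRing φ u e g)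
    (f : L) (hf : f ∈ chartRing φ u e g) : D f ∈ chartRing φ u e g := by
  have hφu : φ u ≠ 0 := fun h0 => H.u_ne (H.inj (by rw [h0, map_zero]))
  have hpoly : ∀ a : MvPolynomial (Fin 2) ℂ,
      D (algebraMap F L (φ a)) ∈ chartRing φ u e g := by
    intro a
    have := derivation_poly_mem D (chartRing φ u e g) _ _ (chartRing_poly φ u e g (X 0))
      (chartRing_poly φ u e g (X 1)) h0 h1 a
    have h2 : aeval ![algebraMap F L (φ (X 0)), algebraMap F L (φ (X 1))] a
        = algebraMap F L (φ a) := by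
      have : (aeval ![algebraMap F L (φ (X 0)), algebraMap F L (φ (X 1))] :
          MvPolynomial (Fin 2) ℂ →ₐ[ℂ] L) = (IsScalarTower.toAlgHom ℂ F L).comp φ := by
        apply MvPolynomial.algHom_ext
        intro i
        fin_cases i <;> simp
      rw [this]
      simp
    rw [h2] at this
    exact this.1
  have hDinv : D ((algebraMap F L (φ u))⁻¹) ∈ chartRing φ u e g := by
    rw [D.leibniz_inv, neg_smul, smul_eq_mul]
    exact Subalgebra.neg_mem _ (Subalgebra.mul_mem _
      (Subalgebra.pow_mem _ (chartRing_inv φ u e g) 2) (hpoly u))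
  have hDv : ∀ v : F, MemAway φ u v → D (algebraMap F L v) ∈ chartRing φ u e g := by
    intro v hv
    have hvm := hv.mem_chartRing H.inj H.u_ne e g
    obtain ⟨n, a, ha⟩ := hv
    have h2 : algebraMap F L v = algebraMap F L (φ a) * ((algebraMap F L (φ u))⁻¹) ^ n := by
      rw [← map_inv₀, ← map_pow, ← map_mul]
      congr 1
      rw [← ha, inv_pow]
      field_simp
    rw [h2, D.leibniz, D.leibniz_pow, smul_eq_mul, smul_eq_mul, smul_eq_mul, nsmul_eq_mul]
    refine Subalgebra.add_mem _ (Subalgebra.mul_mem _ (chartRing_poly φ u e g a)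
      (Subalgebra.mul_mem _ (Subalgebra.natCast_mem _ n) (Subalgebra.mul_mem _
        (Subalgebra.pow_mem _ (chartRing_inv φ u e g) _) hDinv)))
      (Subalgebra.mul_mem _ (Subalgebra.pow_mem _ (chartRing_inv φ u e g) _) (hpoly a))
  have hDg : D (algebraMap F L e * g) ∈ chartRing φ u e g := by
    set G := algebraMap F L e * g with hG
    have hGpow : G ^ N = algebraMap F L (e ^ N * w) := by
      rw [hG, mul_pow, H.pow, map_mul, map_pow]
    have hG0 : G ≠ 0 := mul_ne_zero (by
      rw [Ne, FaithfulSMul.algebraMap_eq_zero_iff]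
      exact H.e_ne) H.g_ne
    have h2 : D (G ^ N) = N • G ^ (N - 1) • D G := D.leibniz_pow G N
    have hN1 : (N : L) ≠ 0 := by
      have : CharZero L := charZero_of_injective_algebraMap (algebraMap ℂ L).injective
      exact Nat.cast_ne_zero.mpr H.Npos.ne'
    have h3 : D G = algebraMap ℂ L ((N : ℂ)⁻¹) * (G * (algebraMap F L ((e ^ N * w)⁻¹)
        * D (algebraMap F L (e ^ N * w)))) := by
      rw [map_inv₀ (algebraMap F L), ← hGpow, h2, map_inv₀, map_natCast, nsmul_eq_mul,
        smul_eq_mul]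
      have h4 : G ^ N = G * G ^ (N - 1) := by
        rw [← pow_succ', Nat.sub_add_cancel H.Npos]
      rw [h4]
      field_simp
    rw [h3]
    refine Subalgebra.mul_mem _ (Subalgebra.algebraMap_mem _ _) (Subalgebra.mul_mem _
      (chartRing_gen φ u e g) (Subalgebra.mul_mem _
        (H.unit₂.mem_chartRing H.inj H.u_ne e g) (hDv _ H.unit₁)))
  refine derivation_adjoin_mem D _ ?_ f hf
  intro x hx
  simp only [Set.mem_insert_iff, Set.mem_singleton_iff] at hx
  rcases hx with rfl | rfl | rfl | rfl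
  · exact h0
  · exact h1
  · exact hDinv
  · exact hDg

end Chart

section IntClos

open MvPolynomial

variable {F K : Type} [Field F] [Field K] [Algebra ℂ F] [Algebra ℂ K] [Algebra F K]
  [IsScalarTower ℂ F K]
variable {φ : MvPolynomial (Fin 2) ℂ →ₐ[ℂ] F} {u : MvPolynomial (Fin 2) ℂ} {e : F} {g : K}
variable {N : ℕ} {b : Basis (Fin N) F K} {w : F}

/-- The integral closure of `ℂ[p,q,1/u(p,q)]` in `K = F(g)` is the chart ring. -/
theorem CycChart.intClos_eq (H : CycChart φ u e g b w) :
    intClos {algebraMap F K (φ (X 0)), algebraMap F K (φ (X 1)), (algebraMap F K (φ u))⁻¹}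
      = chartRing φ u e g := by
  set G : Set K := {algebraMap F K (φ (X 0)), algebraMap F K (φ (X 1)),
    (algebraMap F K (φ u))⁻¹} with hG
  have hsub : ∀ x ∈ G, x ∈ chartRing φ u e g := by
    intro x hx
    simp only [hG, Set.mem_insert_iff, Set.mem_singleton_iff] at hx
    rcases hx with rfl | rfl | rfl
    · exact chartRing_poly φ u e g _
    · exact chartRing_poly φ u e g _
    · exact chartRing_inv φ u e g
  have hpoly : ∀ a, algebraMap F K (φ a) ∈ Algebra.adjoin ℂ G := by
    intro a
    induction a using MvPolynomial.induction_on with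
    | C c =>
      rw [← MvPolynomial.algebraMap_eq, AlgHom.commutes, ← IsScalarTower.algebraMap_apply]
      exact Subalgebra.algebraMap_mem _ c
    | add p q hp hq => rw [map_add, map_add]; exact Subalgebra.add_mem _ hp hq
    | mul_X p i hp =>
      rw [map_mul, map_mul]
      refine Subalgebra.mul_mem _ hp ?_
      fin_cases i
      · exact Algebra.subset_adjoin (by simp [hG])
      · exact Algebra.subset_adjoin (by simp [hG])
  have haway : ∀ f, MemAway φ u f → algebraMap F K f ∈ Algebra.adjoin ℂ G := by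
    rintro f ⟨n, a, h⟩
    have hu' : φ u ≠ 0 := fun h0 => H.u_ne (H.inj (by rw [h0, map_zero]))
    have h1 : algebraMap F K f = algebraMap F K (φ a) * ((algebraMap F K (φ u))⁻¹) ^ n := by
      rw [← map_inv₀, ← map_pow, ← map_mul]
      congr 1
      rw [← h, inv_pow]
      field_simp
    rw [h1]
    exact Subalgebra.mul_mem _ (hpoly a)
      (Subalgebra.pow_mem _ (Algebra.subset_adjoin (by simp [hG])) n)
  apply le_antisymm
  · intro f hf
    apply H.closed
    rw [mem_intClos] at hf
    exact isIntegral_of_subalgebra (k := ℂ) (R := chartRing φ u e g) (Algebra.adjoin ℂ G)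
      (fun x hx => isIntegral_algebraMap (R := chartRing φ u e g) (A := K)
        (x := ⟨x, (Algebra.adjoin_le hsub) hx⟩)) f hf
  · refine Algebra.adjoin_le ?_
    intro x hx
    simp only [Set.mem_insert_iff, Set.mem_singleton_iff] at hx
    rcases hx with rfl | rfl | rfl | rfl
    · exact subset_intClos (by simp [hG])
    · exact subset_intClos (by simp [hG])
    · exact subset_intClos (by simp [hG])
    · change IsIntegral (Algebra.adjoin ℂ G) (algebraMap F K e * g)
      apply IsIntegral.of_pow H.Npos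
      rw [mul_pow, H.pow, ← map_pow, ← map_mul]
      exact isIntegral_algebraMap (R := Algebra.adjoin ℂ G) (A := K)
        (x := ⟨_, haway _ H.unit₁⟩)

/-- **Stability of the chart ring.**  A derivation of `K` which maps the two coordinates into
`intClos {p,q,1/u}` maps `intClos {p,q,1/u}` into itself. -/
theorem CycChart.intClos_stable (H : CycChart φ u e g b w) (D : Derivation ℂ K K)
    (h0 : D (algebraMap F K (φ (X 0))) ∈ intClos {algebraMap F K (φ (X 0)),
      algebraMap F K (φ (X 1)), (algebraMap F K (φ u))⁻¹})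
    (h1 : D (algebraMap F K (φ (X 1))) ∈ intClos {algebraMap F K (φ (X 0)),
      algebraMap F K (φ (X 1)), (algebraMap F K (φ u))⁻¹}) :
    ∀ f ∈ intClos {algebraMap F K (φ (X 0)), algebraMap F K (φ (X 1)),
      (algebraMap F K (φ u))⁻¹}, D f ∈ intClos {algebraMap F K (φ (X 0)),
      algebraMap F K (φ (X 1)), (algebraMap F K (φ u))⁻¹} := by
  rw [H.intClos_eq] at h0 h1 ⊢
  exact H.stable D h0 h1

/-- Membership in the integral closure in coordinates. -/
theorem CycChart.mem_intClos_iff (H : CycChart φ u e g b w) (f : K) :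
    f ∈ intClos {algebraMap F K (φ (X 0)), algebraMap F K (φ (X 1)), (algebraMap F K (φ u))⁻¹}
      ↔ ∀ l : Fin N, MemAway φ u (b.repr f l * (e ^ (l : ℕ))⁻¹) := by
  rw [H.intClos_eq]
  exact H.mem_iff f

/-- Elements `a / u^n` of `F` belong to the integral closure. -/
theorem CycChart.mem_intClos_of_memAway (H : CycChart φ u e g b w) {f : F}
    (hf : MemAway φ u f) : algebraMap F K f ∈ intClos {algebraMap F K (φ (X 0)),
      algebraMap F K (φ (X 1)), (algebraMap F K (φ u))⁻¹} := by
  rw [H.intClos_eq]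
  exact hf.mem_chartRing H.inj H.u_ne e g

theorem CycChart.gen_mem_intClos (H : CycChart φ u e g b w) :
    algebraMap F K e * g ∈ intClos {algebraMap F K (φ (X 0)),
      algebraMap F K (φ (X 1)), (algebraMap F K (φ u))⁻¹} := by
  rw [H.intClos_eq]
  exact chartRing_gen φ u e g

theorem CycChart.gen_inv_mem_intClos (H : CycChart φ u e g b w) :
    (algebraMap F K e * g)⁻¹ ∈ intClos {algebraMap F K (φ (X 0)),
      algebraMap F K (φ (X 1)), (algebraMap F K (φ u))⁻¹} := by
  have h0 : algebraMap F K e * g ≠ 0 := mul_ne_zero (by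
      rw [Ne, FaithfulSMul.algebraMap_eq_zero_iff]
      exact H.e_ne) H.g_ne
  have h1 : (algebraMap F K e * g)⁻¹
      = algebraMap F K ((e ^ N * w)⁻¹) * (algebraMap F K e * g) ^ (N - 1) := by
    have h2 : algebraMap F K (e ^ N * w) = (algebraMap F K e * g) ^ N := by
      rw [mul_pow, H.pow, map_mul, map_pow]
    rw [map_inv₀ (algebraMap F K), h2]
    generalize algebraMap F K e * g = G at h0 ⊢
    have h4 : G ^ N = G * G ^ (N - 1) := by
      rw [← pow_succ', Nat.sub_add_cancel H.Npos]
    rw [h4, mul_inv, mul_assoc, inv_mul_cancel₀ (pow_ne_zero _ h0), mul_one]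
  rw [h1]
  exact Subalgebra.mul_mem _ (H.mem_intClos_of_memAway H.unit₂)
    (Subalgebra.pow_mem _ H.gen_mem_intClos _)

end IntClos

end Crest.Agent.R278.Cyc
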