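/-
Row 278: the specification of the data (items (A)-(D)), everything over `ℂ`.
-/
import Crest.Agent.R278.DataTables
import Crest.Agent.R278.DataZ
import Crest.Agent.R278.DataW1
import Crest.Agent.R278.DataW2
import Crest.Agent.R278.DataEl
import Crest.Agent.R278.DataV1
import Crest.Agent.R278.DataV2
import Crest.Agent.R278.DataMisc
import Crest.Agent.R278.ArmPts

set_option autoImplicit false
set_option maxRecDepth 100000

namespace Crest.Agent.R278.PolyCert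

open MvPolynomial

/-- a group of points of an arm: the group polynomial, the multiplicities of `z w₁ w₂ ℓ`, the
orders `l₁ l₂` and the flags `g₁ g₂` (`1` at logarithmic points, `0` otherwise) -/
structure GD where
  h : List ℤ
  mz : ℕ
  mw1 : ℕ
  mw2 : ℕ
  me : ℕ
  l1 : ℕ
  g1 : ℕ
  l2 : ℕ
  g2 : ℕ

/-- groups `r TT E t q` of arm 0 -/
def arm0 : List GD := [
  ⟨h0r, 3, 5, 1, 1, 2, 0, 1, 0⟩,
  ⟨h0TT, 3, 1, 5, 1, 1, 0, 2, 0⟩,
  ⟨h0E, 4, 1, 1, 2, 2, 0, 2, 0⟩,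
  ⟨h0t, 2, 1, 1, 1, 1, 0, 1, 0⟩,
  ⟨h0q, 3, 3, 1, 1, 2, 0, 1, 1⟩]

/-- groups `T H q f` of arm 1 -/
def arm1 : List GD := [
  ⟨h1T, 4, 5, 5, 1, 2, 0, 2, 0⟩,
  ⟨h1H, 2, 1, 1, 1, 1, 0, 1, 0⟩,
  ⟨h1q, 3, 2, 1, 1, 2, 0, 1, 1⟩,
  ⟨h1f, 3, 1, 3, 1, 1, 1, 2, 0⟩]

/-- groups `r TT E t q` of arm 2 -/
def arm2 : List GD := [
  ⟨h2r, 3, 1, 5, 1, 1, 0, 2, 0⟩,
  ⟨h2TT, 3, 5, 1, 1, 2, 0, 1, 0⟩,
  ⟨h2E, 4, 1, 1, 2, 2, 0, 2, 0⟩,
  ⟨h2t, 2, 1, 1, 1, 1, 0, 1, 0⟩,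
  ⟨h2q, 3, 1, 3, 1, 1, 1, 2, 0⟩]

/-- groups `T H q f` of arm 3 -/
def arm3 : List GD := [
  ⟨h3T, 4, 5, 5, 1, 2, 0, 2, 0⟩,
  ⟨h3H, 2, 1, 1, 1, 1, 0, 1, 0⟩,
  ⟨h3q, 3, 1, 2, 1, 1, 1, 2, 0⟩,
  ⟨h3f, 3, 3, 1, 1, 2, 0, 1, 1⟩]

def arms : Fin 4 → List GD := ![arm0, arm1, arm2, arm3]

def XS : Fin 4 → ℤ := ![6, 9, 24, 16]

/-- the abscissas of the arms -/
noncomputable def xs (i : Fin 4) : ℂ := (XS i : ℂ)

/-- the points of the arm `i` -/
noncomputable def pts (i : Fin 4) : Finset ℂ := armPts GD.h (arms i)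

/-- the value at a point of arm `i` of a function of the groups -/
noncomputable def mu (f : GD → ℕ) (i : Fin 4) (y : ℂ) : ℕ := mult GD.h (arms i) f y

/-- the remaining factors of `P` -/
noncomputable def othP (i : Fin 4) : MvPolynomial (Fin 2) ℂ :=
  ∏ k ∈ Finset.univ.erase i, (X 0 - C (xs k))

noncomputable abbrev Zp : MvPolynomial (Fin 2) ℂ := toMv ℂ tZ
noncomputable abbrev W1p : MvPolynomial (Fin 2) ℂ := toMv ℂ tW1
noncomputable abbrev W2p : MvPolynomial (Fin 2) ℂ := toMv ℂ tW2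
noncomputable abbrev Elp : MvPolynomial (Fin 2) ℂ := toMv ℂ tEl
noncomputable abbrev Al1p : MvPolynomial (Fin 2) ℂ := toMv ℂ tAl1
noncomputable abbrev Be1p : MvPolynomial (Fin 2) ℂ := toMv ℂ tBe1
noncomputable abbrev Al2p : MvPolynomial (Fin 2) ℂ := toMv ℂ tAl2
noncomputable abbrev Be2p : MvPolynomial (Fin 2) ℂ := toMv ℂ tBe2

/-- `P` -/
noncomputable def PPp : MvPolynomial (Fin 2) ℂ := ∏ k : Fin 4, (X 0 - C (xs k))

@[elab_as_elim]
theorem arms_cases {p : Fin 4 → Prop} (h0 : p 0) (h1 : p 1) (h2 : p 2) (h3 : p 3) (i : Fin 4) :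
    p i := by
  match i with
  | 0 => exact h0
  | 1 => exact h1
  | 2 => exact h2
  | 3 => exact h3

theorem monic_arm0 : arm0.all (fun g => monicOK g.h) = true := by decide +kernel

theorem monic_arm1 : arm1.all (fun g => monicOK g.h) = true := by decide +kernel

theorem monic_arm2 : arm2.all (fun g => monicOK g.h) = true := by decide +kernel

theorem monic_arm3 : arm3.all (fun g => monicOK g.h) = true := by decide +kernel

theorem monic_arms (i : Fin 4) : ∀ g ∈ arms i, monicOK g.h = true := by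
  refine arms_cases ?_ ?_ ?_ ?_ i
  · exact List.all_eq_true.mp monic_arm0
  · exact List.all_eq_true.mp monic_arm1
  · exact List.all_eq_true.mp monic_arm2
  · exact List.all_eq_true.mp monic_arm3

theorem armPoly_0 : armPoly GD.h arm0 = cpoly pl0 := armPoly_eq ckProd0

theorem sep_0 : (cpoly pl0).Separable := separable_of_bezout (by decide +kernel) ckSep0

theorem armPoly_1 : armPoly GD.h arm1 = cpoly pl1 := armPoly_eq ckProd1

theorem sep_1 : (cpoly pl1).Separable := separable_of_bezout (by decide +kernel) ckSep1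

theorem armPoly_2 : armPoly GD.h arm2 = cpoly pl2 := armPoly_eq ckProd2

theorem sep_2 : (cpoly pl2).Separable := separable_of_bezout (by decide +kernel) ckSep2

theorem armPoly_3 : armPoly GD.h arm3 = cpoly pl3 := armPoly_eq ckProd3

theorem sep_3 : (cpoly pl3).Separable := separable_of_bezout (by decide +kernel) ckSep3

theorem sep_arms (i : Fin 4) : (armPoly GD.h (arms i)).Separable := by
  refine arms_cases ?_ ?_ ?_ ?_ i
  · exact armPoly_0 ▸ sep_0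
  · exact armPoly_1 ▸ sep_1
  · exact armPoly_2 ▸ sep_2
  · exact armPoly_3 ▸ sep_3

/-- membership, one arm -/
theorem spec_mem (i : Fin 4) {e : PE} (f : GD → ℕ) {gs : List (List ℤ × ℕ)}
    {Qs : List (List ℤ)} {k d : ℕ}
    (hck : (PE.sub e (armPE (linX 1 (XS i)) gs Qs)).check k d = true)
    (hgs : gs = (arms i).map (fun g => (g.h, f g))) {g : GD} (hg : g ∈ arms i) {y : ℂ}
    (hy : ev1 y g.h = 0) :
    e.eval (X 0 : MvPolynomial (Fin 2) ℂ) (X 1) ∈ ptI (xs i) y ^ f g := by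
  have h := pe_mem hck (x := xs i) (y := y) (by simp [xs]) (g := (g.h, f g))
    (by rw [hgs]; exact List.mem_map.mpr ⟨g, hg, rfl⟩) hy
  exact h

theorem Z_mem (i : Fin 4) {g : GD} (hg : g ∈ arms i) {y : ℂ} (hy : ev1 y g.h = 0) :
    Zp ∈ ptI (xs i) y ^ (g.mz) := by
  revert g y
  refine arms_cases ?_ ?_ ?_ ?_ i
  · intro hg y hy
    exact spec_mem 0 (fun G => G.mz) ckZ0 rfl hg hy
  · intro hg y hy
    exact spec_mem 1 (fun G => G.mz) ckZ1 rfl hg hy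
  · intro hg y hy
    exact spec_mem 2 (fun G => G.mz) ckZ2 rfl hg hy
  · intro hg y hy
    exact spec_mem 3 (fun G => G.mz) ckZ3 rfl hg hy

theorem W1_mem (i : Fin 4) {g : GD} (hg : g ∈ arms i) {y : ℂ} (hy : ev1 y g.h = 0) :
    W1p ∈ ptI (xs i) y ^ (g.mw1) := by
  revert g y
  refine arms_cases ?_ ?_ ?_ ?_ i
  · intro hg y hy
    exact spec_mem 0 (fun G => G.mw1) ckW10 rfl hg hy
  · intro hg y hy
    exact spec_mem 1 (fun G => G.mw1) ckW11 rfl hg hy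
  · intro hg y hy
    exact spec_mem 2 (fun G => G.mw1) ckW12 rfl hg hy
  · intro hg y hy
    exact spec_mem 3 (fun G => G.mw1) ckW13 rfl hg hy

theorem W2_mem (i : Fin 4) {g : GD} (hg : g ∈ arms i) {y : ℂ} (hy : ev1 y g.h = 0) :
    W2p ∈ ptI (xs i) y ^ (g.mw2) := by
  revert g y
  refine arms_cases ?_ ?_ ?_ ?_ i
  · intro hg y hy
    exact spec_mem 0 (fun G => G.mw2) ckW20 rfl hg hy
  · intro hg y hy
    exact spec_mem 1 (fun G => G.mw2) ckW21 rfl hg hy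
  · intro hg y hy
    exact spec_mem 2 (fun G => G.mw2) ckW22 rfl hg hy
  · intro hg y hy
    exact spec_mem 3 (fun G => G.mw2) ckW23 rfl hg hy

theorem El_mem (i : Fin 4) {g : GD} (hg : g ∈ arms i) {y : ℂ} (hy : ev1 y g.h = 0) :
    Elp ∈ ptI (xs i) y ^ (g.me) := by
  revert g y
  refine arms_cases ?_ ?_ ?_ ?_ i
  · intro hg y hy
    exact spec_mem 0 (fun G => G.me) ckEl0 rfl hg hy
  · intro hg y hy
    exact spec_mem 1 (fun G => G.me) ckEl1 rfl hg hy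
  · intro hg y hy
    exact spec_mem 2 (fun G => G.me) ckEl2 rfl hg hy
  · intro hg y hy
    exact spec_mem 3 (fun G => G.me) ckEl3 rfl hg hy

theorem Al1_mem (i : Fin 4) {g : GD} (hg : g ∈ arms i) {y : ℂ} (hy : ev1 y g.h = 0) :
    Al1p ∈ ptI (xs i) y ^ (g.l1 - 1 + g.g1) := by
  revert g y
  refine arms_cases ?_ ?_ ?_ ?_ i
  · intro hg y hy
    exact spec_mem 0 (fun G => G.l1 - 1 + G.g1) ckAl10 rfl hg hy
  · intro hg y hy
    exact spec_mem 1 (fun G => G.l1 - 1 + G.g1) ckAl11 rfl hg hy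
  · intro hg y hy
    exact spec_mem 2 (fun G => G.l1 - 1 + G.g1) ckAl12 rfl hg hy
  · intro hg y hy
    exact spec_mem 3 (fun G => G.l1 - 1 + G.g1) ckAl13 rfl hg hy

theorem Be1_mem (i : Fin 4) {g : GD} (hg : g ∈ arms i) {y : ℂ} (hy : ev1 y g.h = 0) :
    Be1p ∈ ptI (xs i) y ^ (g.l1 + g.g1) := by
  revert g y
  refine arms_cases ?_ ?_ ?_ ?_ i
  · intro hg y hy
    exact spec_mem 0 (fun G => G.l1 + G.g1) ckBe10 rfl hg hy
  · intro hg y hy
    exact spec_mem 1 (fun G => G.l1 + G.g1) ckBe11 rfl hg hy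
  · intro hg y hy
    exact spec_mem 2 (fun G => G.l1 + G.g1) ckBe12 rfl hg hy
  · intro hg y hy
    exact spec_mem 3 (fun G => G.l1 + G.g1) ckBe13 rfl hg hy

theorem Al2_mem (i : Fin 4) {g : GD} (hg : g ∈ arms i) {y : ℂ} (hy : ev1 y g.h = 0) :
    Al2p ∈ ptI (xs i) y ^ (g.l2 - 1 + g.g2) := by
  revert g y
  refine arms_cases ?_ ?_ ?_ ?_ i
  · intro hg y hy
    exact spec_mem 0 (fun G => G.l2 - 1 + G.g2) ckAl20 rfl hg hy
  · intro hg y hy
    exact spec_mem 1 (fun G => G.l2 - 1 + G.g2) ckAl21 rfl hg hy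
  · intro hg y hy
    exact spec_mem 2 (fun G => G.l2 - 1 + G.g2) ckAl22 rfl hg hy
  · intro hg y hy
    exact spec_mem 3 (fun G => G.l2 - 1 + G.g2) ckAl23 rfl hg hy

theorem Be2_mem (i : Fin 4) {g : GD} (hg : g ∈ arms i) {y : ℂ} (hy : ev1 y g.h = 0) :
    Be2p ∈ ptI (xs i) y ^ (g.l2 + g.g2) := by
  revert g y
  refine arms_cases ?_ ?_ ?_ ?_ i
  · intro hg y hy
    exact spec_mem 0 (fun G => G.l2 + G.g2) ckBe20 rfl hg hy
  · intro hg y hy
    exact spec_mem 1 (fun G => G.l2 + G.g2) ckBe21 rfl hg hy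
  · intro hg y hy
    exact spec_mem 2 (fun G => G.l2 + G.g2) ckBe22 rfl hg hy
  · intro hg y hy
    exact spec_mem 3 (fun G => G.l2 + G.g2) ckBe23 rfl hg hy


theorem othP_eq (i : Fin 4) (a b c : Fin 4) (h : Finset.univ.erase i = {a, b, c}) (hab : a ≠ b)
    (hac : a ≠ c) (hbc : b ≠ c) :
    othP i = (X 0 - C (xs a)) * ((X 0 - C (xs b)) * (X 0 - C (xs c))) := by
  unfold othP
  rw [h, Finset.prod_insert (by simp [hab, hac]), Finset.prod_insert (by simp [hbc]),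
    Finset.prod_singleton]

theorem C_xs (i : Fin 4) : (C (xs i) : MvPolynomial (Fin 2) ℂ) = ((XS i : ℤ) :
    MvPolynomial (Fin 2) ℂ) := by
  simp [xs]

theorem T1_mem0 {g : GD} (hg : g ∈ arms 0) {y : ℂ} (hy : ev1 y g.h = 0) :
    ev1 (X 1) (dl pl0) * Be1p - ev1 (X 1) pl0 * (othP 0 * Al1p) ∈
      ptI (xs 0) y ^ (g.l1 + 1) := by
  have h := spec_mem 0 (fun G => G.l1 + 1) ckT10 rfl hg hy
  rw [tPE_eval] at h
  rw [othP_eq 0 1 2 3 (by decide) (by decide) (by decide) (by decide), C_xs, C_xs,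
    C_xs]
  exact h

theorem T1_mem1 {g : GD} (hg : g ∈ arms 1) {y : ℂ} (hy : ev1 y g.h = 0) :
    ev1 (X 1) (dl pl1) * Be1p - ev1 (X 1) pl1 * (othP 1 * Al1p) ∈
      ptI (xs 1) y ^ (g.l1 + 1) := by
  have h := spec_mem 1 (fun G => G.l1 + 1) ckT11 rfl hg hy
  rw [tPE_eval] at h
  rw [othP_eq 1 0 2 3 (by decide) (by decide) (by decide) (by decide), C_xs, C_xs,
    C_xs]
  exact h

theorem T1_mem2 {g : GD} (hg : g ∈ arms 2) {y : ℂ} (hy : ev1 y g.h = 0) :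
    ev1 (X 1) (dl pl2) * Be1p - ev1 (X 1) pl2 * (othP 2 * Al1p) ∈
      ptI (xs 2) y ^ (g.l1 + 1) := by
  have h := spec_mem 2 (fun G => G.l1 + 1) ckT12 rfl hg hy
  rw [tPE_eval] at h
  rw [othP_eq 2 0 1 3 (by decide) (by decide) (by decide) (by decide), C_xs, C_xs,
    C_xs]
  exact h

theorem T1_mem3 {g : GD} (hg : g ∈ arms 3) {y : ℂ} (hy : ev1 y g.h = 0) :
    ev1 (X 1) (dl pl3) * Be1p - ev1 (X 1) pl3 * (othP 3 * Al1p) ∈
      ptI (xs 3) y ^ (g.l1 + 1) := by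
  have h := spec_mem 3 (fun G => G.l1 + 1) ckT13 rfl hg hy
  rw [tPE_eval] at h
  rw [othP_eq 3 0 1 2 (by decide) (by decide) (by decide) (by decide), C_xs, C_xs,
    C_xs]
  exact h

theorem T2_mem0 {g : GD} (hg : g ∈ arms 0) {y : ℂ} (hy : ev1 y g.h = 0) :
    ev1 (X 1) (dl pl0) * Be2p - ev1 (X 1) pl0 * (othP 0 * Al2p) ∈
      ptI (xs 0) y ^ (g.l2 + 1) := by
  have h := spec_mem 0 (fun G => G.l2 + 1) ckT20 rfl hg hy
  rw [tPE_eval] at h
  rw [othP_eq 0 1 2 3 (by decide) (by decide) (by decide) (by decide), C_xs, C_xs,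
    C_xs]
  exact h

theorem T2_mem1 {g : GD} (hg : g ∈ arms 1) {y : ℂ} (hy : ev1 y g.h = 0) :
    ev1 (X 1) (dl pl1) * Be2p - ev1 (X 1) pl1 * (othP 1 * Al2p) ∈
      ptI (xs 1) y ^ (g.l2 + 1) := by
  have h := spec_mem 1 (fun G => G.l2 + 1) ckT21 rfl hg hy
  rw [tPE_eval] at h
  rw [othP_eq 1 0 2 3 (by decide) (by decide) (by decide) (by decide), C_xs, C_xs,
    C_xs]
  exact h

theorem T2_mem2 {g : GD} (hg : g ∈ arms 2) {y : ℂ} (hy : ev1 y g.h = 0) :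
    ev1 (X 1) (dl pl2) * Be2p - ev1 (X 1) pl2 * (othP 2 * Al2p) ∈
      ptI (xs 2) y ^ (g.l2 + 1) := by
  have h := spec_mem 2 (fun G => G.l2 + 1) ckT22 rfl hg hy
  rw [tPE_eval] at h
  rw [othP_eq 2 0 1 3 (by decide) (by decide) (by decide) (by decide), C_xs, C_xs,
    C_xs]
  exact h

theorem T2_mem3 {g : GD} (hg : g ∈ arms 3) {y : ℂ} (hy : ev1 y g.h = 0) :
    ev1 (X 1) (dl pl3) * Be2p - ev1 (X 1) pl3 * (othP 3 * Al2p) ∈
      ptI (xs 3) y ^ (g.l2 + 1) := by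
  have h := spec_mem 3 (fun G => G.l2 + 1) ckT23 rfl hg hy
  rw [tPE_eval] at h
  rw [othP_eq 3 0 1 2 (by decide) (by decide) (by decide) (by decide), C_xs, C_xs,
    C_xs]
  exact h

/-- simple roots -/
theorem simple_root (i : Fin 4) {p : List ℤ} (hp : armPoly GD.h (arms i) = cpoly p) {g : GD}
    (hg : g ∈ arms i) {y : ℂ} (hy : ev1 y g.h = 0) : ev1 y p = 0 ∧ ev1 y (dl p) ≠ 0 := by
  have h1 : (cpoly p).eval y = 0 := by
    rw [← hp]
    obtain ⟨q, hq⟩ := dvd_armPoly GD.h hg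
    rw [hq, Polynomial.eval_mul, cpoly_eval, hy, zero_mul]
  have h2 : (cpoly p).Separable := hp ▸ sep_arms i
  refine ⟨by rwa [cpoly_eval] at h1, fun h3 => ?_⟩
  obtain ⟨a, b, hab⟩ := h2
  have h4 := congrArg (Polynomial.eval y) hab
  rw [cpoly_derivative, Polynomial.eval_add, Polynomial.eval_mul, Polynomial.eval_mul, h1,
    cpoly_eval, h3] at h4
  simp at h4

/-- **the radial condition** for `V_1` -/
theorem rad1 (i : Fin 4) {g : GD} (hg : g ∈ arms i) {y : ℂ} (hy : ev1 y g.h = 0) :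
    Be1p - (X 1 - C y) * (othP i * Al1p) ∈ ptI (xs i) y ^ (g.l1 + 1) := by
  have ha : othP i * Al1p ∈ ptI (xs i) y ^ (g.l1 - 1) :=
    Ideal.mul_mem_left _ _ (Ideal.pow_le_pow_right (by omega) (Al1_mem i hg hy))
  have hb : Be1p ∈ ptI (xs i) y ^ g.l1 :=
    Ideal.pow_le_pow_right (by omega) (Be1_mem i hg hy)
  revert g y
  refine arms_cases ?_ ?_ ?_ ?_ i
  · intro hg y hy ha hb
    obtain ⟨h1, h2⟩ := simple_root 0 armPoly_0 hg hy
    exact radial h1 h2 ha hb (T1_mem0 hg hy)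
  · intro hg y hy ha hb
    obtain ⟨h1, h2⟩ := simple_root 1 armPoly_1 hg hy
    exact radial h1 h2 ha hb (T1_mem1 hg hy)
  · intro hg y hy ha hb
    obtain ⟨h1, h2⟩ := simple_root 2 armPoly_2 hg hy
    exact radial h1 h2 ha hb (T1_mem2 hg hy)
  · intro hg y hy ha hb
    obtain ⟨h1, h2⟩ := simple_root 3 armPoly_3 hg hy
    exact radial h1 h2 ha hb (T1_mem3 hg hy)

/-- **the radial condition** for `V_2` -/
theorem rad2 (i : Fin 4) {g : GD} (hg : g ∈ arms i) {y : ℂ} (hy : ev1 y g.h = 0) :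
    Be2p - (X 1 - C y) * (othP i * Al2p) ∈ ptI (xs i) y ^ (g.l2 + 1) := by
  have ha : othP i * Al2p ∈ ptI (xs i) y ^ (g.l2 - 1) :=
    Ideal.mul_mem_left _ _ (Ideal.pow_le_pow_right (by omega) (Al2_mem i hg hy))
  have hb : Be2p ∈ ptI (xs i) y ^ g.l2 :=
    Ideal.pow_le_pow_right (by omega) (Be2_mem i hg hy)
  revert g y
  refine arms_cases ?_ ?_ ?_ ?_ i
  · intro hg y hy ha hb
    obtain ⟨h1, h2⟩ := simple_root 0 armPoly_0 hg hy
    exact radial h1 h2 ha hb (T2_mem0 hg hy)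
  · intro hg y hy ha hb
    obtain ⟨h1, h2⟩ := simple_root 1 armPoly_1 hg hy
    exact radial h1 h2 ha hb (T2_mem1 hg hy)
  · intro hg y hy ha hb
    obtain ⟨h1, h2⟩ := simple_root 2 armPoly_2 hg hy
    exact radial h1 h2 ha hb (T2_mem2 hg hy)
  · intro hg y hy ha hb
    obtain ⟨h1, h2⟩ := simple_root 3 armPoly_3 hg hy
    exact radial h1 h2 ha hb (T2_mem3 hg hy)

/-- **sums of multiplicities** -/
theorem sum_mu (f : GD → ℕ) (i : Fin 4) :
    ∑ y ∈ pts i, mu f i y = ((arms i).map (fun g => f g * (g.h.length - 1))).sum :=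
  sum_mult (monic_arms i) (sep_arms i) f

theorem mem_pts {i : Fin 4} {y : ℂ} : y ∈ pts i ↔ ∃ g ∈ arms i, ev1 y g.h = 0 :=
  mem_armPts (monic_arms i)

/-- the group of a point; `mu f i y = f g` for every `f` -/
theorem pts_group {i : Fin 4} {y : ℂ} (hy : y ∈ pts i) :
    ∃ g ∈ arms i, ev1 y g.h = 0 ∧ ∀ f : GD → ℕ, mu f i y = f g :=
  exists_group (sep_arms i) (mem_pts.mp hy)

theorem sum_mz (i : Fin 4) : ∑ y ∈ pts i, mu GD.mz i y = 25 := by
  rw [sum_mu]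
  refine arms_cases ?_ ?_ ?_ ?_ i
  all_goals decide +kernel

theorem sum_mw1 (i : Fin 4) : ∑ y ∈ pts i, mu GD.mw1 i y = 16 := by
  rw [sum_mu]
  refine arms_cases ?_ ?_ ?_ ?_ i
  all_goals decide +kernel

theorem sum_mw2 (i : Fin 4) : ∑ y ∈ pts i, mu GD.mw2 i y = 16 := by
  rw [sum_mu]
  refine arms_cases ?_ ?_ ?_ ?_ i
  all_goals decide +kernel

theorem sum_me (i : Fin 4) : ∑ y ∈ pts i, mu GD.me i y = 10 := by
  rw [sum_mu]
  refine arms_cases ?_ ?_ ?_ ?_ i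
  all_goals decide +kernel

theorem totalDegree_Z : Zp.totalDegree ≤ 25 := totalDegree_toMv_le deg_tZ

theorem totalDegree_W1 : W1p.totalDegree ≤ 16 := totalDegree_toMv_le deg_tW1

theorem totalDegree_W2 : W2p.totalDegree ≤ 16 := totalDegree_toMv_le deg_tW2

theorem totalDegree_El : Elp.totalDegree ≤ 10 := totalDegree_toMv_le deg_tEl

theorem totalDegree_Al1 : Al1p.totalDegree ≤ 11 := totalDegree_toMv_le deg_tAl1

theorem totalDegree_Al2 : Al2p.totalDegree ≤ 11 := totalDegree_toMv_le deg_tAl2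

theorem toMv_coeff_ne {t : List (List ℤ)} {n : ℕ} (h : entry t 0 n ≠ 0) :
    MvPolynomial.coeff (Finsupp.single 1 n) (toMv ℂ t) ≠ 0 := by
  rw [coeff_toMv]
  have h0 : (Finsupp.single (1 : Fin 2) n) 0 = 0 := by simp
  have h1 : (Finsupp.single (1 : Fin 2) n) 1 = n := by simp
  rw [h0, h1]
  exact_mod_cast h

theorem coeff_Z : MvPolynomial.coeff (Finsupp.single 1 25) Zp ≠ 0 := toMv_coeff_ne lead_tZ

theorem coeff_W1 : MvPolynomial.coeff (Finsupp.single 1 16) W1p ≠ 0 := toMv_coeff_ne lead_tW1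

theorem coeff_W2 : MvPolynomial.coeff (Finsupp.single 1 16) W2p ≠ 0 := toMv_coeff_ne lead_tW2

theorem coeff_El : MvPolynomial.coeff (Finsupp.single 1 10) Elp ≠ 0 := toMv_coeff_ne lead_tEl

/-- **the wedge** -/
theorem wedge : Al1p * Be2p - Al2p * Be1p = 5 * Zp := by
  have h := PE.check_sound _ _ _ ckWedge (X 0 : MvPolynomial (Fin 2) ℂ) (X 1)
  have h2 : Al1p * Be2p - Al2p * Be1p - ((5 : ℤ) : MvPolynomial (Fin 2) ℂ) * Zp = 0 := h
  have h3 := sub_eq_zero.mp h2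
  rw [h3]
  norm_num

theorem PPp_eq : PPp = (X 0 - C (xs 0)) * ((X 0 - C (xs 1)) * ((X 0 - C (xs 2)) *
    (X 0 - C (xs 3)))) := by
  unfold PPp
  rw [Fin.prod_univ_four]
  ring

noncomputable abbrev I1p : MvPolynomial (Fin 2) ℂ := toMv ℂ tI1

theorem totalDegree_I1 : I1p.totalDegree ≤ 15 := totalDegree_toMv_le deg_tI1

/-- **infinity** -/
theorem inf1 : X 0 * Be1p - X 1 * (PPp * Al1p) = I1p := by
  have h := PE.check_sound _ _ _ ckI1 (X 0 : MvPolynomial (Fin 2) ℂ) (X 1)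
  have h2 : X 0 * Be1p - X 1 * (((linX 1 6).eval (X 0 : MvPolynomial (Fin 2) ℂ) (X 1) *
      (oth 9 24 16).eval (X 0) (X 1)) * Al1p) - I1p = 0 := h
  rw [linX_eval, oth_eval] at h2
  have h3 : PPp = (((1 : ℤ) : MvPolynomial (Fin 2) ℂ) * X 0 - ((6 : ℤ) :
      MvPolynomial (Fin 2) ℂ)) * ((X 0 - ((9 : ℤ) : MvPolynomial (Fin 2) ℂ)) * ((X 0 -
        ((24 : ℤ) : MvPolynomial (Fin 2) ℂ)) * (X 0 - ((16 : ℤ) :
          MvPolynomial (Fin 2) ℂ)))) := by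
    rw [PPp_eq, C_xs, C_xs, C_xs, C_xs]
    simp [XS]
  rw [h3]
  exact sub_eq_zero.mp h2

noncomputable abbrev I2p : MvPolynomial (Fin 2) ℂ := toMv ℂ tI2

theorem totalDegree_I2 : I2p.totalDegree ≤ 15 := totalDegree_toMv_le deg_tI2

/-- **infinity** -/
theorem inf2 : X 0 * Be2p - X 1 * (PPp * Al2p) = I2p := by
  have h := PE.check_sound _ _ _ ckI2 (X 0 : MvPolynomial (Fin 2) ℂ) (X 1)
  have h2 : X 0 * Be2p - X 1 * (((linX 1 6).eval (X 0 : MvPolynomial (Fin 2) ℂ) (X 1) *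
      (oth 9 24 16).eval (X 0) (X 1)) * Al2p) - I2p = 0 := h
  rw [linX_eval, oth_eval] at h2
  have h3 : PPp = (((1 : ℤ) : MvPolynomial (Fin 2) ℂ) * X 0 - ((6 : ℤ) :
      MvPolynomial (Fin 2) ℂ)) * ((X 0 - ((9 : ℤ) : MvPolynomial (Fin 2) ℂ)) * ((X 0 -
        ((24 : ℤ) : MvPolynomial (Fin 2) ℂ)) * (X 0 - ((16 : ℤ) :
          MvPolynomial (Fin 2) ℂ)))) := by
    rw [PPp_eq, C_xs, C_xs, C_xs, C_xs]
    simp [XS]
  rw [h3]
  exact sub_eq_zero.mp h2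

theorem degreeOf_toMv_le (t : List (List ℤ)) {n : ℕ} (h : t.length ≤ n + 1) :
    (toMv ℂ t).degreeOf 1 ≤ n := by
  rw [MvPolynomial.degreeOf_le_iff]
  intro m hm
  rw [MvPolynomial.mem_support_iff, coeff_toMv] at hm
  by_contra hcon
  apply hm
  have : entry t (m 0) (m 1) = 0 := by
    unfold entry
    rw [List.getD_eq_default t _ (by omega)]
    simp
  rw [this, Int.cast_zero]

theorem degY_Al1 : Al1p.degreeOf 1 ≤ 11 := degreeOf_toMv_le _ len_tAl1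

theorem degY_Al2 : Al2p.degreeOf 1 ≤ 11 := degreeOf_toMv_le _ len_tAl2

theorem degY_Be1 : Be1p.degreeOf 1 ≤ 14 := degreeOf_toMv_le _ len_tBe1

theorem degY_Be2 : Be2p.degreeOf 1 ≤ 14 := degreeOf_toMv_le _ len_tBe2

end Crest.Agent.R278.PolyCert
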