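/-
Row 278: the group of a point.
-/
import Crest.Agent.R278.DataSpec

set_option autoImplicit false

namespace Crest.Agent.R278.PolyCert

open MvPolynomial

open Classical in
/-- the group of the point `y` of arm `i` -/
noncomputable def grp (i : Fin 4) (y : ℂ) : GD :=
  if h : y ∈ pts i then (pts_group h).choose else ⟨[], 0, 0, 0, 0, 0, 0, 0, 0⟩

theorem grp_mem {i : Fin 4} {y : ℂ} (h : y ∈ pts i) : grp i y ∈ arms i := by
  unfold grp
  rw [dif_pos h]
  exact (pts_group h).choose_spec.1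

theorem grp_root {i : Fin 4} {y : ℂ} (h : y ∈ pts i) : ev1 y (grp i y).h = 0 := by
  unfold grp
  rw [dif_pos h]
  exact (pts_group h).choose_spec.2.1

theorem mu_eq {i : Fin 4} {y : ℂ} (h : y ∈ pts i) (f : GD → ℕ) : mu f i y = f (grp i y) := by
  unfold grp
  rw [dif_pos h]
  exact (pts_group h).choose_spec.2.2 f

/-- **summation** -/
theorem sum_grp (f : GD → ℕ) (i : Fin 4) :
    ∑ y ∈ pts i, f (grp i y) = ((arms i).map (fun g => (g.h.length - 1) * f g)).sum := by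
  have h := sum_mu f i
  rw [Finset.sum_congr rfl (fun y hy => mu_eq hy f)] at h
  rw [h]
  congr 1
  apply List.map_congr_left
  intro g _
  ring

theorem Z_grp {i : Fin 4} {y : ℂ} (h : y ∈ pts i) : Zp ∈ ptI (xs i) y ^ (grp i y).mz :=
  Z_mem i (grp_mem h) (grp_root h)

theorem W1_grp {i : Fin 4} {y : ℂ} (h : y ∈ pts i) : W1p ∈ ptI (xs i) y ^ (grp i y).mw1 :=
  W1_mem i (grp_mem h) (grp_root h)

theorem W2_grp {i : Fin 4} {y : ℂ} (h : y ∈ pts i) : W2p ∈ ptI (xs i) y ^ (grp i y).mw2 :=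
  W2_mem i (grp_mem h) (grp_root h)

theorem El_grp {i : Fin 4} {y : ℂ} (h : y ∈ pts i) : Elp ∈ ptI (xs i) y ^ (grp i y).me :=
  El_mem i (grp_mem h) (grp_root h)

theorem Al1_grp {i : Fin 4} {y : ℂ} (h : y ∈ pts i) :
    Al1p ∈ ptI (xs i) y ^ ((grp i y).l1 - 1 + (grp i y).g1) :=
  Al1_mem i (grp_mem h) (grp_root h)

theorem Al2_grp {i : Fin 4} {y : ℂ} (h : y ∈ pts i) :
    Al2p ∈ ptI (xs i) y ^ ((grp i y).l2 - 1 + (grp i y).g2) :=
  Al2_mem i (grp_mem h) (grp_root h)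

theorem Be1_grp {i : Fin 4} {y : ℂ} (h : y ∈ pts i) :
    Be1p ∈ ptI (xs i) y ^ ((grp i y).l1 + (grp i y).g1) :=
  Be1_mem i (grp_mem h) (grp_root h)

theorem Be2_grp {i : Fin 4} {y : ℂ} (h : y ∈ pts i) :
    Be2p ∈ ptI (xs i) y ^ ((grp i y).l2 + (grp i y).g2) :=
  Be2_mem i (grp_mem h) (grp_root h)

theorem rad1_grp {i : Fin 4} {y : ℂ} (h : y ∈ pts i) :
    Be1p - (X 1 - C y) * (othP i * Al1p) ∈ ptI (xs i) y ^ ((grp i y).l1 + 1) :=
  rad1 i (grp_mem h) (grp_root h)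

theorem rad2_grp {i : Fin 4} {y : ℂ} (h : y ∈ pts i) :
    Be2p - (X 1 - C y) * (othP i * Al2p) ∈ ptI (xs i) y ^ ((grp i y).l2 + 1) :=
  rad2 i (grp_mem h) (grp_root h)

theorem xs_injective : Function.Injective xs := by
  intro i j h
  have h' : XS i = XS j := by
    have h2 : ((XS i : ℤ) : ℂ) = ((XS j : ℤ) : ℂ) := h
    exact_mod_cast h2
  revert h'
  fin_cases i <;> fin_cases j <;> simp [XS]

/-- values of the groups by arms, for case analysis -/
theorem grp_cases0 {y : ℂ} (h : y ∈ pts 0) : grp 0 y ∈ arm0 := grp_mem h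
theorem grp_cases1 {y : ℂ} (h : y ∈ pts 1) : grp 1 y ∈ arm1 := grp_mem h
theorem grp_cases2 {y : ℂ} (h : y ∈ pts 2) : grp 2 y ∈ arm2 := grp_mem h
theorem grp_cases3 {y : ℂ} (h : y ∈ pts 3) : grp 3 y ∈ arm3 := grp_mem h

end Crest.Agent.R278.PolyCert
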