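import Crest.Agent.R278.Local

set_option autoImplicit false

namespace Crest.Agent.R278

variable {K : Type*} [Field K] [Algebra ℂ K]

/-- Restriction of a derivation of `K` to a subalgebra it preserves. -/
def restrictDer (A : Subalgebra ℂ K) (D : Derivation ℂ K K) (h : ∀ a ∈ A, D a ∈ A) :
    Derivation ℂ A A where
  toFun a := ⟨D a, h a a.2⟩
  map_add' a b := by ext; simp
  map_smul' c a := by ext; simp
  map_one_eq_zero' := by ext; simp
  leibniz' a b := by ext; simp

@[simp] theorem coe_restrictDer (A : Subalgebra ℂ K) (D : Derivation ℂ K K)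
    (h : ∀ a ∈ A, D a ∈ A) (a : A) : (restrictDer A D h a : K) = D a := rfl

/-- A derivation `A → K` (written as a map into `K`) which vanishes on `ℂ[s,t]` vanishes on
everything integral over `ℂ[s,t]`. -/
theorem der_eq_zero_of_isIntegral (A : Subalgebra ℂ K) (R₀ : Subalgebra ℂ K) (hR : R₀ ≤ A)
    (D : Derivation ℂ A K) (hD : ∀ (a : K) (ha : a ∈ R₀), D ⟨a, hR ha⟩ = 0) (x : A)
    (hx : IsIntegral R₀ (x : K)) : D x = 0 := by
  classical
  -- minimal degree monic polynomial
  obtain ⟨p, hp, hpx⟩ := hx
  induction hn : p.natDegree using Nat.strong_induction_on generalizing p with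
  | _ n ih =>
    let φ : R₀ →+* A := (Subalgebra.inclusion hR : R₀ →ₐ[ℂ] A).toRingHom
    have hpx' : Polynomial.eval₂ φ x p = 0 := by
      apply Subtype.ext
      have : ((Polynomial.eval₂ φ x p : A) : K) = Polynomial.eval₂ (algebraMap R₀ K) (x : K) p := by
        rw [show ((Polynomial.eval₂ φ x p : A) : K) = A.val (Polynomial.eval₂ φ x p) from rfl]
        rw [← AlgHom.coe_toRingHom, Polynomial.hom_eval₂]
        rfl
      rw [this, hpx]; rfl
    have key : D (Polynomial.eval₂ φ x p)
        = (Polynomial.eval₂ φ x (Polynomial.derivative p)) • D x := by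
      have hgen : ∀ q : Polynomial R₀, D (Polynomial.eval₂ φ x q)
          = (Polynomial.eval₂ φ x (Polynomial.derivative q)) • D x := by
        intro q
        induction q using Polynomial.induction_on' with
        | add a b ha hb => simp only [Polynomial.eval₂_add, map_add, ha, hb, add_smul]
        | monomial k a =>
          rw [Polynomial.eval₂_monomial, Derivation.leibniz]
          have h0 : D (φ a) = 0 := hD a a.2
          rw [h0, smul_zero, add_zero, Derivation.leibniz_pow, Polynomial.derivative_monomial,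
            Polynomial.eval₂_monomial]
          simp only [map_mul, map_natCast, Algebra.smul_def, map_pow, eq_natCast]
          ring
      exact hgen p
    rw [hpx', map_zero] at key
    by_cases hn0 : n = 0
    · rw [hn0] at hn
      have := Polynomial.eq_one_of_monic_natDegree_zero hp hn
      rw [this, Polynomial.eval₂_one] at hpx
      exact absurd hpx one_ne_zero
    by_cases hz : Polynomial.eval₂ φ x (Polynomial.derivative p) = 0
    · -- then p'/n is monic of smaller degree
      have hnC : (n : ℂ) ≠ 0 := by exact_mod_cast hn0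
      let q : Polynomial R₀ := Polynomial.C (algebraMap ℂ R₀ (n : ℂ)⁻¹) * Polynomial.derivative p
      have hnR : (n : R₀) = algebraMap ℂ R₀ (n : ℂ) := by simp
      have hinv : algebraMap ℂ R₀ (n : ℂ)⁻¹ * (n : R₀) = 1 := by
        rw [hnR, ← map_mul, inv_mul_cancel₀ hnC, map_one]
      have hdeg : (Polynomial.derivative p).natDegree ≤ n - 1 := by
        rw [← hn]
        exact Polynomial.natDegree_derivative_le p
      have hcoef : (Polynomial.derivative p).coeff (n - 1) = (n : R₀) := by
        rw [Polynomial.coeff_derivative, Nat.sub_add_cancel (by omega)]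
        have : p.coeff n = 1 := by rw [← hn]; exact hp
        rw [this, one_mul, Nat.cast_sub (by omega)]
        simp
      have hqcoef : q.coeff (n - 1) = 1 := by
        simp only [q, Polynomial.coeff_C_mul, hcoef, hinv]
      have hqdeg : q.natDegree ≤ n - 1 := by
        refine (Polynomial.natDegree_C_mul_le _ _).trans hdeg
      have hqmonic : q.Monic := Polynomial.monic_of_natDegree_le_of_coeff_eq_one _ hqdeg hqcoef
      have hqeval : Polynomial.eval₂ (algebraMap R₀ K) (x : K) q = 0 := by
        have h1 : Polynomial.eval₂ φ x q = 0 := by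
          simp only [q, Polynomial.eval₂_mul, hz, mul_zero]
        have : ((Polynomial.eval₂ φ x q : A) : K) = Polynomial.eval₂ (algebraMap R₀ K) (x : K) q := by
          rw [show ((Polynomial.eval₂ φ x q : A) : K) = A.val (Polynomial.eval₂ φ x q) from rfl]
          rw [← AlgHom.coe_toRingHom, Polynomial.hom_eval₂]
          rfl
        rw [← this, h1]; rfl
      exact ih q.natDegree (by omega) q hqmonic hqeval rfl
    · rw [eq_comm, Algebra.smul_def] at key
      have hz' : algebraMap A K (Polynomial.eval₂ φ x (Polynomial.derivative p)) ≠ 0 := by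
        intro h
        exact hz (Subtype.ext h)
      exact (mul_eq_zero.mp key).resolve_left hz'

/-- Every derivation of `A` is a combination, over `K`, of `D₁` and `D₂`. -/
theorem exists_coeffs (A : Subalgebra ℂ K) (D₁ D₂ : Derivation ℂ K K)
    (h1 : ∀ a ∈ A, D₁ a ∈ A) (h2 : ∀ a ∈ A, D₂ a ∈ A) (s t : K) (hs : s ∈ A) (ht : t ∈ A)
    (hint : ∀ a ∈ A, IsIntegral (Algebra.adjoin ℂ {s, t}) a)
    (hst : minor D₁ D₂ s t ≠ 0) (D : Derivation ℂ A A) :
    ∃ a b : K, ∀ x : A, (D x : K) = a * D₁ x + b * D₂ x := by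
  classical
  let R₀ : Subalgebra ℂ K := Algebra.adjoin ℂ {s, t}
  have hR : R₀ ≤ A := Algebra.adjoin_le (by
    rintro x (rfl | rfl)
    · exact hs
    · exact ht)
  let ι : A →ₗ[A] K := Algebra.linearMap A K
  let D' : Derivation ℂ A K := ι.compDer D
  let E₁ : Derivation ℂ A K := ι.compDer (restrictDer A D₁ h1)
  let E₂ : Derivation ℂ A K := ι.compDer (restrictDer A D₂ h2)
  have hD' : ∀ x, D' x = (D x : K) := fun x => rfl
  have hE1 : ∀ x, E₁ x = D₁ x := fun x => rfl
  have hE2 : ∀ x, E₂ x = D₂ x := fun x => rfl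
  set Δ := minor D₁ D₂ s t with hΔ
  let s' : A := ⟨s, hs⟩
  let t' : A := ⟨t, ht⟩
  let a : K := (D' s' * D₂ t - D' t' * D₂ s) / Δ
  let b : K := (D₁ s * D' t' - D₁ t * D' s') / Δ
  let E : Derivation ℂ A K := D' - a • E₁ - b • E₂
  have hE : ∀ x, E x = D' x - a * D₁ x - b * D₂ x := by
    intro x
    simp [E, hE1, hE2]
  have hEs : E s' = 0 := by
    rw [hE]
    simp only [a, b, s']
    field_simp
    rw [hΔ]
    unfold minor
    ring
  have hEt : E t' = 0 := by
    rw [hE]
    simp only [a, b, t']
    field_simp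
    rw [hΔ]
    unfold minor
    ring
  have hzero : ∀ (r : K) (hr : r ∈ R₀), E ⟨r, hR hr⟩ = 0 := by
    intro r hr
    have hgen : ∀ r (hr : r ∈ R₀), ∀ h : r ∈ A, E ⟨r, h⟩ = 0 := by
      intro r hr
      induction hr using Algebra.adjoin_induction with
      | mem x hx =>
        intro h
        rcases hx with hx | hx
        · subst hx; exact hEs
        · rw [Set.mem_singleton_iff] at hx; subst hx; exact hEt
      | algebraMap c =>
        intro h
        have : (⟨algebraMap ℂ K c, h⟩ : A) = algebraMap ℂ A c := rfl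
        rw [this, Derivation.map_algebraMap]
      | add x y hx hy ihx ihy =>
        intro h
        have : (⟨x + y, h⟩ : A) = ⟨x, hR hx⟩ + ⟨y, hR hy⟩ := rfl
        rw [this, map_add, ihx, ihy, add_zero]
      | mul x y hx hy ihx ihy =>
        intro h
        have : (⟨x * y, h⟩ : A) = ⟨x, hR hx⟩ * ⟨y, hR hy⟩ := rfl
        rw [this, Derivation.leibniz, ihx, ihy, smul_zero, smul_zero, add_zero]
    exact hgen r hr _
  refine ⟨a, b, fun x => ?_⟩
  have h0 := der_eq_zero_of_isIntegral A R₀ hR E hzero x (hint x x.2)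
  rw [hE] at h0
  rw [← hD']
  linear_combination h0

/-- **Freeness of the module of derivations.** -/
theorem der_free (A : Subalgebra ℂ K) (D₁ D₂ : Derivation ℂ K K)
    (h1 : ∀ a ∈ A, D₁ a ∈ A) (h2 : ∀ a ∈ A, D₂ a ∈ A) (s t : K) (hs : s ∈ A) (ht : t ∈ A)
    (hint : ∀ a ∈ A, IsIntegral (Algebra.adjoin ℂ {s, t}) a)
    (hst : minor D₁ D₂ s t ≠ 0) {ι : Type*} (x y : ι → K) (hx : ∀ i, x i ∈ A)
    (hy : ∀ i, y i ∈ A)
    (hgr : ∀ k : K, (∀ i, minor D₁ D₂ (x i) (y i) * k ∈ A) → k ∈ A) :
    Nonempty (Derivation ℂ A A ≃ₗ[A] (Fin 2 → A)) := by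
  classical
  let d₁ := restrictDer A D₁ h1
  let d₂ := restrictDer A D₂ h2
  let f : (Fin 2 → A) →ₗ[A] Derivation ℂ A A :=
    { toFun := fun v => v 0 • d₁ + v 1 • d₂
      map_add' := by
        intro v w
        simp only [Pi.add_apply, add_smul]
        abel
      map_smul' := by
        intro c v
        simp only [Pi.smul_apply, smul_eq_mul, mul_smul, smul_add, RingHom.id_apply] }
  have hf : ∀ v (z : A), ((f v z : A) : K) = v 0 * D₁ z + v 1 * D₂ z := by
    intro v z
    simp [f, d₁, d₂]
  have hinj : Function.Injective f := by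
    rw [injective_iff_map_eq_zero]
    intro v hv
    have hs' : (v 0 : K) * D₁ s + v 1 * D₂ s = 0 := by
      have := hf v ⟨s, hs⟩
      rw [hv] at this
      simpa using this.symm
    have ht' : (v 0 : K) * D₁ t + v 1 * D₂ t = 0 := by
      have := hf v ⟨t, ht⟩
      rw [hv] at this
      simpa using this.symm
    have e0 : (v 0 : K) * minor D₁ D₂ s t = 0 := by
      unfold minor
      linear_combination D₂ t * hs' - D₂ s * ht'
    have e1 : (v 1 : K) * minor D₁ D₂ s t = 0 := by
      unfold minor
      linear_combination D₁ s * ht' - D₁ t * hs'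
    have z0 : v 0 = 0 := Subtype.ext ((mul_eq_zero.mp e0).resolve_right hst)
    have z1 : v 1 = 0 := Subtype.ext ((mul_eq_zero.mp e1).resolve_right hst)
    ext i
    fin_cases i
    · simp [z0]
    · simp [z1]
  have hsurj : Function.Surjective f := by
    intro D
    obtain ⟨a, b, hab⟩ := exists_coeffs A D₁ D₂ h1 h2 s t hs ht hint hst D
    have ha : a ∈ A := by
      refine hgr a fun i => ?_
      have e1 := hab ⟨x i, hx i⟩
      have e2 := hab ⟨y i, hy i⟩
      simp only at e1 e2
      have : minor D₁ D₂ (x i) (y i) * a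
          = (D ⟨x i, hx i⟩ : K) * D₂ (y i) - (D ⟨y i, hy i⟩ : K) * D₂ (x i) := by
        rw [e1, e2]; unfold minor; ring
      rw [this]
      exact A.sub_mem (A.mul_mem (D ⟨x i, hx i⟩).2 (h2 _ (hy i)))
        (A.mul_mem (D ⟨y i, hy i⟩).2 (h2 _ (hx i)))
    have hb : b ∈ A := by
      refine hgr b fun i => ?_
      have e1 := hab ⟨x i, hx i⟩
      have e2 := hab ⟨y i, hy i⟩
      simp only at e1 e2
      have : minor D₁ D₂ (x i) (y i) * b
          = D₁ (x i) * (D ⟨y i, hy i⟩ : K) - D₁ (y i) * (D ⟨x i, hx i⟩ : K) := by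
        rw [e1, e2]; unfold minor; ring
      rw [this]
      exact A.sub_mem (A.mul_mem (h1 _ (hx i)) (D ⟨y i, hy i⟩).2)
        (A.mul_mem (h1 _ (hy i)) (D ⟨x i, hx i⟩).2)
    refine ⟨![⟨a, ha⟩, ⟨b, hb⟩], ?_⟩
    ext z
    rw [hf]
    simpa using (hab z).symm
  exact ⟨(LinearEquiv.ofBijective f ⟨hinj, hsurj⟩).symm⟩

end Crest.Agent.R278
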