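import Crest.Agent.R278.KummerTrace
import Crest.Agent.R278.ChartRing

/-!
Derivations of `K = F(g)` preserve the integral closure of a chart ring as soon as they map the
two chart coordinates into it.
-/

set_option autoImplicit false

namespace Crest.Agent.R278

open Module

variable {k F K : Type*} [Field k] [Field F] [Algebra k F] [Field K] [Algebra F K] [Algebra k K]
  [IsScalarTower k F K]

/-- Elements of `K` integral over the subalgebra `R` of `F`, as a `k`-subalgebra of `K`. -/
def intCl (K : Type*) {k F : Type*} [Field k] [Field F] [Algebra k F] [Field K] [Algebra F K]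
    [Algebra k K] [IsScalarTower k F K] (R : Subalgebra k F) : Subalgebra k K :=
  (integralClosure R K).restrictScalars k

theorem mem_intCl {R : Subalgebra k F} {v : K} : v ∈ intCl K R ↔ IsIntegral R v := Iff.rfl

theorem algebraMap_mem_intCl {R : Subalgebra k F} {r : F} (hr : r ∈ R) :
    algebraMap F K r ∈ intCl K R :=
  mem_intCl.2 (isIntegral_algebraMap (R := R) (A := K) (x := ⟨r, hr⟩))

theorem intCl_mono {R R' : Subalgebra k F} (h : R ≤ R') : intCl K R ≤ intCl K R' := by
  intro v hv
  rw [mem_intCl] at *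
  obtain ⟨p, hp, hp0⟩ := hv
  refine ⟨p.map (Subalgebra.inclusion h).toRingHom, hp.map _, ?_⟩
  rw [Polynomial.eval₂_map]
  exact hp0

theorem der_inv (D : Derivation k K K) {x : K} (hx : x ≠ 0) : D x⁻¹ = - (x⁻¹ ^ 2 * D x) := by
  have h1 : D (x * x⁻¹) = 0 := by rw [mul_inv_cancel₀ hx, D.map_one_eq_zero]
  rw [D.leibniz, smul_eq_mul, smul_eq_mul] at h1
  have h2 : x * D x⁻¹ = - (x⁻¹ * D x) := by linear_combination h1
  calc D x⁻¹ = x⁻¹ * (x * D x⁻¹) := by field_simp
    _ = - (x⁻¹ ^ 2 * D x) := by rw [h2]; ring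

/-- A derivation maps `k[S]` to a subalgebra `A ⊇ S` if it maps `S` to `A`. -/
theorem der_mem_of_adjoin (D : Derivation k K K) (A : Subalgebra k K) (S : Set K) (hS : S ⊆ A)
    (hD : ∀ s ∈ S, D s ∈ A) {v : K} (hv : v ∈ Algebra.adjoin k S) : D v ∈ A := by
  have hle : Algebra.adjoin k S ≤ A := Algebra.adjoin_le hS
  induction hv using Algebra.adjoin_induction with
  | mem x hx => exact hD x hx
  | algebraMap r => rw [D.map_algebraMap]; exact zero_mem _
  | add x y _ _ hx hy => rw [map_add]; exact add_mem hx hy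
  | mul x y hx' hy' hx hy =>
    rw [D.leibniz, smul_eq_mul, smul_eq_mul]
    exact add_mem (mul_mem (hle hx') hy) (mul_mem (hle hy') hx)

theorem map_chartRing {a b h : F} {r : F} (hr : r ∈ chartRing k a b h) :
    algebraMap F K r ∈ Algebra.adjoin k {algebraMap F K a, algebraMap F K b,
      (algebraMap F K h)⁻¹} := by
  have h1 : (IsScalarTower.toAlgHom k F K) r ∈
      (chartRing k a b h).map (IsScalarTower.toAlgHom k F K) := ⟨r, hr, rfl⟩
  rw [AlgHom.map_adjoin] at h1
  have h2 : (IsScalarTower.toAlgHom k F K) '' {a, b, h⁻¹} =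
      {algebraMap F K a, algebraMap F K b, (algebraMap F K h)⁻¹} := by
    simp [Set.image_insert_eq]
  rw [h2] at h1
  exact h1

theorem map_polyRing {a b : F} {r : F} (hr : r ∈ polyRing k a b) :
    algebraMap F K r ∈ Algebra.adjoin k {algebraMap F K a, algebraMap F K b} := by
  have h1 : (IsScalarTower.toAlgHom k F K) r ∈
      (polyRing k a b).map (IsScalarTower.toAlgHom k F K) := ⟨r, hr, rfl⟩
  rw [AlgHom.map_adjoin] at h1
  have h2 : (IsScalarTower.toAlgHom k F K) '' {a, b} =
      {algebraMap F K a, algebraMap F K b} := by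
    simp [Set.image_insert_eq]
  rw [h2] at h1
  exact h1

/-- `D` maps the chart ring into `A` if it maps the two coordinates into `A`. -/
theorem der_chartRing_mem (D : Derivation k K K) {a b h : F} (h0 : h ≠ 0)
    (hh : h ∈ polyRing k a b) (A : Subalgebra k K)
    (hA : ∀ r ∈ chartRing k a b h, algebraMap F K r ∈ A)
    (ha : D (algebraMap F K a) ∈ A) (hb : D (algebraMap F K b) ∈ A) {r : F}
    (hr : r ∈ chartRing k a b h) : D (algebraMap F K r) ∈ A := by
  have haA : algebraMap F K a ∈ A := hA a (Algebra.subset_adjoin (by simp))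
  have hbA : algebraMap F K b ∈ A := hA b (Algebra.subset_adjoin (by simp))
  have hhA : D (algebraMap F K h) ∈ A := by
    refine der_mem_of_adjoin D A {algebraMap F K a, algebraMap F K b} ?_ ?_ (map_polyRing hh)
    · rintro x (rfl | hx)
      · exact haA
      · rw [Set.mem_singleton_iff] at hx; subst hx; exact hbA
    · rintro x (rfl | hx)
      · exact ha
      · rw [Set.mem_singleton_iff] at hx; subst hx; exact hb
  have hinv : (algebraMap F K h)⁻¹ ∈ A := by
    rw [← map_inv₀]; exact hA _ (inv_mem_chartRing a b h)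
  have h0' : algebraMap F K h ≠ 0 := by simpa using h0
  refine der_mem_of_adjoin D A _ ?_ ?_ (map_chartRing hr)
  · rintro x (rfl | rfl | hx)
    · exact haA
    · exact hbA
    · rw [Set.mem_singleton_iff] at hx; subst hx; exact hinv
  · rintro x (rfl | rfl | hx)
    · exact ha
    · exact hb
    · rw [Set.mem_singleton_iff] at hx
      subst hx
      rw [der_inv D h0']
      exact neg_mem (mul_mem (pow_mem hinv 2) hhA)

section Kummer

variable {N : ℕ}

/-- Kummer presentation of `K` over `F`: powers of `g` form a basis, `g ^ N ∈ F`. -/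
structure IsKummer (F : Type*) {K : Type*} [Field F] [Field K] [Algebra F K] (N : ℕ) (g : K) :
    Prop where
  pos : 0 < N
  basis : ∃ b : Basis (Fin N) F K, ∀ i, b i = g ^ (i : ℕ)
  pow : ∃ w : F, g ^ N = algebraMap F K w

/-- Replace `g` by `c g`, `c ∈ F` nonzero. -/
theorem IsKummer.smul {g : K} (h : IsKummer F N g) {c : F} (hc : c ≠ 0) :
    IsKummer F N (algebraMap F K c * g) := by
  obtain ⟨b, hb⟩ := h.basis
  obtain ⟨w, hw⟩ := h.pow
  refine ⟨h.pos, ⟨b.unitsSMul fun i => (Units.mk0 c hc) ^ (i : ℕ), fun i => ?_⟩,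
    ⟨c ^ N * w, ?_⟩⟩
  · rw [Basis.unitsSMul_apply, hb, mul_pow, Units.smul_def, Algebra.smul_def]
    simp
  · rw [mul_pow, hw, map_mul, map_pow]

theorem isUnit_natCast_subalgebra [CharZero k] (R : Subalgebra k F) (hN : 0 < N) :
    IsUnit ((N : ℕ) : R) := by
  have h1 : (algebraMap k R) ((N : k)⁻¹) * ((N : ℕ) : R) = 1 := by
    have h2 : ((N : ℕ) : R) = algebraMap k R (N : k) := by simp
    rw [h2, ← map_mul, inv_mul_cancel₀ (by exact_mod_cast hN.ne'), map_one]
  exact isUnit_iff_exists_inv'.2 ⟨_, h1⟩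

/-- The integral closure of `R` in `K` is `R[g]` if `g ^ N` is a unit of `R`. -/
theorem kummer_sum [CharZero k] {R : Subalgebra k F} [IsIntegrallyClosed R] [IsFractionRing R F]
    {g : K} (hK : IsKummer F N g) {u : F} (hu : u ∈ R) (hu' : u⁻¹ ∈ R) (hu0 : u ≠ 0)
    (hg : g ^ N = algebraMap F K u) {v : K} (hv : v ∈ intCl K R) :
    ∃ r : Fin N → F, (∀ i, r i ∈ R) ∧ v = ∑ i, algebraMap F K (r i) * g ^ (i : ℕ) := by
  obtain ⟨b, hb⟩ := hK.basis
  let U : Rˣ := ⟨⟨u, hu⟩, ⟨u⁻¹, hu'⟩, Subtype.ext (mul_inv_cancel₀ hu0),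
    Subtype.ext (inv_mul_cancel₀ hu0)⟩
  obtain ⟨r, hr⟩ := exists_sum (R := R) hK.pos (isUnit_natCast_subalgebra R hK.pos) g b hb U
    (by rw [hg]; rfl) hv
  exact ⟨fun i => r i, fun i => (r i).2, hr⟩

theorem kummer_gen_mem {R : Subalgebra k F} {g : K} (hN : 0 < N) {u : F} (hu : u ∈ R)
    (hg : g ^ N = algebraMap F K u) : g ∈ intCl K R := by
  rw [mem_intCl]
  apply IsIntegral.of_pow hN
  rw [hg]
  exact algebraMap_mem_intCl hu

theorem kummer_gen_inv_mem {R : Subalgebra k F} {g : K} (hN : 0 < N) {u : F} (hu' : u⁻¹ ∈ R)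
    (hg : g ^ N = algebraMap F K u) : g⁻¹ ∈ intCl K R := by
  refine kummer_gen_mem hN hu' ?_
  rw [inv_pow, hg, map_inv₀]

/-- Derivations of `K` mapping `R` into the integral closure of `R` preserve the integral
closure. -/
theorem der_intCl_mem [CharZero k] {R : Subalgebra k F} [IsIntegrallyClosed R]
    [IsFractionRing R F]
    {g : K} (hK : IsKummer F N g) {u : F} (hu : u ∈ R) (hu' : u⁻¹ ∈ R) (hu0 : u ≠ 0)
    (hg : g ^ N = algebraMap F K u) (D : Derivation k K K)
    (hD : ∀ r ∈ R, D (algebraMap F K r) ∈ intCl K R) {v : K} (hv : v ∈ intCl K R) :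
    D v ∈ intCl K R := by
  obtain ⟨r, hr, rfl⟩ := kummer_sum hK hu hu' hu0 hg hv
  have hgm := kummer_gen_mem (K := K) hK.pos hu hg
  have hgm' := kummer_gen_inv_mem (K := K) hK.pos hu' hg
  have hu0' : algebraMap F K u ≠ 0 := by simpa using hu0
  have hg0 : g ≠ 0 := by
    rintro rfl
    rw [zero_pow hK.pos.ne'] at hg
    exact hu0' hg.symm
  have hNK : (N : K) ≠ 0 := by
    have : CharZero K := charZero_of_injective_algebraMap (algebraMap k K).injective
    exact_mod_cast hK.pos.ne'
  have hDg : D g ∈ intCl K R := by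
    have h1 : D (g ^ N) = (N : K) * g ^ (N - 1) * D g := by
      rw [D.leibniz_pow, smul_eq_mul, nsmul_eq_mul]; ring
    rw [hg] at h1
    have h2 : D g = (algebraMap k K (N : k)⁻¹) * g * (algebraMap F K u⁻¹) *
        D (algebraMap F K u) := by
      rw [h1, map_inv₀, map_inv₀, ← hg, map_natCast]
      have h3 : g ^ N = g ^ (N - 1) * g := by
        rw [← pow_succ, Nat.sub_add_cancel hK.pos]
      rw [h3]
      field_simp
    rw [h2]
    exact mul_mem (mul_mem (mul_mem (Subalgebra.algebraMap_mem _ _) hgm)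
      (algebraMap_mem_intCl hu')) (hD u hu)
  rw [map_sum]
  refine sum_mem fun i _ => ?_
  rw [D.leibniz, smul_eq_mul, smul_eq_mul, D.leibniz_pow, smul_eq_mul, nsmul_eq_mul]
  refine add_mem (mul_mem (algebraMap_mem_intCl (hr i)) (mul_mem (natCast_mem _ _)
    (mul_mem (pow_mem hgm _) hDg))) (mul_mem (pow_mem hgm _) (hD _ (hr i)))

end Kummer

/-- **Chart lemma.** `K = F(g)`, chart `R = k[a,b,1/h]` of `F`, `g ^ N = u` a unit of `R`. If the
derivation `D` maps `a` and `b` to elements integral over `R` then it maps the integral closure of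
`R` in `K` into itself. -/
theorem chart_der_mem [CharZero k] {N : ℕ} {a b h : F} (hc : IsChart k a b)
    (hh : h ∈ polyRing k a b) (h0 : h ≠ 0) {g : K} (hK : IsKummer F N g) {u : F}
    (hu : u ∈ chartRing k a b h) (hu' : u⁻¹ ∈ chartRing k a b h) (hu0 : u ≠ 0)
    (hg : g ^ N = algebraMap F K u) (D : Derivation k K K)
    (ha : D (algebraMap F K a) ∈ intCl K (chartRing k a b h))
    (hb : D (algebraMap F K b) ∈ intCl K (chartRing k a b h)) {v : K}
    (hv : v ∈ intCl K (chartRing k a b h)) : D v ∈ intCl K (chartRing k a b h) := by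
  have := hc.chartRing_isIntegrallyClosed hh h0
  have := hc.chartRing_isFractionRing (h := h)
  exact der_intCl_mem hK hu hu' hu0 hg D
    (fun r hr => der_chartRing_mem D h0 hh _ (fun r hr => algebraMap_mem_intCl hr) ha hb hr) hv

end Crest.Agent.R278
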