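import Crest.Agent.R278.ChartMap

set_option autoImplicit false

/-! Row 278, part P7: irreducibility of `T^N - w`, the field `F(w^{1/N})`, its basis and its
automorphisms. -/

namespace Crest.Agent.R278

open Polynomial

section Irreducible

/-- If no proper power `w^d` (`0 < d < N`) is an `N`-th power then `T^N - w` is irreducible. -/
theorem irreducible_X_pow_sub_C {F : Type*} [Field F] {N : ℕ} (hN : 0 < N) {w : F}
    (h : ∀ d : ℕ, 0 < d → d < N → ∀ c : F, c ^ N ≠ w ^ d) : Irreducible (X ^ N - C w) := by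
  have hu : ¬ IsUnit (X ^ N - C w) := by
    rw [Polynomial.isUnit_iff_degree_eq_zero, degree_X_pow_sub_C hN, Nat.cast_eq_zero]
    exact hN.ne'
  have ⟨g, hg, hg'⟩ := WfDvdMonoid.exists_irreducible_factor hu (X_pow_sub_C_ne_zero hN w)
  suffices natDegree g = N from (associated_of_dvd_of_natDegree_le hg'
    (X_pow_sub_C_ne_zero hN w) (this.trans natDegree_X_pow_sub_C.symm).ge).irreducible hg
  by_contra hne
  have key : (Algebra.norm F (AdjoinRoot.root g)) ^ N = w ^ g.natDegree := by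
    have := eval₂_eq_zero_of_dvd_of_eval₂_eq_zero _ _ hg' (AdjoinRoot.eval₂_root g)
    rw [eval₂_sub, eval₂_pow, eval₂_C, eval₂_X, sub_eq_zero] at this
    rw [← map_pow, this, ← AdjoinRoot.algebraMap_eq, Algebra.norm_algebraMap,
      (AdjoinRoot.powerBasis hg.ne_zero).finrank, AdjoinRoot.powerBasis_dim hg.ne_zero]
  have hle : natDegree g ≤ N :=
    (natDegree_le_of_dvd hg' (X_pow_sub_C_ne_zero hN w)).trans_eq natDegree_X_pow_sub_C
  exact h _ (natDegree_pos_iff_degree_pos.mpr <| Polynomial.degree_pos_of_irreducible hg)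
    (lt_of_le_of_ne hle hne) _ key

/-- A fraction whose multiplicity along a prime is coprime to `N`: no proper power is an `N`-th
power. -/
theorem pow_ne_of_multiplicity {R F : Type*} [CommRing R] [IsDomain R] [WfDvdMonoid R] [Field F]
    [Algebra R F] [IsFractionRing R F] (π : R) (hπ : Prime π) (a b : R) (ha : a ≠ 0) (hb : b ≠ 0)
    (N : ℕ) (hcop : IsCoprime ((multiplicity π a : ℤ) - multiplicity π b) (N : ℤ))
    (d : ℕ) (hd : 0 < d) (hdN : d < N) (c : F) :
    c ^ N ≠ (algebraMap R F a / algebraMap R F b) ^ d := by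
  intro hc
  have hinj := IsFractionRing.injective R F
  obtain ⟨p, q, hq, rfl⟩ := IsFractionRing.div_surjective (A := R) c
  have hq0 : q ≠ 0 := nonZeroDivisors.ne_zero hq
  have hb' : algebraMap R F b ≠ 0 := by simpa using hb
  have ha' : algebraMap R F a ≠ 0 := by simpa using ha
  have hq' : algebraMap R F q ≠ 0 := by simpa using hq0
  have hN : 0 < N := by omega
  have hp0 : p ≠ 0 := by
    rintro rfl
    rw [map_zero, zero_div, zero_pow hN.ne'] at hc
    exact pow_ne_zero d (div_ne_zero ha' hb') hc.symm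
  rw [div_pow, div_pow, div_eq_div_iff (pow_ne_zero _ hq') (pow_ne_zero _ hb')] at hc
  have hR : p ^ N * b ^ d = a ^ d * q ^ N := by
    apply hinj
    rw [map_mul, map_mul, map_pow, map_pow, map_pow, map_pow]
    exact hc
  have hf : ∀ z : R, z ≠ 0 → FiniteMultiplicity π z := fun z hz =>
    FiniteMultiplicity.of_prime_left hπ hz
  have h1 : multiplicity π (p ^ N * b ^ d) = N * multiplicity π p + d * multiplicity π b := by
    rw [multiplicity_mul hπ (hf _ (mul_ne_zero (pow_ne_zero _ hp0) (pow_ne_zero _ hb))),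
      FiniteMultiplicity.multiplicity_pow hπ (hf _ hp0),
      FiniteMultiplicity.multiplicity_pow hπ (hf _ hb)]
  have h2 : multiplicity π (a ^ d * q ^ N) = d * multiplicity π a + N * multiplicity π q := by
    rw [multiplicity_mul hπ (hf _ (mul_ne_zero (pow_ne_zero _ ha) (pow_ne_zero _ hq0))),
      FiniteMultiplicity.multiplicity_pow hπ (hf _ ha),
      FiniteMultiplicity.multiplicity_pow hπ (hf _ hq0)]
  rw [hR, h2] at h1
  have h3 : (d : ℤ) * ((multiplicity π a : ℤ) - multiplicity π b)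
      = N * ((multiplicity π p : ℤ) - multiplicity π q) := by
    have : ((d * multiplicity π a + N * multiplicity π q : ℕ) : ℤ)
        = ((N * multiplicity π p + d * multiplicity π b : ℕ) : ℤ) := by exact_mod_cast h1
    push_cast at this
    linarith
  have h4 : (N : ℤ) ∣ d * ((multiplicity π a : ℤ) - multiplicity π b) := ⟨_, h3⟩
  have h5 : (N : ℤ) ∣ d := hcop.symm.dvd_of_dvd_mul_right h4
  have h6 : N ∣ d := by exact_mod_cast h5
  exact absurd (Nat.le_of_dvd hd h6) (by omega)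

/-- Irreducibility of `T^N - a/b` from a prime along which the multiplicity is prime to `N`. -/
theorem irreducible_of_multiplicity {R F : Type*} [CommRing R] [IsDomain R] [WfDvdMonoid R]
    [Field F] [Algebra R F] [IsFractionRing R F] (π : R) (hπ : Prime π) (a b : R) (ha : a ≠ 0)
    (hb : b ≠ 0) (N : ℕ) (hN : 0 < N)
    (hcop : IsCoprime ((multiplicity π a : ℤ) - multiplicity π b) (N : ℤ)) :
    Irreducible (X ^ N - C (algebraMap R F a / algebraMap R F b)) :=
  irreducible_X_pow_sub_C hN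
    (fun d hd hdN c => pow_ne_of_multiplicity π hπ a b ha hb N hcop d hd hdN c)

/-- A convenient form: `π ∤ a`, `b = π^m b'`, `π ∤ b'`, `gcd(m,N) = 1`. -/
theorem irreducible_of_pole {R F : Type*} [CommRing R] [IsDomain R] [WfDvdMonoid R]
    [Field F] [Algebra R F] [IsFractionRing R F] (π : R) (hπ : Prime π) (a b' : R) (ha : ¬ π ∣ a)
    (hb' : ¬ π ∣ b') (N m : ℕ) (hN : 0 < N) (hcop : Nat.Coprime m N) :
    Irreducible (X ^ N - C (algebraMap R F a / algebraMap R F (π ^ m * b'))) := by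
  have ha0 : a ≠ 0 := by rintro rfl; exact ha (dvd_zero _)
  have hb0 : b' ≠ 0 := by rintro rfl; exact hb' (dvd_zero _)
  refine irreducible_of_multiplicity π hπ a _ ha0
    (mul_ne_zero (pow_ne_zero _ hπ.ne_zero) hb0) N hN ?_
  have h1 : multiplicity π a = 0 := multiplicity_eq_zero.mpr ha
  have h2 : multiplicity π (π ^ m * b') = m := by
    refine multiplicity_eq_of_dvd_of_not_dvd (Dvd.intro _ rfl) ?_
    rw [pow_succ, mul_dvd_mul_iff_left (pow_ne_zero _ hπ.ne_zero)]
    exact hb'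
  rw [h1, h2]
  simp only [Nat.cast_zero, zero_sub, IsCoprime.neg_left_iff]
  exact Nat.isCoprime_iff_coprime.mpr hcop

/-- A convenient form: `a = π^m a'`, `π ∤ a'`, `π ∤ b`, `gcd(m,N) = 1`. -/
theorem irreducible_of_zero {R F : Type*} [CommRing R] [IsDomain R] [WfDvdMonoid R]
    [Field F] [Algebra R F] [IsFractionRing R F] (π : R) (hπ : Prime π) (a' b : R) (ha : ¬ π ∣ a')
    (hb : ¬ π ∣ b) (N m : ℕ) (hN : 0 < N) (hcop : Nat.Coprime m N) :
    Irreducible (X ^ N - C (algebraMap R F (π ^ m * a') / algebraMap R F b)) := by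
  have ha0 : a' ≠ 0 := by rintro rfl; exact ha (dvd_zero _)
  have hb0 : b ≠ 0 := by rintro rfl; exact hb (dvd_zero _)
  refine irreducible_of_multiplicity π hπ _ b
    (mul_ne_zero (pow_ne_zero _ hπ.ne_zero) ha0) hb0 N hN ?_
  have h1 : multiplicity π b = 0 := multiplicity_eq_zero.mpr hb
  have h2 : multiplicity π (π ^ m * a') = m := by
    refine multiplicity_eq_of_dvd_of_not_dvd (Dvd.intro _ rfl) ?_
    rw [pow_succ, mul_dvd_mul_iff_left (pow_ne_zero _ hπ.ne_zero)]
    exact ha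
  rw [h1, h2]
  simp only [Nat.cast_zero, sub_zero]
  exact Nat.isCoprime_iff_coprime.mpr hcop

end Irreducible

section Field

variable {F : Type*} [Field F]

/-- The field `F(g)`, `g^N = w`. -/
abbrev KF (N : ℕ) (w : F) : Type _ := AdjoinRoot (X ^ N - C w : F[X])

/-- The distinguished `N`-th root of `w`. -/
noncomputable abbrev KF.g (N : ℕ) (w : F) : KF N w := AdjoinRoot.root (X ^ N - C w : F[X])

theorem KF.g_pow (N : ℕ) (w : F) : (KF.g N w) ^ N = algebraMap F (KF N w) w :=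
  root_X_pow_sub_C_pow N w

/-- The power basis `1, g, …, g^{N-1}`. -/
noncomputable def KF.basis {N : ℕ} (hN : 0 < N) (w : F) : Module.Basis (Fin N) F (KF N w) :=
  ((AdjoinRoot.powerBasis' (monic_X_pow_sub_C w hN.ne')).basis).reindex
    (finCongr (by
      rw [AdjoinRoot.powerBasis'_dim, natDegree_X_pow_sub_C]))

theorem KF.basis_apply {N : ℕ} (hN : 0 < N) (w : F) (i : Fin N) :
    KF.basis hN w i = (KF.g N w) ^ (i : ℕ) := by
  simp [KF.basis]

theorem KF.exists_repr {N : ℕ} (hN : 0 < N) (w : F) (a : KF N w) :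
    ∃ f : Fin N → F, a = ∑ i, algebraMap F (KF N w) (f i) * (KF.g N w) ^ (i : ℕ) := by
  refine ⟨fun i => (KF.basis hN w).repr a i, ?_⟩
  conv_lhs => rw [← (KF.basis hN w).sum_repr a]
  refine Finset.sum_congr rfl fun i _ => ?_
  rw [KF.basis_apply, Algebra.smul_def]

theorem KF.repr_unique {N : ℕ} (hN : 0 < N) (w : F) (f f' : Fin N → F)
    (h : ∑ i, algebraMap F (KF N w) (f i) * (KF.g N w) ^ (i : ℕ)
      = ∑ i, algebraMap F (KF N w) (f' i) * (KF.g N w) ^ (i : ℕ)) : f = f' := by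
  have h1 : ∀ f : Fin N → F, ∑ i, algebraMap F (KF N w) (f i) * (KF.g N w) ^ (i : ℕ)
      = ∑ i, f i • KF.basis hN w i := by
    intro f
    refine Finset.sum_congr rfl fun i _ => ?_
    rw [KF.basis_apply, Algebra.smul_def]
  rw [h1, h1] at h
  rw [← (KF.basis hN w).equivFun_symm_apply, ← (KF.basis hN w).equivFun_symm_apply] at h
  exact (KF.basis hN w).equivFun.symm.injective h

theorem KF.g_ne_zero {N : ℕ} (hN : 0 < N) {w : F} (hw : w ≠ 0) : KF.g N w ≠ 0 :=
  root_X_pow_sub_C_ne_zero' hN hw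

/-- The `F`-algebra endomorphism `g ↦ ζ g`. -/
noncomputable def KF.twist (N : ℕ) (w ζ : F) (hζ : ζ ^ N = 1) : KF N w →ₐ[F] KF N w :=
  AdjoinRoot.liftAlgHom (X ^ N - C w) (Algebra.ofId F (KF N w))
    (algebraMap F (KF N w) ζ * KF.g N w) (by
      rw [eval₂_sub, eval₂_pow, eval₂_X, eval₂_C, mul_pow, KF.g_pow, ← map_pow, hζ, map_one,
        one_mul]
      exact sub_self _)

@[simp] theorem KF.twist_g (N : ℕ) (w ζ : F) (hζ : ζ ^ N = 1) :
    KF.twist N w ζ hζ (KF.g N w) = algebraMap F (KF N w) ζ * KF.g N w := by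
  simp [KF.twist]

theorem KF.twist_comp (N : ℕ) (w ζ ξ : F) (hζ : ζ ^ N = 1) (hξ : ξ ^ N = 1) (h : ζ * ξ = 1) :
    (KF.twist N w ζ hζ).comp (KF.twist N w ξ hξ) = AlgHom.id F (KF N w) := by
  apply AdjoinRoot.algHom_ext
  have e1 : (KF.twist N w ξ hξ) (AdjoinRoot.root (X ^ N - C w : F[X]))
      = algebraMap F (KF N w) ξ * KF.g N w := KF.twist_g N w ξ hξ
  have e2 : (KF.twist N w ζ hζ) (KF.g N w)
      = algebraMap F (KF N w) ζ * KF.g N w := KF.twist_g N w ζ hζ
  rw [AlgHom.comp_apply, e1, map_mul, AlgHom.commutes, e2, ← mul_assoc, ← map_mul,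
    mul_comm ξ ζ, h, map_one, one_mul]
  rfl

/-- The `F`-algebra automorphism `g ↦ ζ g`. -/
noncomputable def KF.twistEquiv {N : ℕ} (hN : 0 < N) (w ζ : F) (hζ : ζ ^ N = 1) :
    KF N w ≃ₐ[F] KF N w :=
  AlgEquiv.ofAlgHom (KF.twist N w ζ hζ) (KF.twist N w ζ⁻¹ (by rw [inv_pow, hζ, inv_one]))
    (KF.twist_comp N w _ _ _ _ (mul_inv_cancel₀ (by
      rintro rfl; rw [zero_pow hN.ne'] at hζ; exact zero_ne_one hζ)))
    (KF.twist_comp N w _ _ _ _ (inv_mul_cancel₀ (by
      rintro rfl; rw [zero_pow hN.ne'] at hζ; exact zero_ne_one hζ)))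

@[simp] theorem KF.twistEquiv_g {N : ℕ} (hN : 0 < N) (w ζ : F) (hζ : ζ ^ N = 1) :
    KF.twistEquiv hN w ζ hζ (KF.g N w) = algebraMap F (KF N w) ζ * KF.g N w :=
  KF.twist_g N w ζ hζ

/-- Projection onto the `g^l` component through roots of unity: if `ζ` is a primitive `N`-th root of
unity and `a = ∑ f_i g^i` then `N f_l g^l = ∑_j ζ^{-jl} σ^j(a)`. -/
theorem KF.component {N : ℕ} (hN : 0 < N) (w ζ : F) (hζ : IsPrimitiveRoot ζ N)
    (f : Fin N → F) (l : Fin N) :
    (N : KF N w) * (algebraMap F (KF N w) (f l) * (KF.g N w) ^ (l : ℕ))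
      = ∑ j : Fin N, algebraMap F (KF N w) (ζ⁻¹ ^ ((j : ℕ) * l))
          * KF.twist N w (ζ ^ (j : ℕ)) (by rw [← pow_mul, mul_comm, pow_mul, hζ.pow_eq_one, one_pow])
            (∑ i, algebraMap F (KF N w) (f i) * (KF.g N w) ^ (i : ℕ)) := by
  have hz : ζ ≠ 0 := hζ.ne_zero hN.ne'
  have h1 : ∀ j : Fin N, algebraMap F (KF N w) (ζ⁻¹ ^ ((j : ℕ) * l))
          * KF.twist N w (ζ ^ (j : ℕ)) (by rw [← pow_mul, mul_comm, pow_mul, hζ.pow_eq_one, one_pow])
            (∑ i, algebraMap F (KF N w) (f i) * (KF.g N w) ^ (i : ℕ))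
      = ∑ i : Fin N, algebraMap F (KF N w) ((ζ ^ (i : ℕ) * ζ⁻¹ ^ (l : ℕ)) ^ (j : ℕ))
          * (algebraMap F (KF N w) (f i) * (KF.g N w) ^ (i : ℕ)) := by
    intro j
    rw [map_sum, Finset.mul_sum]
    refine Finset.sum_congr rfl fun i _ => ?_
    have hpow : ∀ n : ℕ, KF.twist N w (ζ ^ (j : ℕ))
        (by rw [← pow_mul, mul_comm, pow_mul, hζ.pow_eq_one, one_pow]) ((KF.g N w) ^ n)
        = algebraMap F (KF N w) ((ζ ^ (j : ℕ)) ^ n) * (KF.g N w) ^ n := by
      intro n
      rw [map_pow, KF.twist_g, mul_pow, ← map_pow]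
    rw [map_mul, AlgHom.commutes, hpow]
    rw [show (ζ ^ (i : ℕ) * ζ⁻¹ ^ (l : ℕ)) ^ (j : ℕ) = ζ⁻¹ ^ ((j : ℕ) * l) * (ζ ^ (j : ℕ)) ^ (i : ℕ) by
      rw [mul_pow, ← pow_mul, ← pow_mul, ← pow_mul, mul_comm, mul_comm (l : ℕ), mul_comm (i : ℕ)]]
    rw [map_mul]
    ring
  rw [Finset.sum_congr rfl fun j _ => h1 j, Finset.sum_comm]
  have h2 : ∀ i : Fin N, ∑ j : Fin N, algebraMap F (KF N w) ((ζ ^ (i : ℕ) * ζ⁻¹ ^ (l : ℕ)) ^ (j : ℕ))
          * (algebraMap F (KF N w) (f i) * (KF.g N w) ^ (i : ℕ))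
      = if i = l then (N : KF N w) * (algebraMap F (KF N w) (f l) * (KF.g N w) ^ (l : ℕ)) else 0 := by
    intro i
    rw [← Finset.sum_mul, ← map_sum]
    split_ifs with hil
    · subst hil
      have : ζ ^ (i : ℕ) * ζ⁻¹ ^ (i : ℕ) = 1 := by rw [← mul_pow, mul_inv_cancel₀ hz, one_pow]
      rw [this]
      simp
    · have hne : ζ ^ (i : ℕ) * ζ⁻¹ ^ (l : ℕ) ≠ 1 := by
        intro h
        rw [inv_pow, mul_inv_eq_one₀ (pow_ne_zero _ hz)] at h
        exact hil (Fin.ext (hζ.pow_inj i.2 l.2 h))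
      have hp : (ζ ^ (i : ℕ) * ζ⁻¹ ^ (l : ℕ)) ^ N = 1 := by
        rw [mul_pow, ← pow_mul, ← pow_mul, mul_comm, mul_comm (l : ℕ), mul_comm (i : ℕ), pow_mul,
          pow_mul, hζ.pow_eq_one, inv_pow, hζ.pow_eq_one, inv_one, one_pow, one_pow, one_mul]
      have hs : ∑ j : Fin N, (ζ ^ (i : ℕ) * ζ⁻¹ ^ (l : ℕ)) ^ (j : ℕ) = 0 := by
        rw [Fin.sum_univ_eq_sum_range (fun j => (ζ ^ (i : ℕ) * ζ⁻¹ ^ (l : ℕ)) ^ j) N]
        have := geom_sum_mul (ζ ^ (i : ℕ) * ζ⁻¹ ^ (l : ℕ)) N
        rw [hp, sub_self] at this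
        exact (mul_eq_zero.mp this).resolve_right (sub_ne_zero.mpr hne)
      rw [hs, map_zero, zero_mul]
  rw [Finset.sum_congr rfl fun i _ => h2 i]
  simp

variable {k : Type*} [Field k] [Algebra k F]

/-- `F(g)` is finitely generated as a field over `k` when `F` is. -/
theorem KF.adjoin_eq_top {N : ℕ} (hN : 0 < N) (w x y : F) [Fact (Irreducible (X ^ N - C w : F[X]))]
    (h : RatCoord k F x y) :
    IntermediateField.adjoin k ({algebraMap F (KF N w) x, algebraMap F (KF N w) y,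
      KF.g N w} : Set (KF N w)) = ⊤ := by
  set E := IntermediateField.adjoin k ({algebraMap F (KF N w) x, algebraMap F (KF N w) y,
      KF.g N w} : Set (KF N w)) with hE
  rw [eq_top_iff]
  intro a _
  obtain ⟨f, rfl⟩ := KF.exists_repr hN w a
  have hF : ∀ z : F, algebraMap F (KF N w) z ∈ E := by
    intro z
    have h1 : (IntermediateField.adjoin k ({x, y} : Set F)).map (Algebra.algHom k F (KF N w)) ≤ E := by
      rw [IntermediateField.adjoin_map, IntermediateField.adjoin_le_iff]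
      rintro _ ⟨u, hu | hu, rfl⟩
      · rw [hu]; exact IntermediateField.subset_adjoin _ _ (by simp)
      · rw [Set.mem_singleton_iff] at hu
        rw [hu]; exact IntermediateField.subset_adjoin _ _ (by simp)
    apply h1
    rw [h.top]
    exact ⟨z, trivial, rfl⟩
  have hg : KF.g N w ∈ E := IntermediateField.subset_adjoin _ _ (by simp)
  exact E.sum_mem fun i _ => E.mul_mem (hF _) (pow_mem hg _)

/-- `F(g)` is algebraic over `k[x,y]`. -/
theorem KF.isAlgebraic {N : ℕ} (hN : 0 < N) (w x y : F) [Fact (Irreducible (X ^ N - C w : F[X]))]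
    (h : RatCoord k F x y) :
    Algebra.IsAlgebraic (Algebra.adjoin k ({algebraMap F (KF N w) x,
      algebraMap F (KF N w) y} : Set (KF N w))) (KF N w) := by
  have hfin : Module.Finite F (KF N w) := Module.Finite.of_basis (KF.basis hN w)
  set R := Algebra.adjoin k ({algebraMap F (KF N w) x,
      algebraMap F (KF N w) y} : Set (KF N w)) with hR
  have hF : ∀ z : F, IsAlgebraic R (algebraMap F (KF N w) z) := by
    intro z
    obtain ⟨p, q, -, rfl⟩ := h.exists_div z
    have hm : ∀ p : MvPolynomial (Fin 2) k,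
        algebraMap F (KF N w) (MvPolynomial.aeval ![x, y] p) ∈ R := by
      intro p
      have : algebraMap F (KF N w) (MvPolynomial.aeval ![x, y] p)
          = MvPolynomial.aeval ![algebraMap F (KF N w) x, algebraMap F (KF N w) y] p := by
        have e : (Algebra.algHom k F (KF N w)).comp (MvPolynomial.aeval ![x, y])
            = MvPolynomial.aeval ![algebraMap F (KF N w) x, algebraMap F (KF N w) y] := by
          apply MvPolynomial.algHom_ext
          intro i
          fin_cases i <;> simp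
        exact DFunLike.congr_fun e p
      rw [this, hR, ← adjoin_range_pair, Algebra.adjoin_range_eq_range_aeval]
      exact ⟨p, rfl⟩
    have h1 : IsAlgebraic R (algebraMap F (KF N w) (MvPolynomial.aeval ![x, y] p)) :=
      isAlgebraic_algebraMap (⟨_, hm p⟩ : R)
    have h2 : IsAlgebraic R (algebraMap F (KF N w) (MvPolynomial.aeval ![x, y] q)) :=
      isAlgebraic_algebraMap (⟨_, hm q⟩ : R)
    rw [map_div₀, div_eq_mul_inv]
    exact h1.mul h2.inv
  have hg : IsAlgebraic R (KF.g N w) := by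
    refine IsAlgebraic.of_pow hN ?_
    rw [KF.g_pow]
    exact hF w
  constructor
  intro a
  obtain ⟨f, rfl⟩ := KF.exists_repr hN w a
  refine Finset.sum_induction _ (fun z => IsAlgebraic R z) (fun _ _ h1 h2 => h1.add h2)
    isAlgebraic_zero fun i _ => (hF _).mul (hg.pow _)

end Field

end Crest.Agent.R278
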