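import Crest.Agent.R278.Cover
import Crest.Agent.R278.Kummer

/-!
P8: the valuation `V_E` at `y = ∞` and the proper ideal `I ⊇ D(A)`.
-/

set_option autoImplicit false

namespace Crest.Agent.R278

open Polynomial

section VE

variable {K : Type*} [Field K] [Algebra ℂ K]

/-- `V` is a valuation ring of `K` trivial on `ℂ(x)` with `y` of negative order. -/
structure IsVE (V : ValuationSubring K) (x y : K) : Prop where
  const : ∀ p : ℂ[X], p ≠ 0 → V.valuation (aeval x p) = 1
  pole : 1 < V.valuation y

theorem transcendental_of_indep {x y : K} (h : AlgebraicIndependent ℂ ![x, y]) :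
    Transcendental (IntermediateField.adjoin ℂ ({x} : Set K)) y := by
  rw [IntermediateField.transcendental_adjoin_iff]
  have h1 := h.transcendental_adjoin (s := {0}) (i := 1) (by simp)
  rw [Set.image_singleton] at h1
  exact h1

theorem exists_VE {x y : K} (h : AlgebraicIndependent ℂ ![x, y]) :
    ∃ V : ValuationSubring K, IsVE V x y := by
  classical
  set E := IntermediateField.adjoin ℂ ({x} : Set K) with hE
  have hy : Transcendental E y := transcendental_of_indep h
  have hy0 : y ≠ 0 := by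
    rintro rfl
    exact hy isAlgebraic_zero
  let A : Subring K := (Algebra.adjoin E {y⁻¹}).toSubring
  have hyA : y⁻¹ ∈ A := Algebra.subset_adjoin (Set.mem_singleton _)
  let I : Ideal A := Ideal.span {(⟨y⁻¹, hyA⟩ : A)}
  have hI : I ≠ ⊤ := by
    intro h1
    rw [Ideal.eq_top_iff_one, Ideal.mem_span_singleton'] at h1
    obtain ⟨a, ha⟩ := h1
    have ha' : (a : K) * y⁻¹ = 1 := congrArg Subtype.val ha
    have hamem : (a : K) ∈ Algebra.adjoin E {y⁻¹} := a.2
    rw [Algebra.adjoin_singleton_eq_range_aeval] at hamem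
    obtain ⟨q, hq⟩ := hamem
    have hq' : aeval y⁻¹ q = (a : K) := hq
    have halg : IsAlgebraic E (y⁻¹) := by
      refine ⟨q * X - 1, ?_, ?_⟩
      · intro h2
        have h3 := congrArg (fun p => Polynomial.eval 0 p) h2
        simp at h3
      · rw [map_sub, map_mul, aeval_X, hq', ha', map_one, sub_self]
    exact hy (by simpa using halg.inv)
  obtain ⟨V, hV1, hV2⟩ := Ideal.image_subset_nonunits_valuationSubring I hI
  have hEV : ∀ e : E, (e : K) ∈ V := by
    intro e
    apply hV1
    exact (Algebra.adjoin E {y⁻¹}).algebraMap_mem e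
  refine ⟨V, ?_, ?_⟩
  · intro p hp
    have hxE : x ∈ E := IntermediateField.subset_adjoin _ _ (Set.mem_singleton x)
    have hmem : aeval x p ∈ E := by
      have : aeval x p = ((aeval (⟨x, hxE⟩ : E) p : E) : K) := by
        rw [← IntermediateField.algebraMap_apply, ← aeval_algebraMap_apply]
        rfl
      rw [this]
      exact (aeval (⟨x, hxE⟩ : E) p).2
    have hne : aeval x p ≠ 0 := by
      intro h0
      have hx : Transcendental ℂ x := by
        have := h.transcendental 0
        simpa using this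
      exact hx ⟨p, hp, h0⟩
    have h1 : V.valuation (aeval x p) ≤ 1 := (V.valuation_le_one_iff _).2 (hEV ⟨_, hmem⟩)
    have h2 : V.valuation (aeval x p)⁻¹ ≤ 1 := (V.valuation_le_one_iff _).2
      (hEV ⟨_, E.inv_mem hmem⟩)
    rw [map_inv₀] at h2
    refine le_antisymm h1 ?_
    by_contra hlt
    push Not at hlt
    have h3 : V.valuation (aeval x p) ≠ 0 := by simpa using hne
    have h4 : 1 < (V.valuation (aeval x p))⁻¹ := (one_lt_inv₀ (zero_lt_iff.2 h3)).2 hlt
    exact absurd h2 (not_le.2 h4)
  · have h1 : y⁻¹ ∈ V.nonunits := by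
      apply hV2
      exact ⟨⟨y⁻¹, hyA⟩, Ideal.subset_span (Set.mem_singleton _), rfl⟩
    have h2 : V.valuation y⁻¹ < 1 := V.mem_nonunits_iff.1 h1
    rw [map_inv₀] at h2
    have h3 : V.valuation y ≠ 0 := by simpa using hy0
    exact (inv_lt_one₀ (zero_lt_iff.2 h3)).1 h2

variable {V : ValuationSubring K} {x y : K}

/-- evaluation of a polynomial in `y` over `ℂ[x]`. -/
noncomputable abbrev evxy (x y : K) (P : ℂ[X][X]) : K := P.eval₂ (aeval x : ℂ[X] →ₐ[ℂ] K) y

theorem IsVE.const_le (h : IsVE V x y) (p : ℂ[X]) : V.valuation (aeval x p) ≤ 1 := by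
  by_cases hp : p = 0
  · rw [hp, map_zero, map_zero]; exact zero_le
  · exact (h.const p hp).le

theorem IsVE.complex (h : IsVE V x y) {c : ℂ} (hc : c ≠ 0) :
    V.valuation (algebraMap ℂ K c) = 1 := by
  have := h.const (C c) (by simpa using hc)
  rwa [aeval_C] at this

theorem IsVE.complex_le (h : IsVE V x y) (c : ℂ) : V.valuation (algebraMap ℂ K c) ≤ 1 := by
  have := h.const_le (C c)
  rwa [aeval_C] at this

theorem IsVE.pow_lt (h : IsVE V x y) {m n : ℕ} (hmn : m < n) :
    V.valuation y ^ m < V.valuation y ^ n := pow_lt_pow_right₀ h.pole hmn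

theorem IsVE.pow_le (h : IsVE V x y) {m n : ℕ} (hmn : m ≤ n) :
    V.valuation y ^ m ≤ V.valuation y ^ n := pow_le_pow_right₀ h.pole.le hmn

theorem IsVE.pow_ne (h : IsVE V x y) (n : ℕ) : V.valuation y ^ n ≠ 0 :=
  pow_ne_zero _ (ne_of_gt (lt_trans zero_lt_one h.pole))

theorem IsVE.ev_lt (h : IsVE V x y) (P : ℂ[X][X]) (n : ℕ) (hn : P.degree < n) :
    V.valuation (evxy x y P) < V.valuation y ^ n := by
  rw [evxy, eval₂_eq_sum, Polynomial.sum]
  refine V.valuation.map_sum_lt (h.pow_ne n) fun i hi => ?_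
  rw [map_mul, map_pow]
  have hi' : i < n := by
    have := (le_degree_of_mem_supp i hi).trans_lt hn
    exact_mod_cast this
  calc V.valuation ((aeval x : ℂ[X] →ₐ[ℂ] K) (P.coeff i)) * V.valuation y ^ i
      ≤ 1 * V.valuation y ^ i := mul_le_mul_left (h.const_le _) _
    _ = V.valuation y ^ i := one_mul _
    _ < _ := h.pow_lt hi'

theorem IsVE.ev_eq (h : IsVE V x y) (P : ℂ[X][X]) (hP : P ≠ 0) :
    V.valuation (evxy x y P) = V.valuation y ^ P.natDegree := by
  have h1 : evxy x y P = evxy x y P.eraseLead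
      + (aeval x : ℂ[X] →ₐ[ℂ] K) P.leadingCoeff * y ^ P.natDegree := by
    conv_lhs => rw [evxy, ← P.eraseLead_add_C_mul_X_pow]
    rw [eval₂_add, eval₂_mul, eval₂_C, eval₂_X_pow]
    rfl
  have h2 : V.valuation ((aeval x : ℂ[X] →ₐ[ℂ] K) P.leadingCoeff * y ^ P.natDegree)
      = V.valuation y ^ P.natDegree := by
    rw [map_mul, map_pow, h.const _ (leadingCoeff_ne_zero.2 hP), one_mul]
  have h3 : V.valuation (evxy x y P.eraseLead) < V.valuation y ^ P.natDegree := by
    apply h.ev_lt
    refine (degree_eraseLead_lt hP).trans_le ?_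
    rw [degree_eq_natDegree hP]
  rw [h1, V.valuation.map_add_eq_of_lt_right (by rw [h2]; exact h3), h2]

theorem IsVE.ev_ne_zero (h : IsVE V x y) (P : ℂ[X][X]) (hP : P ≠ 0) : evxy x y P ≠ 0 := by
  intro h0
  have := h.ev_eq P hP
  rw [h0, map_zero] at this
  exact h.pow_ne _ this.symm

/-- derivations which vanish on `E`. -/
theorem IsVE.der_ev_lt (h : IsVE V x y) (D : Derivation ℂ K K) (hx : V.valuation (D x) < 1)
    (hy : V.valuation (D y) < V.valuation y) (P : ℂ[X][X]) :
    V.valuation (D (evxy x y P)) < V.valuation y ^ P.natDegree := by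
  rw [evxy, eval₂_eq_sum, Polynomial.sum, map_sum]
  refine V.valuation.map_sum_lt (h.pow_ne _) fun i hi => ?_
  have hi' : i ≤ P.natDegree := le_natDegree_of_mem_supp i hi
  have hc : V.valuation (D ((aeval x : ℂ[X] →ₐ[ℂ] K) (P.coeff i))) < 1 := by
    have h1 : D ((aeval x : ℂ[X] →ₐ[ℂ] K) (P.coeff i)) =
        aeval x (derivative (P.coeff i)) • D x := D.map_aeval _ _
    rw [h1, smul_eq_mul, map_mul]
    calc V.valuation (aeval x (derivative (P.coeff i))) * V.valuation (D x)
        ≤ 1 * V.valuation (D x) := mul_le_mul_left (h.const_le _) _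
      _ = V.valuation (D x) := one_mul _
      _ < 1 := hx
  have hypos : 0 < V.valuation y := lt_trans zero_lt_one h.pole
  refine lt_of_lt_of_le ?_ (h.pow_le hi')
  rw [D.leibniz, smul_eq_mul, smul_eq_mul]
  refine V.valuation.map_add_lt ?_ ?_
  · rw [map_mul, D.leibniz_pow, smul_eq_mul, nsmul_eq_mul, map_mul, map_mul, map_pow]
    rcases Nat.eq_zero_or_pos i with h0 | h0
    · subst h0
      simp
    · have h2 : V.valuation ((i : ℕ) : K) ≤ 1 := by
        have := h.complex_le (i : ℂ)
        rwa [map_natCast] at this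
      calc V.valuation ((aeval x : ℂ[X] →ₐ[ℂ] K) (P.coeff i)) *
            (V.valuation ((i : ℕ) : K) * (V.valuation y ^ (i - 1) * V.valuation (D y)))
          ≤ 1 * (1 * (V.valuation y ^ (i - 1) * V.valuation (D y))) :=
            mul_le_mul' (h.const_le _) (mul_le_mul_left h2 _)
        _ = V.valuation y ^ (i - 1) * V.valuation (D y) := by rw [one_mul, one_mul]
        _ < V.valuation y ^ (i - 1) * V.valuation y :=
            mul_lt_mul_of_pos_left hy (pow_pos hypos _)
        _ = V.valuation y ^ i := by rw [← pow_succ, Nat.sub_add_cancel h0]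
  · rw [map_mul, map_pow]
    calc V.valuation y ^ i * V.valuation (D ((aeval x : ℂ[X] →ₐ[ℂ] K) (P.coeff i)))
        < V.valuation y ^ i * 1 := mul_lt_mul_of_pos_left hc (pow_pos hypos _)
      _ = V.valuation y ^ i := mul_one _

theorem val_der_div {D : Derivation ℂ K K} {a b : K} (hb : b ≠ 0)
    (ha' : a ≠ 0) (ha : V.valuation (D a) < V.valuation a)
    (hb' : V.valuation (D b) < V.valuation b) :
    V.valuation (D (a / b)) < V.valuation (a / b) := by
  have hbv : V.valuation b ≠ 0 := by simpa using hb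
  have hav : V.valuation a ≠ 0 := by simpa using ha'
  have h1 : D (a / b) = (D a * b - a * D b) / b ^ 2 := by
    rw [div_eq_mul_inv, D.leibniz, D.leibniz_inv, smul_eq_mul, smul_eq_mul, smul_eq_mul]
    field_simp
    ring
  rw [h1, map_div₀, map_div₀, map_pow]
  have h2 : V.valuation (D a * b - a * D b) < V.valuation a * V.valuation b := by
    refine V.valuation.map_sub_lt ?_ ?_
    · rw [map_mul]; exact mul_lt_mul_of_pos_right ha (zero_lt_iff.2 hbv)
    · rw [map_mul]; exact mul_lt_mul_of_pos_left hb' (zero_lt_iff.2 hav)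
  calc V.valuation (D a * b - a * D b) / V.valuation b ^ 2
      < (V.valuation a * V.valuation b) / V.valuation b ^ 2 :=
        div_lt_div_of_pos_right h2 (pow_pos (zero_lt_iff.2 hbv) 2)
    _ = V.valuation a / V.valuation b := by
        rw [pow_two, mul_div_mul_right _ _ hbv]

/-- log-derivative bound on all of `ℂ(x,y)`. -/
theorem IsVE.der_frac_lt (h : IsVE V x y) (D : Derivation ℂ K K) (hx : V.valuation (D x) < 1)
    (hy : V.valuation (D y) < V.valuation y) (P Q : ℂ[X][X]) (hP : P ≠ 0) (hQ : Q ≠ 0) :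
    V.valuation (D (evxy x y P / evxy x y Q)) < V.valuation (evxy x y P / evxy x y Q) :=
  val_der_div (h.ev_ne_zero Q hQ) (h.ev_ne_zero P hP)
    (by rw [h.ev_eq P hP]; exact h.der_ev_lt D hx hy P)
    (by rw [h.ev_eq Q hQ]; exact h.der_ev_lt D hx hy Q)

theorem aeval_pair_monomial (p : MvPolynomial (Fin 2) ℂ) (x y : K) :
    MvPolynomial.aeval ![x, y] p =
      ∑ m ∈ p.support, algebraMap ℂ K (p.coeff m) * (x ^ m 0 * y ^ m 1) := by
  conv_lhs => rw [p.as_sum]
  rw [map_sum]
  refine Finset.sum_congr rfl fun m _ => ?_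
  rw [MvPolynomial.aeval_monomial, Finsupp.prod_fintype _ _ (fun i => pow_zero _),
    Fin.prod_univ_two]
  rfl

theorem IsVE.x_eq (h : IsVE V x y) : V.valuation x = 1 := by
  have := h.const X X_ne_zero
  rwa [aeval_X] at this

theorem IsVE.sub_eq (h : IsVE V x y) (c : ℂ) : V.valuation (x - algebraMap ℂ K c) = 1 := by
  have := h.const (X - C c) (X_sub_C_ne_zero c)
  rwa [map_sub, aeval_X, aeval_C] at this

theorem IsVE.mv_lt (h : IsVE V x y) (p : MvPolynomial (Fin 2) ℂ) (n : ℕ)
    (hn : ∀ m, p.coeff m ≠ 0 → m 1 < n) :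
    V.valuation (MvPolynomial.aeval ![x, y] p) < V.valuation y ^ n := by
  rw [aeval_pair_monomial]
  refine V.valuation.map_sum_lt (h.pow_ne n) fun m hm => ?_
  rw [map_mul, map_mul, map_pow, map_pow, h.x_eq, one_pow, one_mul]
  calc V.valuation (algebraMap ℂ K (p.coeff m)) * V.valuation y ^ m 1
      ≤ 1 * V.valuation y ^ m 1 := mul_le_mul_left (h.complex_le _) _
    _ = V.valuation y ^ m 1 := one_mul _
    _ < _ := h.pow_lt (hn m (MvPolynomial.mem_support_iff.1 hm))

theorem IsVE.mv_le (h : IsVE V x y) (p : MvPolynomial (Fin 2) ℂ) (n : ℕ)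
    (hn : ∀ m, p.coeff m ≠ 0 → m 1 ≤ n) :
    V.valuation (MvPolynomial.aeval ![x, y] p) ≤ V.valuation y ^ n := by
  rw [aeval_pair_monomial]
  refine V.valuation.map_sum_le fun m hm => ?_
  rw [map_mul, map_mul, map_pow, map_pow, h.x_eq, one_pow, one_mul]
  calc V.valuation (algebraMap ℂ K (p.coeff m)) * V.valuation y ^ m 1
      ≤ 1 * V.valuation y ^ m 1 := mul_le_mul_left (h.complex_le _) _
    _ = V.valuation y ^ m 1 := one_mul _
    _ ≤ _ := h.pow_le (hn m (MvPolynomial.mem_support_iff.1 hm))

/-- total degree `≤ n` with nonzero coefficient of `y ^ n`. -/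
theorem IsVE.mv_eq (h : IsVE V x y) (p : MvPolynomial (Fin 2) ℂ) (n : ℕ)
    (hn : p.totalDegree ≤ n) (hc : p.coeff (Finsupp.single 1 n) ≠ 0) :
    V.valuation (MvPolynomial.aeval ![x, y] p) = V.valuation y ^ n := by
  classical
  set c := p.coeff (Finsupp.single 1 n) with hcdef
  set q := p - MvPolynomial.monomial (Finsupp.single 1 n) c with hq
  have hp : p = q + MvPolynomial.monomial (Finsupp.single 1 n) c := by rw [hq]; ring
  have h1 : V.valuation (MvPolynomial.aeval ![x, y] q) < V.valuation y ^ n := by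
    apply h.mv_lt
    intro m hm
    by_contra hlt
    push Not at hlt
    apply hm
    rw [hq, MvPolynomial.coeff_sub, MvPolynomial.coeff_monomial]
    split_ifs with he
    · rw [← he, ← hcdef, sub_self]
    · rw [sub_zero]
      by_contra hne
      apply he
      have hdeg := (MvPolynomial.le_totalDegree (MvPolynomial.mem_support_iff.2 hne)).trans hn
      rw [Finsupp.sum_fintype _ _ (fun _ => rfl), Fin.sum_univ_two] at hdeg
      ext i
      fin_cases i
      · simp
        omega
      · simp
        omega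
  have h2 : V.valuation (MvPolynomial.aeval ![x, y]
      (MvPolynomial.monomial (Finsupp.single 1 n) c)) = V.valuation y ^ n := by
    rw [MvPolynomial.aeval_monomial, Finsupp.prod_single_index (by rw [pow_zero]), map_mul,
      map_pow, h.complex hc, one_mul]
    rfl
  rw [hp, map_add, V.valuation.map_add_eq_of_lt_right (by rw [h2]; exact h1), h2]

end VE

end Crest.Agent.R278
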