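import Crest.Agent.R278.Plane2Inst
import Crest.Agent.R278.DataGrp

set_option autoImplicit false
set_option maxRecDepth 100000

/-!
Row 278 (S0421): the plane data of the example.
-/

namespace Crest.Agent.R278

open MvPolynomial PolyCert

/-- multiplicity functions of the example -/
noncomputable abbrev dmz (i : Fin 4) (y : ℂ) : ℕ := (grp i y).mz
noncomputable abbrev dm1 (i : Fin 4) (y : ℂ) : ℕ := (grp i y).mw1
noncomputable abbrev dm2 (i : Fin 4) (y : ℂ) : ℕ := (grp i y).mw2
noncomputable abbrev dme (i : Fin 4) (y : ℂ) : ℕ := (grp i y).me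

theorem good_z : Good xs pts Zp 25 dmz where
  deg := totalDegree_Z
  lead := coeff_Z
  mult _ _ hb := Z_grp hb
  sum i := by
    rw [sum_grp (fun g => g.mz)]
    refine arms_cases ?_ ?_ ?_ ?_ i
    all_goals decide +kernel

theorem good_w1 : Good xs pts W1p 16 dm1 where
  deg := totalDegree_W1
  lead := coeff_W1
  mult _ _ hb := W1_grp hb
  sum i := by
    rw [sum_grp (fun g => g.mw1)]
    refine arms_cases ?_ ?_ ?_ ?_ i
    all_goals decide +kernel

theorem good_w2 : Good xs pts W2p 16 dm2 where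
  deg := totalDegree_W2
  lead := coeff_W2
  mult _ _ hb := W2_grp hb
  sum i := by
    rw [sum_grp (fun g => g.mw2)]
    refine arms_cases ?_ ?_ ?_ ?_ i
    all_goals decide +kernel

theorem good_ell : Good xs pts Elp 10 dme where
  deg := totalDegree_El
  lead := coeff_El
  mult _ _ hb := El_grp hb
  sum i := by
    rw [sum_grp (fun g => g.me)]
    refine arms_cases ?_ ?_ ?_ ?_ i
    all_goals decide +kernel

/-- the total multiplicity of a group -/
def GDM (g : GD) : ℕ := g.mz + g.mw1 + g.mw2 + 3 * g.me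

def dμ : Fin 4 → ℕ := ![12, 17, 12, 17]

theorem GDM_pos (i : Fin 4) : ∀ g ∈ arms i, 0 < GDM g := by
  refine arms_cases ?_ ?_ ?_ ?_ i
  all_goals decide +kernel

theorem GDM_le (i : Fin 4) : ∀ g ∈ arms i, GDM g ≤ dμ i := by
  refine arms_cases ?_ ?_ ?_ ?_ i
  all_goals decide +kernel

theorem GDM_sum (i : Fin 4) : ∀ g ∈ arms i, GDM g +
    ((arms i).map fun g' => (g'.h.length - 1) * (GDM g' - GDM g)).sum +
      ∑ k ∈ Finset.univ.erase i, dμ k < 87 := by
  refine arms_cases ?_ ?_ ?_ ?_ i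
  all_goals decide +kernel

theorem pts_nonempty (i : Fin 4) : (pts i).Nonempty := by
  rw [Finset.nonempty_iff_ne_empty]
  intro h
  have h1 := good_z.sum i
  rw [h, Finset.sum_empty] at h1
  exact absurd h1 (by norm_num)

theorem d_M_pos (i : Fin 4) (b : ℂ) (hb : b ∈ pts i) :
    0 < dmz i b + dm1 i b + dm2 i b + 3 * dme i b := GDM_pos i _ (grp_mem hb)

theorem d_hμ (i : Fin 4) (b : ℂ) (hb : b ∈ pts i) :
    dmz i b + dm1 i b + dm2 i b + 3 * dme i b ≤ dμ i := GDM_le i _ (grp_mem hb)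

theorem d_hμD : ∑ i, dμ i < 25 + 16 + 16 + 3 * 10 := by decide

theorem d_hN (i : Fin 4) (b : ℂ) (hb : b ∈ pts i) :
    dmz i b + dm1 i b + dm2 i b + 3 * dme i b +
    ∑ b' ∈ (pts i).erase b, ((dmz i b' + dm1 i b' + dm2 i b' + 3 * dme i b') -
      (dmz i b + dm1 i b + dm2 i b + 3 * dme i b)) +
    ∑ k ∈ Finset.univ.erase i, dμ k < 25 + 16 + 16 + 3 * 10 := by
  have h1 := GDM_sum i _ (grp_mem hb)
  have h2 := sum_grp (fun g => GDM g - GDM (grp i b)) i
  rw [← h2] at h1
  have h3 : ∑ b' ∈ (pts i).erase b, (GDM (grp i b') - GDM (grp i b)) =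
      ∑ b' ∈ pts i, (GDM (grp i b') - GDM (grp i b)) :=
    Finset.sum_erase _ (Nat.sub_self _)
  rw [← h3] at h1
  exact h1

/-- the plane data of the example -/
noncomputable def P0 : Plane2 :=
  Plane2.ofGood (by norm_num) xs xs_injective pts pts_nonempty good_z good_w1 good_w2 good_ell
    d_M_pos dμ d_hμ d_hμD d_hN

end Crest.Agent.R278
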