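import Crest.Agent.R278.PtBridge
import Crest.Agent.R278.DataGrp

/-!
Row 278 (S0421): the facts at the points for the explicit data.
-/

set_option autoImplicit false

namespace Crest.Agent.R278

open MvPolynomial PolyCert

/-- the numerical conditions for all groups -/
theorem numOK_arms (i : Fin 4) : ∀ g ∈ arms i, 1 ≤ g.l1 ∧ 1 ≤ g.l2 ∧
    ∃ d, NumOK 4 g.mz g.mw1 g.mw2 g.me g.l1 g.l2 g.g1 g.g2 d := by
  revert i
  refine arms_cases ?_ ?_ ?_ ?_
  · intro g hg
    change g ∈ arm0 at hg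
    simp only [arm0, List.mem_cons, List.not_mem_nil, or_false] at hg
    rcases hg with rfl | rfl | rfl | rfl | rfl
    · exact ⟨by norm_num, by norm_num, 4, num_r⟩
    · exact ⟨by norm_num, by norm_num, 4, num_TT⟩
    · exact ⟨by norm_num, by norm_num, 4, num_E⟩
    · exact ⟨by norm_num, by norm_num, 4, num_t⟩
    · exact ⟨by norm_num, by norm_num, 2, num_q0⟩
  · intro g hg
    change g ∈ arm1 at hg
    simp only [arm1, List.mem_cons, List.not_mem_nil, or_false] at hg
    rcases hg with rfl | rfl | rfl | rfl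
    · exact ⟨by norm_num, by norm_num, 4, num_T⟩
    · exact ⟨by norm_num, by norm_num, 4, num_H⟩
    · exact ⟨by norm_num, by norm_num, 1, num_q1⟩
    · exact ⟨by norm_num, by norm_num, 2, num_f1⟩
  · intro g hg
    change g ∈ arm2 at hg
    simp only [arm2, List.mem_cons, List.not_mem_nil, or_false] at hg
    rcases hg with rfl | rfl | rfl | rfl | rfl
    · exact ⟨by norm_num, by norm_num, 4, num_TT⟩
    · exact ⟨by norm_num, by norm_num, 4, num_r⟩
    · exact ⟨by norm_num, by norm_num, 4, num_E⟩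
    · exact ⟨by norm_num, by norm_num, 4, num_t⟩
    · exact ⟨by norm_num, by norm_num, 2, num_q2⟩
  · intro g hg
    change g ∈ arm3 at hg
    simp only [arm3, List.mem_cons, List.not_mem_nil, or_false] at hg
    rcases hg with rfl | rfl | rfl | rfl
    · exact ⟨by norm_num, by norm_num, 4, num_T⟩
    · exact ⟨by norm_num, by norm_num, 4, num_H⟩
    · exact ⟨by norm_num, by norm_num, 1, num_q3⟩
    · exact ⟨by norm_num, by norm_num, 2, num_f3⟩

/-! ### the curves -/

theorem good_Z : Good xs pts Zp 25 (fun i b => (grp i b).mz) where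
  deg := totalDegree_Z
  lead := coeff_Z
  mult i b hb := Z_grp hb
  sum i := by
    rw [sum_grp GD.mz i]
    revert i
    refine arms_cases ?_ ?_ ?_ ?_ <;> rfl

theorem good_W1 : Good xs pts W1p 16 (fun i b => (grp i b).mw1) where
  deg := totalDegree_W1
  lead := coeff_W1
  mult i b hb := W1_grp hb
  sum i := by
    rw [sum_grp GD.mw1 i]
    revert i
    refine arms_cases ?_ ?_ ?_ ?_ <;> rfl

theorem good_W2 : Good xs pts W2p 16 (fun i b => (grp i b).mw2) where
  deg := totalDegree_W2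
  lead := coeff_W2
  mult i b hb := W2_grp hb
  sum i := by
    rw [sum_grp GD.mw2 i]
    revert i
    refine arms_cases ?_ ?_ ?_ ?_ <;> rfl

theorem good_El : Good xs pts Elp 10 (fun i b => (grp i b).me) where
  deg := totalDegree_El
  lead := coeff_El
  mult i b hb := El_grp hb
  sum i := by
    rw [sum_grp GD.me i]
    revert i
    refine arms_cases ?_ ?_ ?_ ?_ <;> rfl

theorem PPp_eq_othP (i : Fin 4) (A : MvPolynomial (Fin 2) ℂ) :
    PPp * A = (X 0 - C (xs i)) * (othP i * A) := by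
  unfold PPp othP
  rw [← mul_assoc]
  congr 1
  exact (Finset.mul_prod_erase Finset.univ
    (fun k => (X 0 - C (xs k) : MvPolynomial (Fin 2) ℂ)) (Finset.mem_univ i)).symm

/-- **the facts at all points of the explicit data** -/
theorem exists_pf {c : ℂ} {hc : c ≠ 0} {h1 : Zp ≠ 0} {h2 : W1p ≠ 0} {h3 : W2p ≠ 0}
    {h4 : Elp ≠ 0}
    {hw : PPp * Al1p * Be2p - PPp * Al2p * Be1p = C c * (∏ k, (X 0 - C (xs k))) * Zp}
    (i : Fin 4) {b : ℂ} (hb : b ∈ pts i) :
    ∃ T : PointFacts 4 ⟨4, xs, xs_injective, pts, c, hc, Zp, W1p, W2p, Elp, PPp * Al1p, Be1p,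
      PPp * Al2p, Be2p, h1, h2, h3, h4, hw⟩ i b,
      T.mz = (grp i b).mz ∧ T.m₁ = (grp i b).mw1 ∧ T.m₂ = (grp i b).mw2 ∧
        T.me = (grp i b).me := by
  obtain ⟨hl1, hl2, d, hd⟩ := numOK_arms i _ (grp_mem hb)
  exact exists_pointFacts (S := ⟨4, xs, xs_injective, pts, c, hc, Zp, W1p, W2p, Elp, PPp * Al1p,
      Be1p, PPp * Al2p, Be2p, h1, h2, h3, h4, hw⟩) (i := i) hb good_Z good_W1 good_W2 good_El
    rfl rfl rfl rfl (PPp_eq_othP i Al1p) (PPp_eq_othP i Al2p) hl1 hl2
    (Ideal.mul_mem_left _ _ (Al1_grp hb)) (Ideal.mul_mem_left _ _ (Al2_grp hb))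
    (rad1_grp hb) (rad2_grp hb) hd

end Crest.Agent.R278
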