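import Crest.Agent.R278.Glue
import Crest.Agent.R278.Plane2Data
import Crest.Agent.R278.PtInst

/-!
Row 278 (S0421): the explicit data satisfy the check list.
-/

set_option autoImplicit false

namespace Crest.Agent.R278

open MvPolynomial PolyCert

theorem wedge0 : PPp * Al1p * Be2p - PPp * Al2p * Be1p =
    C 5 * (∏ k, (X 0 - C (xs k))) * Zp := by
  have h5 : (C 5 : MvPolynomial (Fin 2) ℂ) = 5 := by
    rw [show (5 : ℂ) = ((5 : ℕ) : ℂ) by norm_num, map_natCast]; norm_num
  have h := wedge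
  change _ = C 5 * PPp * Zp
  rw [h5]
  linear_combination PPp * h

theorem five_ne : (5 : ℂ) ≠ 0 := by norm_num

/-- **the data** -/
noncomputable def S0 : VFData := ⟨4, xs, xs_injective, pts, 5, five_ne, Zp, W1p, W2p, Elp,
  PPp * Al1p, Be1p, PPp * Al2p, Be2p, good_Z.ne_zero, good_W1.ne_zero, good_W2.ne_zero,
  good_El.ne_zero, wedge0⟩

theorem pf0 (i : Fin 4) (b : ℂ) (hb : b ∈ pts i) : ∃ T : PointFacts 4 S0 i b,
    T.mz = (grp i b).mz ∧ T.m₁ = (grp i b).mw1 ∧ T.m₂ = (grp i b).mw2 ∧ T.me = (grp i b).me :=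
  exists_pf i hb

/-- **the check list** -/
noncomputable def CL : CheckList 4 S0 where
  dz := 25
  d₁ := 16
  d₂ := 16
  de := 10
  mz := fun i b => (grp i b).mz
  m₁ := fun i b => (grp i b).mw1
  m₂ := fun i b => (grp i b).mw2
  me := fun i b => (grp i b).me
  goodz := good_Z
  good₁ := good_W1
  good₂ := good_W2
  goode := good_El
  r_pos := by change 0 < 4; norm_num
  pts_ne := pts_nonempty
  M_pos := d_M_pos
  μ := dμ
  hμ := d_hμ
  hμD := d_hμD
  hN := d_hN
  T i b hb := (pf0 i b hb).choose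
  hTz i b hb := (pf0 i b hb).choose_spec.1
  hT₁ i b hb := (pf0 i b hb).choose_spec.2.1
  hT₂ i b hb := (pf0 i b hb).choose_spec.2.2.1
  hTe i b hb := (pf0 i b hb).choose_spec.2.2.2

theorem totalDegree_PPp : PPp.totalDegree ≤ 4 := by
  unfold PPp
  refine (totalDegree_finsetProd _ _).trans ?_
  calc ∑ k : Fin 4, (X 0 - C (xs k) : MvPolynomial (Fin 2) ℂ).totalDegree
      ≤ ∑ _k : Fin 4, 1 := Finset.sum_le_sum fun k _ => by
        refine (totalDegree_sub _ _).trans ?_
        rw [totalDegree_X, totalDegree_C]; norm_num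
    _ = 4 := by simp

theorem degreeOf_PPp : PPp.degreeOf 1 ≤ 0 := by
  unfold PPp
  refine (degreeOf_prod_le _ _ _).trans ?_
  rw [Finset.sum_eq_zero]
  intro k _
  have h := degreeOf_sub_le (1 : Fin 2) (X 0 : MvPolynomial (Fin 2) ℂ) (C (xs k))
  rw [degreeOf_C, degreeOf_X_of_ne (by decide : (1 : Fin 2) ≠ 0)] at h
  simpa using h

/-- **infinity** -/
noncomputable def TI0 : InfFacts 4 S0 where
  dz := 25
  d₁ := 16
  d₂ := 16
  de := 10
  ε := 3
  hz := totalDegree_Z
  hw₁ := totalDegree_W1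
  hw₂ := totalDegree_W2
  he := totalDegree_El
  hα₁ := by
    change (PPp * Al1p).totalDegree ≤ 15
    exact (totalDegree_mul _ _).trans (Nat.add_le_add totalDegree_PPp totalDegree_Al1)
  hγ₁ := by
    change (X 0 * Be1p - X 1 * (PPp * Al1p)).totalDegree ≤ 15
    rw [inf1]; exact totalDegree_I1
  hα₂ := by
    change (PPp * Al2p).totalDegree ≤ 15
    exact (totalDegree_mul _ _).trans (Nat.add_le_add totalDegree_PPp totalDegree_Al2)
  hγ₂ := by
    change (X 0 * Be2p - X 1 * (PPp * Al2p)).totalDegree ≤ 15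
    rw [inf2]; exact totalDegree_I2
  hd₁ := rfl
  hd₂ := rfl
  hk := rfl

/-- **S0421** -/
theorem concl : Concl := by
  refine CL.concl (F := FractionRing (MvPolynomial (Fin 2) ℂ)) (by norm_num) TI0 rfl ?_
  intro V hV
  exact S0.cond_E _ (da := 11) (db := 14) (d₁ := 16) (de := 10)
    ((degreeOf_mul_le _ _ _).trans (Nat.add_le_add degreeOf_PPp degY_Al1)) degY_Be1
    totalDegree_W1 coeff_W1 totalDegree_El coeff_El (by norm_num) (by norm_num) hV

end Crest.Agent.R278
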