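import Crest.Agent.R278.Mono

/-!
Row 278 (S0421): the final form of the certificate for radical extensions, all conditions in
`F = ℂ(x,y)`.
-/

set_option autoImplicit false

namespace Crest.Agent.R278

open MvPolynomial

section Aux

variable {F : Type} [Field F] [Algebra ℂ F]
variable {K : Type} [Field K] [Algebra F K] [Algebra ℂ K] [IsScalarTower ℂ F K]

/-- `K` is algebraic over `ℂ[f_j]` if `F` is generated by the `f_j`. -/
theorem isAlgebraic_adjoin_range [Algebra.IsAlgebraic F K] {J : Type*} (f : J → F)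
    (hgen : IntermediateField.adjoin ℂ (Set.range f) = ⊤) :
    Algebra.IsAlgebraic (Algebra.adjoin ℂ (Set.range fun j => algebraMap F K (f j))) K := by
  set A := Algebra.adjoin ℂ (Set.range f) with hA
  set B := Algebra.adjoin ℂ (Set.range fun j => algebraMap F K (f j)) with hB
  have hAB : ∀ a ∈ A, algebraMap F K a ∈ B := by
    intro a ha
    have h1 : A.map (IsScalarTower.toAlgHom ℂ F K) ≤ B := by
      rw [hA, AlgHom.map_adjoin, Algebra.adjoin_le_iff]
      rintro _ ⟨_, ⟨j, rfl⟩, rfl⟩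
      exact Algebra.subset_adjoin ⟨j, rfl⟩
    exact h1 ⟨a, ha, rfl⟩
  have hfr : IsFractionRing A F := by
    refine IsFractionRing.of_field A F ?_
    intro z
    have hz : z ∈ IntermediateField.adjoin ℂ (Set.range f) := by rw [hgen]; trivial
    rw [IntermediateField.mem_adjoin_iff_div] at hz
    obtain ⟨a, ha, b, hb, rfl⟩ := hz
    exact ⟨⟨a, ha⟩, ⟨b, hb⟩, rfl⟩
  have hAK : Algebra.IsAlgebraic A K :=
    (IsFractionRing.comap_isAlgebraic_iff (A := A) (K := F) (C := K)).2 inferInstance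
  let j : A →+* B := ((algebraMap F K).comp (algebraMap A F)).codRestrict B
    (fun a => hAB a a.2)
  have hj : Function.Injective j := by
    intro a b hab
    have h1 : algebraMap F K (a : F) = algebraMap F K (b : F) := congrArg Subtype.val hab
    exact Subtype.ext ((algebraMap F K).injective h1)
  let _ : Algebra A B := j.toAlgebra
  have : IsScalarTower A B K := IsScalarTower.of_algebraMap_eq fun _ => rfl
  exact Algebra.IsAlgebraic.extendScalars (R := A) hj

variable {N : ℕ} {X : Type} [Fintype X] {γ : X → K} {W : X → F}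

/-- finite generation -/
theorem RadSys.adjoin_eq_top (S : RadSys F K N γ W) [Algebra.IsAlgebraic F K] {x y : F}
    (hc : RatCoord ℂ F x y) :
    ∃ T : Set K, T.Finite ∧ IntermediateField.adjoin ℂ T = ⊤ := by
  refine ⟨Set.range γ ∪ {algebraMap F K x, algebraMap F K y},
    (Set.finite_range γ).union (Set.toFinite _), ?_⟩
  set L := IntermediateField.adjoin ℂ (Set.range γ ∪ {algebraMap F K x, algebraMap F K y})
    with hL
  have hF : ∀ z : F, algebraMap F K z ∈ L := by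
    intro z
    have h1 : (IntermediateField.adjoin ℂ ({x, y} : Set F)).map (Algebra.algHom ℂ F K) ≤ L := by
      rw [IntermediateField.adjoin_map, IntermediateField.adjoin_le_iff]
      rintro _ ⟨u, hu | hu, rfl⟩
      · rw [hu]; exact IntermediateField.subset_adjoin _ _ (Or.inr (Or.inl rfl))
      · rw [Set.mem_singleton_iff] at hu
        rw [hu]; exact IntermediateField.subset_adjoin _ _ (Or.inr (Or.inr rfl))
    apply h1
    rw [hc.top]
    exact ⟨z, trivial, rfl⟩
  rw [eq_top_iff]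
  intro v _
  have hv : v ∈ intClos (algebraMap F K '' Set.univ) := by
    rw [mem_intClos]
    have h1 : IsIntegral F v := Algebra.IsIntegral.isIntegral v
    obtain ⟨P, hP, hP0⟩ := h1
    let j : F →+* Algebra.adjoin ℂ (algebraMap F K '' Set.univ) :=
      (algebraMap F K).codRestrict _ (fun a => Algebra.subset_adjoin ⟨a, trivial, rfl⟩)
    refine ⟨P.map j, hP.map _, ?_⟩
    rw [Polynomial.eval₂_map]
    exact hP0
  obtain ⟨c, rfl, -⟩ := S.decomp _ v hv
  exact L.sum_mem fun χ _ => L.mul_mem (hF _)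
    (IntermediateField.subset_adjoin _ _ (Or.inl ⟨χ, rfl⟩))

/-- algebraicity over `ℂ[x,y]` -/
theorem isAlgebraic_adjoin_xy [Algebra.IsAlgebraic F K] {x y : F} (hc : RatCoord ℂ F x y) :
    Algebra.IsAlgebraic (Algebra.adjoin ℂ ({algebraMap F K x, algebraMap F K y} : Set K)) K := by
  have h1 := isAlgebraic_adjoin_range (K := K) ![x, y] (by
    rw [adjoin_range_pair]; exact hc.top)
  have h2 : (Set.range fun j => algebraMap F K (![x, y] j)) =
      ({algebraMap F K x, algebraMap F K y} : Set K) := by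
    rw [← adjoin_range_pair]
    congr 1
    funext i
    fin_cases i <;> rfl
  rw [h2] at h1
  exact h1

/-- **P8 for radical systems.** -/
theorem RadSys.exists_ideal (S : RadSys F K N γ W) (hN : 0 < N) {x y : F}
    (hc : RatCoord ℂ F x y) (G : Set F) {V : ValuationSubring K}
    (hV : IsVE V (algebraMap F K x) (algebraMap F K y)) (hG : ∀ g ∈ G, algebraMap F K g ∈ V)
    (D : Derivation ℂ K K) (hx : V.valuation (D (algebraMap F K x)) < 1)
    (hy : V.valuation (D (algebraMap F K y)) < V.valuation (algebraMap F K y)) :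
    ∃ I : Ideal (intClos (algebraMap F K '' G)), I ≠ ⊤ ∧
      ∀ a, a ∈ intClos (algebraMap F K '' G) →
        ∀ h : D a ∈ intClos (algebraMap F K '' G),
          (⟨D a, h⟩ : intClos (algebraMap F K '' G)) ∈ I := by
  set A := intClos (algebraMap F K '' G) with hA
  have hVC : ∀ c : ℂ, algebraMap ℂ K c ∈ V := fun c =>
    (V.valuation_le_one_iff _).1 (hV.complex_le c)
  have hAV : ∀ r ∈ A, r ∈ V := by
    intro r hr
    refine intClos_le_valuationSubring V hVC ?_ r hr
    rintro _ ⟨g, hg, rfl⟩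
    exact hG g hg
  let I : Ideal A :=
    { carrier := {a | V.valuation (a : K) < 1}
      add_mem' := by
        intro a b ha hb
        exact V.valuation.map_add_lt ha hb
      zero_mem' := by
        change V.valuation ((0 : A) : K) < 1
        rw [ZeroMemClass.coe_zero, map_zero]; exact zero_lt_one
      smul_mem' := by
        intro r a ha
        change V.valuation ((r * a : A) : K) < 1
        rw [MulMemClass.coe_mul, map_mul]
        have hr : V.valuation (r : K) ≤ 1 := (V.valuation_le_one_iff _).2 (hAV _ r.2)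
        calc V.valuation (r : K) * V.valuation (a : K) ≤ 1 * V.valuation (a : K) :=
              mul_le_mul_left hr _
          _ = V.valuation (a : K) := one_mul _
          _ < 1 := ha }
  refine ⟨I, ?_, ?_⟩
  · intro h1
    have h2 : (1 : A) ∈ I := by rw [h1]; trivial
    have h3 : V.valuation ((1 : A) : K) < 1 := h2
    rw [OneMemClass.coe_one, map_one] at h3
    exact lt_irrefl _ h3
  · intro a ha h
    change V.valuation (D a) < 1
    obtain ⟨c, hac, hcm⟩ := S.decomp _ a ha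
    rw [hac, map_sum]
    refine V.valuation.map_sum_lt one_ne_zero fun χ _ => ?_
    by_cases hci : c χ = 0
    · rw [hci, map_zero, zero_mul, map_zero, map_zero]; exact zero_lt_one
    · have h1 : LD V D (algebraMap F K (c χ) * γ χ) :=
        (hV.LD_algebraMap hc D hx hy hci).mul
          (hV.LD_root hc D hx hy hN (S.W_ne χ) (S.pow χ))
      refine h1.2.trans_le ?_
      exact (V.valuation_le_one_iff _).2 (hAV _ (hcm χ))

theorem RadSys.exists_ideal' (S : RadSys F K N γ W) (hN : 0 < N) {x y : F}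
    (hc : RatCoord ℂ F x y) {s t : F} {V : ValuationSubring K}
    (hV : IsVE V (algebraMap F K x) (algebraMap F K y)) (hs : algebraMap F K s ∈ V)
    (ht : algebraMap F K t ∈ V)
    (D : Derivation ℂ K K) (hx : V.valuation (D (algebraMap F K x)) < 1)
    (hy : V.valuation (D (algebraMap F K y)) < V.valuation (algebraMap F K y)) :
    ∃ I : Ideal (clos (algebraMap F K s) (algebraMap F K t)), I ≠ ⊤ ∧
      ∀ a, a ∈ clos (algebraMap F K s) (algebraMap F K t) →
        ∀ h : D a ∈ clos (algebraMap F K s) (algebraMap F K t),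
          (⟨D a, h⟩ : clos (algebraMap F K s) (algebraMap F K t)) ∈ I := by
  have key : ∀ G' : Set K, algebraMap F K '' {s, t} = G' →
      ∃ I : Ideal (intClos G'), I ≠ ⊤ ∧ ∀ a, a ∈ intClos G' → ∀ h : D a ∈ intClos G',
        (⟨D a, h⟩ : intClos G') ∈ I := by
    rintro G' rfl
    refine S.exists_ideal hN hc {s, t} hV ?_ D hx hy
    rintro z (rfl | hz)
    · exact hs
    · rw [Set.mem_singleton_iff] at hz
      rw [hz]
      exact ht
  exact key {algebraMap F K s, algebraMap F K t} (Set.image_pair _ _ _)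

end Aux

section Final

open IntermediateField.algebraAdjoinAdjoin

variable {F : Type} [Field F] [Algebra ℂ F] [Algebra (MvPolynomial (Fin 2) ℂ) F]
  [IsScalarTower ℂ (MvPolynomial (Fin 2) ℂ) F] [IsFractionRing (MvPolynomial (Fin 2) ℂ) F]
variable {K : Type} [Field K] [Algebra F K] [Algebra ℂ K] [IsScalarTower ℂ F K]

/-- **Final form of the certificate for S0421** (radical extensions). -/
theorem concl_of_radSys [Algebra.IsAlgebraic F K] {N : ℕ} (hN : 0 < N)
    {X : Type} [Fintype X] {γ : X → K} {W : X → F} (S : RadSys F K N γ W)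
    -- the derivations `D_i = r_i G_i V_i`
    (V₁ V₂ : Derivation ℂ F F) (G₁ G₂ : K) (r₁ r₂ : F)
    -- the charts
    {ι J : Type*} [Finite ι] [Nonempty ι] [Finite J] (p q h : ι → F)
    (hc : ∀ l, RatCoord ℂ F (p l) (q l)) (hh : ∀ l, h l ∈ polyRing ℂ (p l) (q l))
    (h0 : ∀ l, h l ≠ 0)
    -- monomials at the charts
    (E Ω : ι → X → F) (R : ι → X → ℤ)
    (H : ∀ l χ, Mono N (p l) (q l) (h l) (γ χ) (E l χ) (Ω l χ) (R l χ))
    (hd : ∀ l, (∀ χ, R l χ = 0) ∨ h l / p l ∉ polyRing ℂ (p l) (q l))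
    (d : ι → ℕ) (hd0 : ∀ l, 0 < d l) (hdN : ∀ l, d l ∣ N) (hdR : ∀ l χ, (d l : ℤ) ∣ R l χ)
    (hπ : ∀ l, ∃ (a : ℤ) (χ : X), N * a + R l χ = d l)
    (e₁ e₂ ω₁ ω₂ : ι → F) (ρ₁ ρ₂ : ι → ℤ)
    (HG₁ : ∀ l, Mono N (p l) (q l) (h l) G₁ (e₁ l) (ω₁ l) (ρ₁ l))
    (HG₂ : ∀ l, Mono N (p l) (q l) (h l) G₂ (e₂ l) (ω₂ l) (ρ₂ l))
    -- the sections
    (f : J → F) (hf : ∀ j l, f j ∈ chartRing ℂ (p l) (q l) (h l))
    (hgen : IntermediateField.adjoin ℂ (Set.range f) = ⊤)
    (hcov : ∀ V : ValuationSubring F, (∀ c : ℂ, algebraMap ℂ F c ∈ V) → (∀ j, f j ∈ V) →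
      (∃ j, f j ≠ 0 ∧ (f j)⁻¹ ∈ V) → ∃ l, p l ∈ V ∧ q l ∈ V ∧ (h l)⁻¹ ∈ V)
    -- the multipliers
    (b : ι → F) (hb : ∀ l l', b l ∈ chartRing ℂ (p l') (q l') (h l')) (hb0 : ∀ l, b l ≠ 0)
    (hbi : ∀ l, (b l)⁻¹ ∈ chartRing ℂ (p l) (q l) (h l))
    (hbV : ∀ l, ∀ V : ValuationSubring F, (∀ c : ℂ, algebraMap ℂ F c ∈ V) → (∀ j, f j ∈ V) →
      b l ∈ V → (b l)⁻¹ ∈ V → p l ∈ V ∧ q l ∈ V ∧ (h l)⁻¹ ∈ V)
    -- the values of the derivations
    (i₁ j₁ i₂ j₂ k : ι → ℤ)
    (h1p : ∀ l, r₁ * V₁ (p l) / e₁ l / p l ^ i₁ l ∈ chartRing ℂ (p l) (q l) (h l))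
    (h1q : ∀ l, r₁ * V₁ (q l) / e₁ l / p l ^ j₁ l ∈ chartRing ℂ (p l) (q l) (h l))
    (h2p : ∀ l, r₂ * V₂ (p l) / e₂ l / p l ^ i₂ l ∈ chartRing ℂ (p l) (q l) (h l))
    (h2q : ∀ l, r₂ * V₂ (q l) / e₂ l / p l ^ j₂ l ∈ chartRing ℂ (p l) (q l) (h l))
    (hi₁ : ∀ l, 0 ≤ N * (i₁ l - 1) + ρ₁ l + d l) (hj₁ : ∀ l, 0 ≤ N * j₁ l + ρ₁ l)
    (hi₂ : ∀ l, 0 ≤ N * (i₂ l - 1) + ρ₂ l + d l) (hj₂ : ∀ l, 0 ≤ N * j₂ l + ρ₂ l)
    (hM0 : ∀ l, r₁ * r₂ * (V₁ (p l) * V₂ (q l) - V₁ (q l) * V₂ (p l)) ≠ 0)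
    (hM : ∀ l, r₁ * r₂ * (V₁ (p l) * V₂ (q l) - V₁ (q l) * V₂ (p l)) / (e₁ l * e₂ l) /
      p l ^ k l ∈ chartRing ℂ (p l) (q l) (h l))
    (hM' : ∀ l, (r₁ * r₂ * (V₁ (p l) * V₂ (q l) - V₁ (q l) * V₂ (p l)) / (e₁ l * e₂ l) /
      p l ^ k l)⁻¹ ∈ chartRing ℂ (p l) (q l) (h l))
    (hk : ∀ l, N * k l + (ρ₁ l + ρ₂ l) = N - d l)
    -- the valuation at `E`
    (hE : ∀ V : ValuationSubring K, IsVE V (algebraMap F K (xF F)) (algebraMap F K (yF F)) →
      (∀ j, algebraMap F K (f j) ∈ V) ∧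
      V.valuation (algebraMap F K (r₁ * V₁ (xF F)) * G₁) < 1 ∧
      V.valuation (algebraMap F K (r₁ * V₁ (yF F)) * G₁) <
        V.valuation (algebraMap F K (yF F))) : Concl := by
  have hcoord : RatCoord ℂ F (xF F) (yF F) := RatCoord.coord
  have hp0 : ∀ l, p l ≠ 0 := fun l => (hc l).left_ne_zero
  obtain ⟨D₁, hD₁⟩ := exists_der (K := K) V₁ (algebraMap F K r₁ * G₁)
  obtain ⟨D₂, hD₂⟩ := exists_der (K := K) V₂ (algebraMap F K r₂ * G₂)
  have hD₁' : ∀ f : F, D₁ (algebraMap F K f) = algebraMap F K (r₁ * V₁ f) * G₁ := fun f => by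
    rw [hD₁, map_mul]; ring
  have hD₂' : ∀ f : F, D₂ (algebraMap F K f) = algebraMap F K (r₂ * V₂ f) * G₂ := fun f => by
    rw [hD₂, map_mul]; ring
  have hminor : ∀ f f' : F, minor D₁ D₂ (algebraMap F K f) (algebraMap F K f') =
      algebraMap F K (r₁ * r₂ * (V₁ f * V₂ f' - V₁ f' * V₂ f)) * (G₁ * G₂) := fun f f' => by
    unfold minor
    rw [hD₁, hD₂, hD₁, hD₂, map_mul, map_mul, map_sub, map_mul, map_mul]
    ring
  obtain ⟨l₀⟩ := (inferInstance : Nonempty ι)
  have hG₁0 := (HG₁ l₀).ne_zero hN (hp0 l₀)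
  have hG₂0 := (HG₂ l₀).ne_zero hN (hp0 l₀)
  have hminor0 : minor D₁ D₂ (algebraMap F K (p l₀)) (algebraMap F K (q l₀)) ≠ 0 := by
    rw [hminor]
    exact mul_ne_zero (by rw [Ne, map_eq_zero]; exact hM0 l₀) (mul_ne_zero hG₁0 hG₂0)
  -- the ring `A`
  have halg1 := isAlgebraic_adjoin_range (K := K) f hgen
  have halg2 := isAlgebraic_adjoin_xy (K := K) hcoord
  have hset : ∀ l, ({algebraMap F K (p l), algebraMap F K (q l), (algebraMap F K (h l))⁻¹} :
    Set K) = algebraMap F K '' {p l, q l, (h l)⁻¹} := fun l => (image_G _ _ _).symm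
  obtain ⟨s, t, hs, ht, hst, halg3, hle, hinter⟩ := exists_clos_of_sections
    (fun j => algebraMap F K (f j))
    (fun l => ({algebraMap F K (p l), algebraMap F K (q l), (algebraMap F K (h l))⁻¹} : Set K))
    (indep_alg hcoord.ind) (fun j l => alg_mem_intClos (hf j l)) (by
      intro V hV hfV hj
      obtain ⟨j, hj⟩ := hj
      have hj0 : algebraMap F K (f j) ≠ 0 := by
        intro h0
        rw [h0, map_zero] at hj
        exact zero_ne_one hj
      obtain ⟨l, h1, h2, h3⟩ := hcov (V.comap (algebraMap F K))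
        (fun c => by
          rw [ValuationSubring.mem_comap, ← IsScalarTower.algebraMap_apply ℂ F K]; exact hV c)
        (fun j => hfV j) ⟨j, fun h0 => hj0 (by rw [h0, map_zero]), by
          rw [ValuationSubring.mem_comap, map_inv₀, ← V.valuation_le_one_iff, map_inv₀, hj,
            inv_one]⟩
      refine ⟨l, ?_⟩
      rintro z (rfl | rfl | hz)
      · exact h1
      · exact h2
      · rw [Set.mem_singleton_iff] at hz
        rw [hz, ← map_inv₀]
        exact h3)
  -- `s` and `t` are in `F`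
  have hadjF : ∀ z ∈ Algebra.adjoin ℂ (Set.range fun j => algebraMap F K (f j)),
      ∃ z₀ ∈ Algebra.adjoin ℂ (Set.range f), algebraMap F K z₀ = z := by
    intro z hz
    have h1 : Algebra.adjoin ℂ (Set.range fun j => algebraMap F K (f j)) ≤
        (Algebra.adjoin ℂ (Set.range f)).map (IsScalarTower.toAlgHom ℂ F K) := by
      rw [Algebra.adjoin_le_iff]
      rintro _ ⟨j, rfl⟩
      exact ⟨f j, Algebra.subset_adjoin ⟨j, rfl⟩, rfl⟩
    obtain ⟨z₀, h2, h3⟩ := h1 hz
    exact ⟨z₀, h2, h3⟩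
  obtain ⟨s₀, hs₀, rfl⟩ := hadjF s hs
  obtain ⟨t₀, ht₀, rfl⟩ := hadjF t ht
  -- all `f_j` are in `A`
  have hfA : ∀ j, algebraMap F K (f j) ∈ clos (algebraMap F K s₀) (algebraMap F K t₀) :=
    fun j => hinter _ fun l => alg_mem_intClos (hf j l)
  have hbA : ∀ l, algebraMap F K (b l) ∈ clos (algebraMap F K s₀) (algebraMap F K t₀) :=
    fun l => hinter _ fun l' => alg_mem_intClos (hb l l')
  -- the charts in terms of valuations
  have hchart : ∀ l, ∀ V : ValuationSubring K, (∀ c : ℂ, algebraMap ℂ K c ∈ V) →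
      (∀ z ∈ ({algebraMap F K s₀, algebraMap F K t₀} : Set K), z ∈ V) →
      (algebraMap F K (b l))⁻¹ ∈ V → ∀ z ∈ CK K (p l) (q l) (h l), z ∈ V := by
    intro l V hV hst' hbinv z hz
    have hAV : ∀ a ∈ clos (algebraMap F K s₀) (algebraMap F K t₀), a ∈ V := by
      rw [clos_eq_intClos]
      exact intClos_le_valuationSubring V hV hst'
    obtain ⟨h1, h2, h3⟩ := hbV l (V.comap (algebraMap F K))
      (fun c => by
        rw [ValuationSubring.mem_comap, ← IsScalarTower.algebraMap_apply ℂ F K]; exact hV c)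
      (fun j => hAV _ (hfA j)) (hAV _ (hbA l))
      (by rw [ValuationSubring.mem_comap, map_inv₀]; exact hbinv)
    refine intClos_le_valuationSubring V hV ?_ z hz
    rintro z (rfl | rfl | hz)
    · exact h1
    · exact h2
    · rw [Set.mem_singleton_iff] at hz
      rw [hz, ← map_inv₀]
      exact h3
  -- minors
  have hmin : ∀ l, ∃ π ∈ CK K (p l) (q l) (h l), ∃ c₁ ∈ CK K (p l) (q l) (h l),
      ∃ c₂ ∈ CK K (p l) (q l) (h l),
      c₁ * minor D₁ D₂ (algebraMap F K (p l)) (algebraMap F K (q l)) +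
      c₂ * minor D₁ D₂ π (algebraMap F K (q l)) = 1 := by
    intro l
    obtain ⟨a, χ, haχ⟩ := hπ l
    exact minor_unit hN (hh l) (h0 l) (hp0 l) (H l χ) (hd0 l) haχ
      ((HG₁ l).mul (hp0 l) (HG₂ l)) D₁ D₂ (hminor _ _) (hM0 l) (hM l) (hM' l) (hk l)
  choose π hπC c₁ hc₁ c₂ hc₂ hm using hmin
  -- multipliers
  have hmult : ∀ l, ∃ n : ℕ,
      algebraMap F K (b l) ^ n ∈ clos (algebraMap F K s₀) (algebraMap F K t₀) ∧
      algebraMap F K (b l) ^ n * algebraMap F K (p l) ∈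
        clos (algebraMap F K s₀) (algebraMap F K t₀) ∧
      algebraMap F K (b l) ^ n * algebraMap F K (q l) ∈
        clos (algebraMap F K s₀) (algebraMap F K t₀) ∧
      algebraMap F K (b l) ^ n * π l ∈ clos (algebraMap F K s₀) (algebraMap F K t₀) := by
    intro l
    rw [clos_eq_intClos]
    refine exists_pow_mul_mem₃ (hbA l) (by rw [Ne, map_eq_zero]; exact hb0 l) ?_
    intro V hV hstV hbinv
    exact ⟨hchart l V hV hstV hbinv _ (subset_intClos (by simp)),
      hchart l V hV hstV hbinv _ (subset_intClos (by simp)),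
      hchart l V hV hstV hbinv _ (hπC l)⟩
  choose n hn₀ hn₁ hn₂ hn₃ using hmult
  -- the valuation at `E`
  obtain ⟨V, hV⟩ := exists_VE (K := K) (indep_alg hcoord.ind)
  obtain ⟨hfV, hx, hy⟩ := hE V hV
  have hVC : ∀ c : ℂ, algebraMap ℂ K c ∈ V := fun c =>
    (V.valuation_le_one_iff _).1 (hV.complex_le c)
  have hstV : ∀ z ∈ Algebra.adjoin ℂ (Set.range fun j => algebraMap F K (f j)), z ∈ V := by
    refine adjoin_le_valuationSubring V hVC ?_
    rintro _ ⟨j, rfl⟩
    exact hfV j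
  obtain ⟨I, hI, hDI⟩ := S.exists_ideal' hN hcoord hV (hstV _ hs) (hstV _ ht) D₁
    (by rw [hD₁']; exact hx) (by rw [hD₁']; exact hy)
  obtain ⟨T, hTf, hT⟩ := S.adjoin_eq_top hcoord
  have halg4 : Algebra.IsAlgebraic
      (IntermediateField.adjoin ℂ ({algebraMap F K s₀, algebraMap F K t₀} : Set K)) K :=
    Algebra.IsAlgebraic.extendScalars
      (R := Algebra.adjoin ℂ ({algebraMap F K s₀, algebraMap F K t₀} : Set K))
      (FaithfulSMul.algebraMap_injective _ _)
  exact concl_of_charts2 K D₁ D₂ (algebraMap F K (xF F)) (algebraMap F K (yF F)) T hTf hT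
    (algebraMap F K s₀) (algebraMap F K t₀) (minor_ne_zero D₁ D₂ hminor0 _ _)
    (fun l => CK K (p l) (q l) (h l)) hle hinter
    (fun l => S.stable hN (hc l).isChart (hh l) (h0 l) (hp0 l) (H l) (hd l) D₁ (HG₁ l)
      (hD₁' _) (hD₁' _) (Nat.le_of_dvd hN (hdN l)) (hdR l) (by exact_mod_cast hdN l) (h1p l)
      (hi₁ l) (h1q l) (hj₁ l))
    (fun l => S.stable hN (hc l).isChart (hh l) (h0 l) (hp0 l) (H l) (hd l) D₂ (HG₂ l)
      (hD₂' _) (hD₂' _) (Nat.le_of_dvd hN (hdN l)) (hdR l) (by exact_mod_cast hdN l) (h2p l)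
      (hi₂ l) (h2q l) (hj₂ l))
    (fun l => algebraMap F K (b l) ^ n l) (fun l => algebraMap F K (p l))
    (fun l => algebraMap F K (q l)) π c₁ c₂ hn₀ hn₁ hn₂ hn₃
    (fun l => pow_ne_zero _ (by rw [Ne, map_eq_zero]; exact hb0 l))
    (fun l => by
      rw [← inv_pow, ← map_inv₀]
      exact Subalgebra.pow_mem _ (alg_mem_intClos (hbi l)) _) hc₁ hc₂ hm I hI hDI

end Final

end Crest.Agent.R278
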