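import Crest.Agent.R278.Plane2
import Crest.Agent.R278.ChartMap

/-!
Row 278 (S0421): regularity of the sections `Q / Theta ^ k` in the three types of charts.
-/

set_option autoImplicit false

namespace Crest.Agent.R278

open MvPolynomial

section Reg

variable {F : Type*} [Field F] [Algebra ℂ F] (x y : F)
variable {r : ℕ} (a : Fin r → ℂ) (S : Fin r → Finset ℂ) (T : P2) (D : ℕ) (M : Fin r → ℂ → ℕ)

/-- `h` of the affine chart `(x, y)` -/
noncomputable def hAff : F := aeval ![x, y] T * ∏ i, (x - algebraMap ℂ F (a i))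

/-- `h` of the chart at infinity `(1/x, y/x)` -/
noncomputable def hInf : F := aeval ![x, y] T / x ^ D * ∏ i, (1 - algebraMap ℂ F (a i) / x)

/-- `h` of the chart at the point `(i, b)` -/
noncomputable def hPt (i : Fin r) (b : ℂ) : F :=
  aeval ![x, y] T / (x - algebraMap ℂ F (a i)) ^ M i b *
    (∏ k ∈ Finset.univ.erase i, (x - algebraMap ℂ F (a k))) *
    ∏ b' ∈ (S i).erase b, (y - algebraMap ℂ F b')

variable {x y a S T D M}

theorem aeval_mem_polyRing (p q : F) (f : P2) : aeval ![p, q] f ∈ polyRing ℂ p q :=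
  (mem_polyRing_iff p q _).2 ⟨f, rfl⟩

theorem left_mem_polyRing (p q : F) : p ∈ polyRing ℂ p q := Algebra.subset_adjoin (Or.inl rfl)

theorem right_mem_polyRing (p q : F) : q ∈ polyRing ℂ p q := Algebra.subset_adjoin (Or.inr rfl)

theorem const_mem_polyRing (p q : F) (c : ℂ) : algebraMap ℂ F c ∈ polyRing ℂ p q :=
  Subalgebra.algebraMap_mem _ c

theorem RatCoord.aeval_ne {p q : F} (h : RatCoord ℂ F p q) {f : P2} (hf : f ≠ 0) :
    aeval ![p, q] f ≠ 0 := by
  intro h0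
  exact hf ((injective_iff_map_eq_zero _).mp h.ind _ h0)

theorem RatCoord.sub_ne {p q : F} (h : RatCoord ℂ F p q) (c : ℂ) :
    p - algebraMap ℂ F c ≠ 0 := by
  have h1 : (X 0 - C c : P2) ≠ 0 := by
    intro h0
    have h3 := congrArg (MvPolynomial.eval (fun _ : Fin 2 => c + 1)) h0
    simp at h3
  have h2 := h.aeval_ne h1
  rw [map_sub, aeval_X, aeval_C] at h2
  exact h2

theorem RatCoord.sub_ne' {p q : F} (h : RatCoord ℂ F p q) (c : ℂ) :
    q - algebraMap ℂ F c ≠ 0 := h.swap.sub_ne c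

theorem RatCoord.infty_inv {p q : F} (h : RatCoord ℂ F p q) :
    RatCoord ℂ F p⁻¹ (q / p) := by
  have := h.infty
  rwa [one_div] at this

/-! ### the affine chart -/

theorem hAff_mem : hAff x y a T ∈ polyRing ℂ x y := by
  unfold hAff
  refine mul_mem (aeval_mem_polyRing x y T) (prod_mem fun i _ => ?_)
  exact sub_mem (left_mem_polyRing x y) (const_mem_polyRing x y _)

theorem hAff_ne (h : RatCoord ℂ F x y) (hT : T ≠ 0) : hAff x y a T ≠ 0 :=
  mul_ne_zero (h.aeval_ne hT) (Finset.prod_ne_zero_iff.2 fun i _ => h.sub_ne (a i))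

theorem reg_aff (h : RatCoord ℂ F x y) (hT : T ≠ 0) (Q : P2) (k : ℕ) :
    aeval ![x, y] Q / aeval ![x, y] T ^ k ∈ chartRing ℂ x y (hAff x y a T) := by
  have hT' := h.aeval_ne hT
  have hP : (∏ i, (x - algebraMap ℂ F (a i))) ≠ 0 :=
    Finset.prod_ne_zero_iff.2 fun i _ => h.sub_ne (a i)
  have h1 : aeval ![x, y] Q / aeval ![x, y] T ^ k
      = aeval ![x, y] Q * (∏ i, (x - algebraMap ℂ F (a i))) ^ k * ((hAff x y a T)⁻¹) ^ k := by
    unfold hAff
    generalize (∏ i, (x - algebraMap ℂ F (a i))) = P at hP ⊢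
    rw [mul_inv, mul_pow, inv_pow, inv_pow]
    field_simp
  rw [h1]
  have hle := polyRing_le_chartRing (k := ℂ) x y (hAff x y a T)
  refine mul_mem (mul_mem (hle (aeval_mem_polyRing x y Q)) (pow_mem (hle ?_) k))
    (pow_mem (inv_mem_chartRing _ _ _) k)
  exact prod_mem fun i _ => sub_mem (left_mem_polyRing x y) (const_mem_polyRing x y _)

/-! ### the chart at infinity -/

theorem div_pow_mem_polyRing {Q : P2} {d : ℕ} (hx : x ≠ 0) (hQ : Q.totalDegree ≤ d) :
    aeval ![x, y] Q / x ^ d ∈ polyRing ℂ x⁻¹ (y / x) := by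
  rw [aeval_def, eval₂_eq', Finset.sum_div]
  refine sum_mem fun s hs => ?_
  have h1 := (le_totalDegree hs).trans hQ
  rw [degree_eq] at h1
  rw [Fin.prod_univ_two]
  simp only [Matrix.cons_val_zero, Matrix.cons_val_one]
  obtain ⟨e, he⟩ := Nat.exists_eq_add_of_le h1
  have h2 : algebraMap ℂ F (coeff s Q) * (x ^ s 0 * y ^ s 1) / x ^ d
      = algebraMap ℂ F (coeff s Q) * ((x⁻¹) ^ e * (y / x) ^ s 1) := by
    rw [he, div_pow, inv_pow, pow_add, pow_add]
    field_simp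
  rw [h2]
  exact mul_mem (const_mem_polyRing _ _ _) (mul_mem (pow_mem (left_mem_polyRing _ _) _)
    (pow_mem (right_mem_polyRing _ _) _))

theorem one_sub_div_mem (c : ℂ) : 1 - algebraMap ℂ F c / x ∈ polyRing ℂ x⁻¹ (y / x) := by
  rw [div_eq_mul_inv (algebraMap ℂ F c)]
  exact sub_mem (one_mem _) (mul_mem (const_mem_polyRing _ _ _) (left_mem_polyRing _ _))

theorem one_sub_div_ne (h : RatCoord ℂ F x y) (c : ℂ) : 1 - algebraMap ℂ F c / x ≠ 0 := by
  have hx := h.left_ne_zero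
  have h1 := h.sub_ne c
  intro h0
  apply h1
  have h2 : (1 - algebraMap ℂ F c / x) * x = x - algebraMap ℂ F c := by field_simp
  rw [← h2, h0, zero_mul]

theorem hInf_mem (hx : x ≠ 0) (hd : T.totalDegree ≤ D) :
    hInf x y a T D ∈ polyRing ℂ x⁻¹ (y / x) :=
  mul_mem (div_pow_mem_polyRing hx hd) (prod_mem fun i _ => one_sub_div_mem (a i))

theorem hInf_ne (h : RatCoord ℂ F x y) (hT : T ≠ 0) : hInf x y a T D ≠ 0 :=
  mul_ne_zero (div_ne_zero (h.aeval_ne hT) (pow_ne_zero _ h.left_ne_zero))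
    (Finset.prod_ne_zero_iff.2 fun i _ => one_sub_div_ne h (a i))

theorem reg_inf (h : RatCoord ℂ F x y) (hT : T ≠ 0) {Q : P2} {k : ℕ}
    (hQ : Q.totalDegree ≤ k * D) :
    aeval ![x, y] Q / aeval ![x, y] T ^ k ∈ chartRing ℂ x⁻¹ (y / x) (hInf x y a T D) := by
  have hT' := h.aeval_ne hT
  have hx := h.left_ne_zero
  have hP : (∏ i, (1 - algebraMap ℂ F (a i) / x)) ≠ 0 :=
    Finset.prod_ne_zero_iff.2 fun i _ => one_sub_div_ne h (a i)
  have h1 : aeval ![x, y] Q / aeval ![x, y] T ^ k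
      = (aeval ![x, y] Q / x ^ (k * D)) * (∏ i, (1 - algebraMap ℂ F (a i) / x)) ^ k *
        ((hInf x y a T D)⁻¹) ^ k := by
    unfold hInf
    rw [mul_comm k D, pow_mul]
    generalize (∏ i, (1 - algebraMap ℂ F (a i) / x)) = P at hP ⊢
    have hxD : x ^ D ≠ 0 := pow_ne_zero _ hx
    generalize x ^ D = X at hxD ⊢
    rw [mul_inv, mul_pow, inv_div, inv_pow, div_pow]
    field_simp
  rw [h1]
  have hle := polyRing_le_chartRing (k := ℂ) x⁻¹ (y / x) (hInf x y a T D)
  refine mul_mem (mul_mem (hle (div_pow_mem_polyRing hx hQ)) (pow_mem (hle ?_) k))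
    (pow_mem (inv_mem_chartRing _ _ _) k)
  exact prod_mem fun i _ => one_sub_div_mem (a i)

/-! ### the charts at the points -/

section Pt

variable (i : Fin r) {b : ℂ}

theorem pt_quot (h : RatCoord ℂ F x y) (b : ℂ) {Q : P2} {m : ℕ} (hQ : Q ∈ mI (a i) b ^ m) :
    aeval ![x, y] Q / (x - algebraMap ℂ F (a i)) ^ m ∈
      polyRing ℂ (x - algebraMap ℂ F (a i))
        ((y - algebraMap ℂ F b) / (x - algebraMap ℂ F (a i))) := by
  have hX := h.sub_ne (a i)
  obtain ⟨t, ht⟩ := bl_dvd hQ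
  rw [← ev_bl x y (a i) b hX, ht, map_mul, map_pow, aeval_X]
  simp only [Matrix.cons_val_zero]
  rw [mul_div_cancel_left₀ _ (pow_ne_zero _ hX)]
  exact aeval_mem_polyRing _ _ t

theorem pt_X (b : ℂ) (k : Fin r) : x - algebraMap ℂ F (a k) ∈
    polyRing ℂ (x - algebraMap ℂ F (a i))
      ((y - algebraMap ℂ F b) / (x - algebraMap ℂ F (a i))) := by
  have h1 : x - algebraMap ℂ F (a k)
      = (x - algebraMap ℂ F (a i)) + algebraMap ℂ F (a i - a k) := by
    rw [map_sub]; ring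
  rw [h1]
  exact add_mem (left_mem_polyRing _ _) (const_mem_polyRing _ _ _)

theorem pt_y (h : RatCoord ℂ F x y) (b b' : ℂ) : y - algebraMap ℂ F b' ∈
    polyRing ℂ (x - algebraMap ℂ F (a i))
      ((y - algebraMap ℂ F b) / (x - algebraMap ℂ F (a i))) := by
  have hX := h.sub_ne (a i)
  have h1 : y - algebraMap ℂ F b'
      = (x - algebraMap ℂ F (a i)) * ((y - algebraMap ℂ F b) / (x - algebraMap ℂ F (a i)))
        + algebraMap ℂ F (b - b') := by
    rw [map_sub, mul_div_cancel₀ _ hX]; ring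
  rw [h1]
  exact add_mem (mul_mem (left_mem_polyRing _ _) (right_mem_polyRing _ _))
    (const_mem_polyRing _ _ _)

theorem hPt_mem (h : RatCoord ℂ F x y) (hT : T ∈ mI (a i) b ^ M i b) :
    hPt x y a S T M i b ∈ polyRing ℂ (x - algebraMap ℂ F (a i))
      ((y - algebraMap ℂ F b) / (x - algebraMap ℂ F (a i))) :=
  mul_mem (mul_mem (pt_quot i h b hT) (prod_mem fun k _ => pt_X i b k))
    (prod_mem fun b' _ => pt_y i h b b')

theorem hPt_ne (h : RatCoord ℂ F x y) (hT : T ≠ 0) : hPt x y a S T M i b ≠ 0 :=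
  mul_ne_zero (mul_ne_zero (div_ne_zero (h.aeval_ne hT) (pow_ne_zero _ (h.sub_ne (a i))))
    (Finset.prod_ne_zero_iff.2 fun k _ => h.sub_ne (a k)))
    (Finset.prod_ne_zero_iff.2 fun b' _ => h.sub_ne' b')

theorem reg_pt (h : RatCoord ℂ F x y) (hT : T ≠ 0) {Q : P2} {k : ℕ}
    (hQ : Q ∈ mI (a i) b ^ (k * M i b)) :
    aeval ![x, y] Q / aeval ![x, y] T ^ k ∈
      chartRing ℂ (x - algebraMap ℂ F (a i))
        ((y - algebraMap ℂ F b) / (x - algebraMap ℂ F (a i))) (hPt x y a S T M i b) := by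
  have hT' := h.aeval_ne hT
  have hX := h.sub_ne (a i)
  have hP : (∏ k ∈ Finset.univ.erase i, (x - algebraMap ℂ F (a k))) ≠ 0 :=
    Finset.prod_ne_zero_iff.2 fun k _ => h.sub_ne (a k)
  have hR : (∏ b' ∈ (S i).erase b, (y - algebraMap ℂ F b')) ≠ 0 :=
    Finset.prod_ne_zero_iff.2 fun b' _ => h.sub_ne' b'
  have h1 : aeval ![x, y] Q / aeval ![x, y] T ^ k
      = (aeval ![x, y] Q / (x - algebraMap ℂ F (a i)) ^ (k * M i b)) *
        (∏ k ∈ Finset.univ.erase i, (x - algebraMap ℂ F (a k))) ^ k *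
        (∏ b' ∈ (S i).erase b, (y - algebraMap ℂ F b')) ^ k *
        ((hPt x y a S T M i b)⁻¹) ^ k := by
    unfold hPt
    rw [mul_comm k (M i b), pow_mul]
    generalize (∏ k ∈ Finset.univ.erase i, (x - algebraMap ℂ F (a k))) = P at hP ⊢
    generalize (∏ b' ∈ (S i).erase b, (y - algebraMap ℂ F b')) = R at hR ⊢
    have hXM : (x - algebraMap ℂ F (a i)) ^ M i b ≠ 0 := pow_ne_zero _ hX
    generalize (x - algebraMap ℂ F (a i)) ^ M i b = X at hXM ⊢
    rw [mul_inv, mul_pow, mul_inv, mul_pow, inv_div, inv_pow, inv_pow, div_pow]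
    field_simp
  rw [h1]
  have hle := polyRing_le_chartRing (k := ℂ) (x - algebraMap ℂ F (a i))
    ((y - algebraMap ℂ F b) / (x - algebraMap ℂ F (a i))) (hPt x y a S T M i b)
  refine mul_mem (mul_mem (mul_mem (hle (pt_quot i h b hQ)) (pow_mem (hle ?_) k))
    (pow_mem (hle ?_) k)) (pow_mem (inv_mem_chartRing _ _ _) k)
  · exact prod_mem fun k _ => pt_X i b k
  · exact prod_mem fun b' _ => pt_y i h b b'

end Pt

/-! ### units -/

theorem aff_inv_mem (h : RatCoord ℂ F x y) (hT : T ≠ 0) :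
    (aeval ![x, y] T)⁻¹ ∈ chartRing ℂ x y (hAff x y a T) := by
  have := reg_aff (a := a) h hT 1 1
  simpa using this

theorem aff_inv_X_mem (h : RatCoord ℂ F x y) (hT : T ≠ 0) (j : Fin r) :
    (x - algebraMap ℂ F (a j))⁻¹ ∈ chartRing ℂ x y (hAff x y a T) := by
  have hT' := h.aeval_ne hT
  have hX := h.sub_ne (a j)
  have hP : (∏ k ∈ Finset.univ.erase j, (x - algebraMap ℂ F (a k))) ≠ 0 :=
    Finset.prod_ne_zero_iff.2 fun k _ => h.sub_ne (a k)
  have h1 : (x - algebraMap ℂ F (a j))⁻¹ = aeval ![x, y] T *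
      (∏ k ∈ Finset.univ.erase j, (x - algebraMap ℂ F (a k))) * (hAff x y a T)⁻¹ := by
    unfold hAff
    rw [← Finset.mul_prod_erase Finset.univ _ (Finset.mem_univ j)]
    generalize (∏ k ∈ Finset.univ.erase j, (x - algebraMap ℂ F (a k))) = P at hP ⊢
    field_simp
  rw [h1]
  have hle := polyRing_le_chartRing (k := ℂ) x y (hAff x y a T)
  refine mul_mem (hle (mul_mem (aeval_mem_polyRing x y T) ?_)) (inv_mem_chartRing _ _ _)
  exact prod_mem fun i _ => sub_mem (left_mem_polyRing x y) (const_mem_polyRing x y _)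

theorem inf_inv_mem (h : RatCoord ℂ F x y) (hT : T ≠ 0) :
    (aeval ![x, y] T / x ^ D)⁻¹ ∈ chartRing ℂ x⁻¹ (y / x) (hInf x y a T D) := by
  have hT' := h.aeval_ne hT
  have hx := h.left_ne_zero
  have hP : (∏ i, (1 - algebraMap ℂ F (a i) / x)) ≠ 0 :=
    Finset.prod_ne_zero_iff.2 fun i _ => one_sub_div_ne h (a i)
  have h1 : (aeval ![x, y] T / x ^ D)⁻¹ = (∏ i, (1 - algebraMap ℂ F (a i) / x)) *
      (hInf x y a T D)⁻¹ := by
    unfold hInf
    generalize (∏ i, (1 - algebraMap ℂ F (a i) / x)) = P at hP ⊢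
    have hxD : x ^ D ≠ 0 := pow_ne_zero _ hx
    field_simp
  rw [h1]
  have hle := polyRing_le_chartRing (k := ℂ) x⁻¹ (y / x) (hInf x y a T D)
  exact mul_mem (hle (prod_mem fun i _ => one_sub_div_mem (a i))) (inv_mem_chartRing _ _ _)

theorem inf_inv_X_mem (h : RatCoord ℂ F x y) (hT : T ≠ 0) (hd : T.totalDegree ≤ D) (j : Fin r) :
    (1 - algebraMap ℂ F (a j) / x)⁻¹ ∈ chartRing ℂ x⁻¹ (y / x) (hInf x y a T D) := by
  have hT' := h.aeval_ne hT
  have hx := h.left_ne_zero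
  have hX := one_sub_div_ne h (a j)
  have hP : (∏ k ∈ Finset.univ.erase j, (1 - algebraMap ℂ F (a k) / x)) ≠ 0 :=
    Finset.prod_ne_zero_iff.2 fun i _ => one_sub_div_ne h (a i)
  have h1 : (1 - algebraMap ℂ F (a j) / x)⁻¹ = (aeval ![x, y] T / x ^ D) *
      (∏ k ∈ Finset.univ.erase j, (1 - algebraMap ℂ F (a k) / x)) * (hInf x y a T D)⁻¹ := by
    unfold hInf
    rw [← Finset.mul_prod_erase Finset.univ _ (Finset.mem_univ j)]
    generalize (∏ k ∈ Finset.univ.erase j, (1 - algebraMap ℂ F (a k) / x)) = P at hP ⊢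
    have hxD : x ^ D ≠ 0 := pow_ne_zero _ hx
    generalize (1 - algebraMap ℂ F (a j) / x) = X at hX ⊢
    generalize x ^ D = Z at hxD ⊢
    field_simp
  rw [h1]
  have hle := polyRing_le_chartRing (k := ℂ) x⁻¹ (y / x) (hInf x y a T D)
  refine mul_mem (hle (mul_mem (div_pow_mem_polyRing hx hd) ?_)) (inv_mem_chartRing _ _ _)
  exact prod_mem fun i _ => one_sub_div_mem (a i)

section PtUnits

variable (i : Fin r) {b : ℂ}

theorem pt_inv_mem (h : RatCoord ℂ F x y) (hT : T ≠ 0) :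
    (aeval ![x, y] T / (x - algebraMap ℂ F (a i)) ^ M i b)⁻¹ ∈
      chartRing ℂ (x - algebraMap ℂ F (a i))
        ((y - algebraMap ℂ F b) / (x - algebraMap ℂ F (a i))) (hPt x y a S T M i b) := by
  have hT' := h.aeval_ne hT
  have hX := h.sub_ne (a i)
  have hP : (∏ k ∈ Finset.univ.erase i, (x - algebraMap ℂ F (a k))) ≠ 0 :=
    Finset.prod_ne_zero_iff.2 fun k _ => h.sub_ne (a k)
  have hR : (∏ b' ∈ (S i).erase b, (y - algebraMap ℂ F b')) ≠ 0 :=
    Finset.prod_ne_zero_iff.2 fun b' _ => h.sub_ne' b'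
  have h1 : (aeval ![x, y] T / (x - algebraMap ℂ F (a i)) ^ M i b)⁻¹ =
      (∏ k ∈ Finset.univ.erase i, (x - algebraMap ℂ F (a k))) *
        (∏ b' ∈ (S i).erase b, (y - algebraMap ℂ F b')) * (hPt x y a S T M i b)⁻¹ := by
    unfold hPt
    generalize (∏ k ∈ Finset.univ.erase i, (x - algebraMap ℂ F (a k))) = P at hP ⊢
    generalize (∏ b' ∈ (S i).erase b, (y - algebraMap ℂ F b')) = R at hR ⊢
    have hXM : (x - algebraMap ℂ F (a i)) ^ M i b ≠ 0 := pow_ne_zero _ hX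
    generalize (x - algebraMap ℂ F (a i)) ^ M i b = X at hXM ⊢
    field_simp
  rw [h1]
  have hle := polyRing_le_chartRing (k := ℂ) (x - algebraMap ℂ F (a i))
    ((y - algebraMap ℂ F b) / (x - algebraMap ℂ F (a i))) (hPt x y a S T M i b)
  refine mul_mem (hle (mul_mem ?_ ?_)) (inv_mem_chartRing _ _ _)
  · exact prod_mem fun k _ => pt_X i b k
  · exact prod_mem fun b' _ => pt_y i h b b'

theorem pt_inv_X_mem (h : RatCoord ℂ F x y) (hT : T ∈ mI (a i) b ^ M i b) (hT0 : T ≠ 0)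
    {j : Fin r} (hj : j ≠ i) :
    (x - algebraMap ℂ F (a j))⁻¹ ∈
      chartRing ℂ (x - algebraMap ℂ F (a i))
        ((y - algebraMap ℂ F b) / (x - algebraMap ℂ F (a i))) (hPt x y a S T M i b) := by
  have hT' := h.aeval_ne hT0
  have hX := h.sub_ne (a i)
  have hXj := h.sub_ne (a j)
  have hP : (∏ k ∈ (Finset.univ.erase i).erase j, (x - algebraMap ℂ F (a k))) ≠ 0 :=
    Finset.prod_ne_zero_iff.2 fun k _ => h.sub_ne (a k)
  have hR : (∏ b' ∈ (S i).erase b, (y - algebraMap ℂ F b')) ≠ 0 :=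
    Finset.prod_ne_zero_iff.2 fun b' _ => h.sub_ne' b'
  have h1 : (x - algebraMap ℂ F (a j))⁻¹ =
      aeval ![x, y] T / (x - algebraMap ℂ F (a i)) ^ M i b *
      (∏ k ∈ (Finset.univ.erase i).erase j, (x - algebraMap ℂ F (a k))) *
        (∏ b' ∈ (S i).erase b, (y - algebraMap ℂ F b')) * (hPt x y a S T M i b)⁻¹ := by
    unfold hPt
    rw [← Finset.mul_prod_erase (Finset.univ.erase i) _
      (Finset.mem_erase.2 ⟨hj, Finset.mem_univ j⟩)]
    generalize (∏ k ∈ (Finset.univ.erase i).erase j, (x - algebraMap ℂ F (a k))) = P at hP ⊢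
    generalize (∏ b' ∈ (S i).erase b, (y - algebraMap ℂ F b')) = R at hR ⊢
    have hXM : (x - algebraMap ℂ F (a i)) ^ M i b ≠ 0 := pow_ne_zero _ hX
    generalize (x - algebraMap ℂ F (a i)) ^ M i b = X at hXM ⊢
    field_simp
  rw [h1]
  have hle := polyRing_le_chartRing (k := ℂ) (x - algebraMap ℂ F (a i))
    ((y - algebraMap ℂ F b) / (x - algebraMap ℂ F (a i))) (hPt x y a S T M i b)
  refine mul_mem (hle (mul_mem (mul_mem (pt_quot i h b hT) ?_) ?_)) (inv_mem_chartRing _ _ _)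
  · exact prod_mem fun k _ => pt_X i b k
  · exact prod_mem fun b' _ => pt_y i h b b'

theorem pt_inv_y_mem (h : RatCoord ℂ F x y) (hT : T ∈ mI (a i) b ^ M i b) (hT0 : T ≠ 0)
    {b' : ℂ} (hb' : b' ∈ (S i).erase b) :
    (y - algebraMap ℂ F b')⁻¹ ∈
      chartRing ℂ (x - algebraMap ℂ F (a i))
        ((y - algebraMap ℂ F b) / (x - algebraMap ℂ F (a i))) (hPt x y a S T M i b) := by
  classical
  have hT' := h.aeval_ne hT0
  have hX := h.sub_ne (a i)
  have hYj := h.sub_ne' b'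
  have hP : (∏ k ∈ Finset.univ.erase i, (x - algebraMap ℂ F (a k))) ≠ 0 :=
    Finset.prod_ne_zero_iff.2 fun k _ => h.sub_ne (a k)
  have hR : (∏ c ∈ ((S i).erase b).erase b', (y - algebraMap ℂ F c)) ≠ 0 :=
    Finset.prod_ne_zero_iff.2 fun b' _ => h.sub_ne' b'
  have h1 : (y - algebraMap ℂ F b')⁻¹ =
      aeval ![x, y] T / (x - algebraMap ℂ F (a i)) ^ M i b *
      (∏ k ∈ Finset.univ.erase i, (x - algebraMap ℂ F (a k))) *
        (∏ c ∈ ((S i).erase b).erase b', (y - algebraMap ℂ F c)) *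
        (hPt x y a S T M i b)⁻¹ := by
    unfold hPt
    rw [← Finset.mul_prod_erase ((S i).erase b) _ hb']
    generalize (∏ k ∈ Finset.univ.erase i, (x - algebraMap ℂ F (a k))) = P at hP ⊢
    generalize (∏ c ∈ ((S i).erase b).erase b', (y - algebraMap ℂ F c)) = R at hR ⊢
    have hXM : (x - algebraMap ℂ F (a i)) ^ M i b ≠ 0 := pow_ne_zero _ hX
    generalize (x - algebraMap ℂ F (a i)) ^ M i b = X at hXM ⊢
    field_simp
  rw [h1]
  have hle := polyRing_le_chartRing (k := ℂ) (x - algebraMap ℂ F (a i))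
    ((y - algebraMap ℂ F b) / (x - algebraMap ℂ F (a i))) (hPt x y a S T M i b)
  refine mul_mem (hle (mul_mem (mul_mem (pt_quot i h b hT) ?_) ?_)) (inv_mem_chartRing _ _ _)
  · exact prod_mem fun k _ => pt_X i b k
  · exact prod_mem fun c _ => pt_y i h b c

end PtUnits

end Reg

end Crest.Agent.R278
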