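import Crest.Agent.R278.Plane2Mult
import Crest.Agent.R278.Plane2Reg

/-!
Row 278 (S0421): the inverse of a multiplier is regular on its chart.
-/

set_option autoImplicit false

namespace Crest.Agent.R278

open MvPolynomial

namespace Plane2

variable (P : Plane2) {F : Type} [Field F] [Algebra ℂ F] {x y : F}

theorem mlt_inv_mem_aff (h : RatCoord ℂ F x y) : (P.mlt x y (Sum.inl 0))⁻¹ ∈
    chartRing ℂ (P.cp x (Sum.inl 0)) (P.cq x y (Sum.inl 0)) (P.ch x y (Sum.inl 0)) := by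
  have hT := P.good.ne_zero
  have hX : ∀ i, (P.X x i)⁻¹ ∈ chartRing ℂ x y (hAff x y P.a P.Θ) :=
    fun i => aff_inv_X_mem h hT i
  have hth : P.th x y ∈ chartRing ℂ x y (hAff x y P.a P.Θ) :=
    polyRing_le_chartRing _ _ _ (aeval_mem_polyRing x y P.Θ)
  change ((P.Pμ x / P.th x y) ^ P.kk * ∏ i, P.X x i)⁻¹ ∈
    chartRing ℂ x y (hAff x y P.a P.Θ)
  have h1 : ((P.Pμ x / P.th x y) ^ P.kk * ∏ i, P.X x i)⁻¹ =
      (P.th x y * ∏ i, (P.X x i)⁻¹ ^ P.μ i) ^ P.kk * ∏ i, (P.X x i)⁻¹ := by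
    rw [mul_inv, ← inv_pow, inv_div, div_eq_mul_inv, Pμ, ← Finset.prod_inv_distrib,
      ← Finset.prod_inv_distrib]
    simp only [inv_pow]
  rw [h1]
  exact mul_mem (pow_mem (mul_mem hth (prod_mem fun i _ => pow_mem (hX i) _)) _)
    (prod_mem fun i _ => hX i)

theorem mlt_inv_mem_inf (h : RatCoord ℂ F x y) : (P.mlt x y (Sum.inl 1))⁻¹ ∈
    chartRing ℂ (P.cp x (Sum.inl 1)) (P.cq x y (Sum.inl 1)) (P.ch x y (Sum.inl 1)) := by
  have hT := P.good.ne_zero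
  have hx := h.left_ne_zero
  have hX : ∀ i, (1 - algebraMap ℂ F (P.a i) / x)⁻¹ ∈
      chartRing ℂ x⁻¹ (y / x) (hInf x y P.a P.Θ P.D) :=
    fun i => inf_inv_X_mem h hT P.good.deg i
  have hth : P.th x y / x ^ P.D ∈ chartRing ℂ x⁻¹ (y / x) (hInf x y P.a P.Θ P.D) :=
    polyRing_le_chartRing _ _ _ (div_pow_mem_polyRing hx P.good.deg)
  change ((P.Pμ x * x ^ P.n / P.th x y) ^ P.kk * ((∏ i, P.X x i) / x ^ P.r))⁻¹ ∈
    chartRing ℂ x⁻¹ (y / x) (hInf x y P.a P.Θ P.D)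
  have e1 : ∀ i, P.X x i = x * (1 - algebraMap ℂ F (P.a i) / x) := by
    intro i
    rw [X]; field_simp
  have e2 : P.Pμ x * x ^ P.n = x ^ P.D * ∏ i, (1 - algebraMap ℂ F (P.a i) / x) ^ P.μ i := by
    have h4 : P.D = ∑ i, P.μ i + P.n := by
      have := P.hμD
      rw [n]; omega
    rw [Pμ, h4, pow_add, ← Finset.prod_pow_eq_pow_sum, mul_right_comm,
      ← Finset.prod_mul_distrib]
    congr 1
    refine Finset.prod_congr rfl fun i _ => ?_
    rw [e1, mul_pow]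
  have e3 : (∏ i, P.X x i) / x ^ P.r = ∏ i, (1 - algebraMap ℂ F (P.a i) / x) := by
    have h5 : x ^ P.r = ∏ _i : Fin P.r, x := by simp
    rw [h5, ← Finset.prod_div_distrib]
    refine Finset.prod_congr rfl fun i _ => ?_
    rw [e1]; field_simp
  have hth0 : P.th x y ≠ 0 := h.aeval_ne hT
  have h1 : ((P.Pμ x * x ^ P.n / P.th x y) ^ P.kk * ((∏ i, P.X x i) / x ^ P.r))⁻¹ =
      ((P.th x y / x ^ P.D) * ∏ i, (1 - algebraMap ℂ F (P.a i) / x)⁻¹ ^ P.μ i) ^ P.kk *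
        ∏ i, (1 - algebraMap ℂ F (P.a i) / x)⁻¹ := by
    rw [e2, e3, mul_inv, ← inv_pow, inv_div, Finset.prod_inv_distrib]
    congr 2
    simp only [inv_pow]
    rw [Finset.prod_inv_distrib, div_mul_eq_div_div, div_eq_mul_inv (P.th x y / x ^ P.D)]
  rw [h1]
  exact mul_mem (pow_mem (mul_mem hth (prod_mem fun i _ => pow_mem (hX i) _)) _)
    (prod_mem fun i _ => hX i)

theorem mlt_inv_mem_pt (h : RatCoord ℂ F x y) (p : P.Pt) : (P.mlt x y (Sum.inr p))⁻¹ ∈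
    chartRing ℂ (P.cp x (Sum.inr p)) (P.cq x y (Sum.inr p)) (P.ch x y (Sum.inr p)) := by
  obtain ⟨i, b, hb⟩ := p
  have hT := P.good.ne_zero
  have hTm := P.good.mult i b hb
  change ((P.Nn x y i b / P.th x y) ^ P.kk *
      (∏ b' ∈ (P.S i).erase b, (y - algebraMap ℂ F b')) *
      ∏ k ∈ Finset.univ.erase i, P.X x k)⁻¹ ∈
    chartRing ℂ (x - algebraMap ℂ F (P.a i))
      ((y - algebraMap ℂ F b) / (x - algebraMap ℂ F (P.a i))) (hPt x y P.a P.S P.Θ P.M i b)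
  have hX : ∀ k ∈ Finset.univ.erase i, (P.X x k)⁻¹ ∈
      chartRing ℂ (x - algebraMap ℂ F (P.a i))
      ((y - algebraMap ℂ F b) / (x - algebraMap ℂ F (P.a i))) (hPt x y P.a P.S P.Θ P.M i b) :=
    fun k hk => pt_inv_X_mem i h hTm hT (Finset.ne_of_mem_erase hk)
  have hY : ∀ b' ∈ (P.S i).erase b, (y - algebraMap ℂ F b')⁻¹ ∈
      chartRing ℂ (x - algebraMap ℂ F (P.a i))
      ((y - algebraMap ℂ F b) / (x - algebraMap ℂ F (P.a i))) (hPt x y P.a P.S P.Θ P.M i b) :=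
    fun b' hb' => pt_inv_y_mem i h hTm hT hb'
  have hth : P.th x y / P.X x i ^ P.M i b ∈ chartRing ℂ (x - algebraMap ℂ F (P.a i))
      ((y - algebraMap ℂ F b) / (x - algebraMap ℂ F (P.a i))) (hPt x y P.a P.S P.Θ P.M i b) :=
    polyRing_le_chartRing _ _ _ (pt_quot i h b hTm)
  have h1 : ((P.Nn x y i b / P.th x y) ^ P.kk *
      (∏ b' ∈ (P.S i).erase b, (y - algebraMap ℂ F b')) *
      ∏ k ∈ Finset.univ.erase i, P.X x k)⁻¹ =
      ((P.th x y / P.X x i ^ P.M i b) *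
        (∏ b' ∈ (P.S i).erase b, (y - algebraMap ℂ F b')⁻¹ ^ (P.M i b' - P.M i b)) *
        ∏ k ∈ Finset.univ.erase i, (P.X x k)⁻¹ ^ P.μ k) ^ P.kk *
      (∏ b' ∈ (P.S i).erase b, (y - algebraMap ℂ F b')⁻¹) *
      ∏ k ∈ Finset.univ.erase i, (P.X x k)⁻¹ := by
    rw [mul_inv, mul_inv, ← inv_pow, inv_div, Finset.prod_inv_distrib, Finset.prod_inv_distrib]
    congr 3
    simp only [inv_pow]
    rw [Finset.prod_inv_distrib, Finset.prod_inv_distrib, Nn, div_mul_eq_div_div,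
      div_mul_eq_div_div, div_eq_mul_inv (_ / _) (∏ b' ∈ (P.S i).erase b, _),
      div_eq_mul_inv (_ * _) (∏ k ∈ Finset.univ.erase i, _)]
  rw [h1]
  exact mul_mem (mul_mem (pow_mem (mul_mem (mul_mem hth
    (prod_mem fun b' hb' => pow_mem (hY b' hb') _)) (prod_mem fun k hk => pow_mem (hX k hk) _)) _)
    (prod_mem fun b' hb' => hY b' hb')) (prod_mem fun k hk => hX k hk)

theorem mlt_inv_mem' (h : RatCoord ℂ F x y) (l : P.L) : (P.mlt x y l)⁻¹ ∈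
    chartRing ℂ (P.cp x l) (P.cq x y l) (P.ch x y l) := by
  match l with
  | Sum.inl 0 => exact P.mlt_inv_mem_aff h
  | Sum.inl 1 => exact P.mlt_inv_mem_inf h
  | Sum.inr p => exact P.mlt_inv_mem_pt h p

end Plane2

end Crest.Agent.R278
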