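import Crest.Agent.R278.Plane2Cover
import Crest.Agent.R278.PointChart

/-!
Row 278 (S0421): the sections generate `F` (`hgen`), and the conditions at the curve `E`
(valuation rings with `IsVE V x y`), `hE`.
-/

set_option autoImplicit false

namespace Crest.Agent.R278

open MvPolynomial

section E

variable {K : Type} [Field K] [Algebra ℂ K] {V : ValuationSubring K} {x y : K}

theorem IsVE.val_x (h : IsVE V x y) : V.valuation x = 1 := by
  have := h.const Polynomial.X Polynomial.X_ne_zero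
  rwa [Polynomial.aeval_X] at this

theorem IsVE.val_x_sub (h : IsVE V x y) (c : ℂ) : V.valuation (x - algebraMap ℂ K c) = 1 := by
  have := h.const (Polynomial.X - Polynomial.C c) (Polynomial.X_sub_C_ne_zero c)
  rwa [map_sub, Polynomial.aeval_X, Polynomial.aeval_C] at this

theorem IsVE.hV (h : IsVE V x y) (c : ℂ) : algebraMap ℂ K c ∈ V :=
  (V.valuation_le_one_iff _).1 (h.complex_le c)

theorem IsVE.val_y_sub_le (h : IsVE V x y) (c : ℂ) :
    V.valuation (y - algebraMap ℂ K c) ≤ V.valuation y :=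
  (V.valuation.map_sub _ _).trans (max_le le_rfl ((h.complex_le c).trans h.pole.le))

/-- the upper bound by the `y`-degree. -/
theorem IsVE.aeval_le (h : IsVE V x y) {f : P2} {n : ℕ} (hf : f.degreeOf 1 ≤ n) :
    V.valuation (aeval ![x, y] f) ≤ V.valuation y ^ n := by
  rw [aeval_def, eval₂_eq']
  refine Valuation.map_sum_le _ ?_
  intro d hd
  rw [map_mul, Fin.prod_univ_two, map_mul, map_pow, map_pow]
  have h5 : V.valuation ((![x, y] : Fin 2 → K) 0) = 1 := h.val_x
  have h6 : V.valuation ((![x, y] : Fin 2 → K) 1) = V.valuation y := rfl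
  rw [h5, h6, one_pow, one_mul]
  have h2 : d 1 ≤ n := by
    rw [degreeOf_le_iff] at hf
    exact hf d hd
  calc V.valuation (algebraMap ℂ K (coeff d f)) * V.valuation y ^ d 1
      ≤ 1 * V.valuation y ^ d 1 := by
        gcongr
        exact h.complex_le _
    _ = V.valuation y ^ d 1 := one_mul _
    _ ≤ _ := h.pow_le h2

/-- the exact value when the `y ^ d` coefficient does not vanish. -/
theorem IsVE.aeval_eq (h : IsVE V x y) {f : P2} {d : ℕ} (hd : f.totalDegree ≤ d)
    (hc : coeff (Finsupp.single 1 d) f ≠ 0) :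
    V.valuation (aeval ![x, y] f) = V.valuation y ^ d := by
  have h0 := val_aeval_eq_of_dominant V h.hV x y f (Finsupp.single 1 d) hc
    (by rw [h.val_x, one_pow, one_mul]; exact h.pow_ne _) ?_
  · rw [h0, h.val_x, one_pow, one_mul]; simp
  · intro s hs hne
    rw [h.val_x, one_pow, one_mul, one_pow, one_mul]
    have h3 := (le_totalDegree hs).trans hd
    rw [degree_eq] at h3
    refine h.pow_lt ?_
    rw [Finsupp.single_eq_same]
    rcases Nat.lt_or_ge (s 1) d with h5 | h5
    · exact h5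
    · exfalso
      apply hne
      ext i
      fin_cases i
      · simp; omega
      · simp; omega

end E

namespace Plane2

variable (P : Plane2)

section E

variable {K : Type} [Field K] [Algebra ℂ K] {V : ValuationSubring K} {x y : K}

theorem num_le_E (h : IsVE V x y) (j : P.J) :
    V.valuation (P.num x y j) ≤ V.valuation y ^ P.D := by
  have hX : ∀ i, V.valuation (P.X x i) = 1 := fun i => h.val_x_sub _
  have hPμ : V.valuation (P.Pμ x) = 1 := by
    rw [val_Pμ]
    exact Finset.prod_eq_one fun i _ => by rw [hX, one_pow]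
  have h1 : (1 : V.ValueGroup) ≤ V.valuation y ^ P.D := one_le_pow_of_one_le' h.pole.le _
  match j with
  | Sum.inl 0 => exact hPμ.trans_le h1
  | Sum.inl 1 =>
    change V.valuation (P.Pμ x * x ^ P.n) ≤ _
    rw [map_mul, map_pow, hPμ, h.val_x, one_pow, one_mul]
    exact h1
  | Sum.inl 2 =>
    change V.valuation (P.Pμ x * x) ≤ _
    rw [map_mul, hPμ, h.val_x, one_mul]
    exact h1
  | Sum.inl 3 =>
    change V.valuation (P.Pμ x * y) ≤ _
    rw [map_mul, hPμ, one_mul]
    have h2 := h.pow_le (m := 1) (n := P.D) (by have := P.hμD; omega)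
    rwa [pow_one] at h2
  | Sum.inr ⟨i, b, hb⟩ =>
    change V.valuation (P.Nn x y i b) ≤ _
    unfold Nn
    have h2 : V.valuation (∏ k ∈ Finset.univ.erase i, P.X x k ^ P.μ k) = 1 := by
      rw [map_prod]
      exact Finset.prod_eq_one fun k _ => by rw [map_pow, hX, one_pow]
    rw [map_mul, map_mul, map_pow, hX, one_pow, one_mul, h2, mul_one, map_prod]
    calc ∏ b' ∈ (P.S i).erase b, V.valuation ((y - algebraMap ℂ K b') ^ (P.M i b' - P.M i b))
        ≤ ∏ b' ∈ (P.S i).erase b, V.valuation y ^ (P.M i b' - P.M i b) := by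
          refine Finset.prod_le_prod' fun b' _ => ?_
          rw [map_pow]
          exact pow_le_pow_left₀ zero_le (h.val_y_sub_le _) _
      _ = V.valuation y ^ (∑ b' ∈ (P.S i).erase b, (P.M i b' - P.M i b)) :=
          Finset.prod_pow_eq_pow_sum _ _ _
      _ ≤ _ := h.pow_le (by have := P.hN i b hb; omega)

/-- **the sections lie in the valuation rings at `E`.** -/
theorem sec_mem_E (h : IsVE V x y) (j : P.J) : P.sec x y j ∈ V := by
  have hth : V.valuation (P.th x y) = V.valuation y ^ P.D :=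
    h.aeval_eq P.good.deg P.good.lead
  rw [← V.valuation_le_one_iff, sec, map_div₀, hth,
    div_le_one₀ (zero_lt_iff.2 (h.pow_ne _))]
  exact P.num_le_E h j

end E

section Gen

variable {K : Type} [Field K] [Algebra ℂ K] {x y : K}

/-- **the sections generate the field.** -/
theorem adjoin_sec (hc : RatCoord ℂ K x y) :
    IntermediateField.adjoin ℂ (Set.range (P.sec x y)) = ⊤ := by
  set E := IntermediateField.adjoin ℂ (Set.range (P.sec x y)) with hE
  have hth : P.th x y ≠ 0 := by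
    intro h0
    refine P.good.ne_zero (hc.injective ?_)
    rw [map_zero]
    exact h0
  have hX : ∀ i, P.X x i ≠ 0 := by
    intro i h0
    have h1 : (MvPolynomial.X 0 - MvPolynomial.C (P.a i) : P2) = 0 := by
      refine hc.injective ?_
      rw [map_zero, map_sub, aeval_X, aeval_C]
      exact h0
    have h2 := congrArg (MvPolynomial.eval (fun _ => P.a i + 1)) h1
    simp at h2
  have hPμ : P.Pμ x ≠ 0 := Finset.prod_ne_zero_iff.2 fun i _ => pow_ne_zero _ (hX i)
  have hmem : ∀ j, P.sec x y j ∈ E := fun j =>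
    IntermediateField.subset_adjoin _ _ ⟨j, rfl⟩
  have hx : x ∈ E := by
    have h1 : x = P.sec x y (Sum.inl 2) / P.sec x y (Sum.inl 0) := by
      have e1 : P.sec x y (Sum.inl 2) = P.Pμ x * x / P.th x y := rfl
      have e2 : P.sec x y (Sum.inl 0) = P.Pμ x / P.th x y := rfl
      rw [e1, e2]
      field_simp
    rw [h1]
    exact div_mem (hmem _) (hmem _)
  have hy : y ∈ E := by
    have h1 : y = P.sec x y (Sum.inl 3) / P.sec x y (Sum.inl 0) := by
      have e1 : P.sec x y (Sum.inl 3) = P.Pμ x * y / P.th x y := rfl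
      have e2 : P.sec x y (Sum.inl 0) = P.Pμ x / P.th x y := rfl
      rw [e1, e2]
      field_simp
    rw [h1]
    exact div_mem (hmem _) (hmem _)
  rw [eq_top_iff, ← hc.top, IntermediateField.adjoin_le_iff]
  rintro z (rfl | hz)
  · exact hx
  · rw [Set.mem_singleton_iff] at hz
    rw [hz]; exact hy

end Gen

end Plane2

namespace VFData

variable (S : VFData)
variable (F : Type) [Field F] [Algebra ℂ F] [Algebra (MvPolynomial (Fin 2) ℂ) F]
  [IsScalarTower ℂ (MvPolynomial (Fin 2) ℂ) F] [IsFractionRing (MvPolynomial (Fin 2) ℂ) F]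

omit [IsFractionRing (MvPolynomial (Fin 2) ℂ) F] in
theorem φF_eq_aeval' (f : MvPolynomial (Fin 2) ℂ) : φF F f = aeval ![xF F, yF F] f := by
  have h1 : (aeval ![xF F, yF F] : MvPolynomial (Fin 2) ℂ →ₐ[ℂ] F) =
      IsScalarTower.toAlgHom ℂ (MvPolynomial (Fin 2) ℂ) F := by
    apply MvPolynomial.algHom_ext
    intro i
    fin_cases i
    · simp
    · simp
  rw [h1]; rfl

/-- **the conditions at `E`** for `V₁`. -/
theorem cond_E {N da db d₁ de : ℕ} (hα : S.α₁.degreeOf 1 ≤ da) (hβ : S.β₁.degreeOf 1 ≤ db)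
    (hw : S.w₁.totalDegree ≤ d₁) (hw' : coeff (Finsupp.single 1 d₁) S.w₁ ≠ 0)
    (he : S.ell.totalDegree ≤ de) (he' : coeff (Finsupp.single 1 de) S.ell ≠ 0)
    (h1 : N * da < N * de + d₁) (h2 : N * db < N * de + d₁ + N)
    {V : ValuationSubring F} (hV : IsVE V (xF F) (yF F)) :
    V.valuation ((S.R F * S.V₁ F (xF F)) ^ N * S.W₁ F) < 1 ∧
      V.valuation ((S.R F * S.V₁ F (yF F)) ^ N * S.W₁ F) < V.valuation (yF F) ^ N := by
  set v := V.valuation (yF F) with hv
  have hvp : ∀ n, 0 < v ^ n := fun n => zero_lt_iff.2 (hV.pow_ne n)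
  have hP : V.valuation (S.P F) = 1 := by
    rw [P, map_prod]
    exact Finset.prod_eq_one fun i _ => hV.val_x_sub _
  have hW : V.valuation (S.W₁ F) = (v ^ d₁)⁻¹ := by
    rw [W₁, map_div₀, hP, one_div, φF_eq_aeval', hV.aeval_eq hw hw']
  have hR : V.valuation (S.R F) = (v ^ de)⁻¹ := by
    rw [R, map_inv₀, φF_eq_aeval', hV.aeval_eq he he']
  have key : ∀ (f : MvPolynomial (Fin 2) ℂ) (n : ℕ), f.degreeOf 1 ≤ n →
      V.valuation ((S.R F * φF F f) ^ N * S.W₁ F) ≤ v ^ (N * n) * (v ^ (N * de + d₁))⁻¹ := by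
    intro f n hf
    rw [map_mul, map_pow, map_mul, hR, hW, φF_eq_aeval']
    have h3 := hV.aeval_le hf
    calc ((v ^ de)⁻¹ * V.valuation (aeval ![xF F, yF F] f)) ^ N * (v ^ d₁)⁻¹
        ≤ ((v ^ de)⁻¹ * v ^ n) ^ N * (v ^ d₁)⁻¹ := by
          gcongr
      _ = v ^ (N * n) * (v ^ (N * de + d₁))⁻¹ := by
          rw [mul_pow, inv_pow, ← pow_mul, ← pow_mul, pow_add, mul_inv, mul_comm de N,
            mul_comm n N, mul_comm ((v ^ (N * de))⁻¹), mul_assoc]
  constructor
  · rw [V₁_x]
    refine (key _ _ hα).trans_lt ?_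
    rw [mul_inv_lt_iff₀ (hvp _), one_mul]
    exact hV.pow_lt h1
  · rw [V₁_y]
    refine (key _ _ hβ).trans_lt ?_
    rw [mul_inv_lt_iff₀ (hvp _), ← pow_add]
    exact hV.pow_lt (by omega)

/-- The hypothesis `hE` of `concl_of_chartData`, with the sections of `P : Plane2`. -/
theorem hE_of (P : Plane2) {N da db d₁ de : ℕ} (hα : S.α₁.degreeOf 1 ≤ da)
    (hβ : S.β₁.degreeOf 1 ≤ db)
    (hw : S.w₁.totalDegree ≤ d₁) (hw' : coeff (Finsupp.single 1 d₁) S.w₁ ≠ 0)
    (he : S.ell.totalDegree ≤ de) (he' : coeff (Finsupp.single 1 de) S.ell ≠ 0)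
    (h1 : N * da < N * de + d₁) (h2 : N * db < N * de + d₁ + N) :
    ∀ V : ValuationSubring F, IsVE V (xF F) (yF F) →
      (∀ j, P.sec (xF F) (yF F) j ∈ V) ∧
      V.valuation ((S.R F * S.V₁ F (xF F)) ^ N * S.W₁ F) < 1 ∧
      V.valuation ((S.R F * S.V₁ F (yF F)) ^ N * S.W₁ F) < V.valuation (yF F) ^ N :=
  fun _ hV => ⟨fun j => P.sec_mem_E hV j, S.cond_E F hα hβ hw hw' he he' h1 h2 hV⟩

end VFData

/-- The hypothesis `hgen` of `concl_of_chartData`, with the sections of `P : Plane2`. -/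
theorem Plane2.hgen (P : Plane2) (F : Type) [Field F] [Algebra ℂ F]
    [Algebra (MvPolynomial (Fin 2) ℂ) F] [IsScalarTower ℂ (MvPolynomial (Fin 2) ℂ) F]
    [IsFractionRing (MvPolynomial (Fin 2) ℂ) F] :
    IntermediateField.adjoin ℂ (Set.range (P.sec (xF F) (yF F))) = ⊤ :=
  P.adjoin_sec RatCoord.coord

end Crest.Agent.R278
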