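import Mathlib
import Crest.Agent.R278.Classify
import Crest.Agent.R278.ChartRing

set_option autoImplicit false

/-!
Row 278 (S0421): plane data with individual multiplicities; local expansions at the points.
-/

namespace Crest.Agent.R278

open MvPolynomial

section Sub

/-- the maximal ideal of the point `(a,b)` -/
noncomputable def mI (a b : ℂ) : Ideal P2 := Ideal.span {X 0 - C a, X 1 - C b}

/-- translation -/
noncomputable def tl (a b : ℂ) : P2 →ₐ[ℂ] P2 := aeval ![C a + X 0, C b + X 1]

/-- blow-up substitution -/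
noncomputable def bl (a b : ℂ) : P2 →ₐ[ℂ] P2 := aeval ![C a + X 0, C b + X 0 * X 1]

/-- restriction to the arm `x = a` -/
noncomputable def rs (a : ℂ) : P2 →ₐ[ℂ] Polynomial ℂ := aeval ![Polynomial.C a, Polynomial.X]

theorem ev_tl {K : Type*} [Field K] [Algebra ℂ K] (x y : K) (a b : ℂ) (f : P2) :
    aeval ![x - algebraMap ℂ K a, y - algebraMap ℂ K b] (tl a b f) = aeval ![x, y] f := by
  rw [tl, ← AlgHom.comp_apply]
  congr 1
  apply MvPolynomial.algHom_ext
  intro i
  fin_cases i
  · simp [← algebraMap_eq]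
  · simp [← algebraMap_eq]

theorem ev_bl {K : Type*} [Field K] [Algebra ℂ K] (x y : K) (a b : ℂ)
    (hx : x - algebraMap ℂ K a ≠ 0) (f : P2) :
    aeval ![x - algebraMap ℂ K a, (y - algebraMap ℂ K b) / (x - algebraMap ℂ K a)] (bl a b f) =
      aeval ![x, y] f := by
  rw [bl, ← AlgHom.comp_apply]
  congr 1
  apply MvPolynomial.algHom_ext
  intro i
  fin_cases i
  · simp [← algebraMap_eq]
  · simp [← algebraMap_eq, mul_div_cancel₀ _ hx]

theorem tl_mem {a b : ℂ} {m : ℕ} {f : P2} (hf : f ∈ mI a b ^ m) :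
    tl a b f ∈ idealOfVars (Fin 2) ℂ ^ m := by
  have h1 : (mI a b).map (tl a b : P2 →+* P2) ≤ idealOfVars (Fin 2) ℂ := by
    rw [mI, Ideal.map_span, Ideal.span_le]
    rintro z ⟨w, hw, rfl⟩
    have h0 : ∀ i, (X i : P2) ∈ idealOfVars (Fin 2) ℂ := fun i => Ideal.subset_span ⟨i, rfl⟩
    rcases hw with rfl | hw
    · have : (tl a b : P2 →+* P2) (X 0 - C a) = X 0 := by
        simp [tl, ← algebraMap_eq]
      rw [this]; exact h0 0
    · rw [Set.mem_singleton_iff] at hw
      subst hw
      have : (tl a b : P2 →+* P2) (X 1 - C b) = X 1 := by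
        simp [tl, ← algebraMap_eq]
      rw [this]; exact h0 1
  have h2 : (tl a b : P2 →+* P2) f ∈ (mI a b ^ m).map (tl a b : P2 →+* P2) :=
    Ideal.mem_map_of_mem _ hf
  rw [Ideal.map_pow] at h2
  exact Ideal.pow_right_mono h1 m h2

theorem bl_dvd {a b : ℂ} {m : ℕ} {f : P2} (hf : f ∈ mI a b ^ m) :
    (X 0 : P2) ^ m ∣ bl a b f := by
  have h1 : (mI a b).map (bl a b : P2 →+* P2) ≤ Ideal.span {X 0} := by
    rw [mI, Ideal.map_span, Ideal.span_le]
    rintro z ⟨w, hw, rfl⟩
    rcases hw with rfl | hw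
    · have : (bl a b : P2 →+* P2) (X 0 - C a) = X 0 := by
        simp [bl, ← algebraMap_eq]
      rw [this]; exact Ideal.subset_span rfl
    · rw [Set.mem_singleton_iff] at hw
      subst hw
      have : (bl a b : P2 →+* P2) (X 1 - C b) = X 0 * X 1 := by
        simp [bl, ← algebraMap_eq]
      rw [this]; exact Ideal.mul_mem_right _ _ (Ideal.subset_span rfl)
  have h2 : (bl a b : P2 →+* P2) f ∈ (mI a b ^ m).map (bl a b : P2 →+* P2) :=
    Ideal.mem_map_of_mem _ hf
  rw [Ideal.map_pow] at h2
  have h3 := Ideal.pow_right_mono h1 m h2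
  rw [Ideal.span_singleton_pow, Ideal.mem_span_singleton] at h3
  exact h3

theorem rs_dvd {a b : ℂ} {m : ℕ} {f : P2} (hf : f ∈ mI a b ^ m) :
    (Polynomial.X - Polynomial.C b) ^ m ∣ rs a f := by
  have h1 : (mI a b).map (rs a : P2 →+* Polynomial ℂ) ≤
      Ideal.span {Polynomial.X - Polynomial.C b} := by
    rw [mI, Ideal.map_span, Ideal.span_le]
    rintro z ⟨w, hw, rfl⟩
    rcases hw with rfl | hw
    · have : (rs a : P2 →+* Polynomial ℂ) (X 0 - C a) = 0 := by
        simp [rs, ← algebraMap_eq]
      rw [this]; exact Ideal.zero_mem _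
    · rw [Set.mem_singleton_iff] at hw
      subst hw
      have : (rs a : P2 →+* Polynomial ℂ) (X 1 - C b) = Polynomial.X - Polynomial.C b := by
        simp [rs, ← algebraMap_eq]
      rw [this]; exact Ideal.subset_span rfl
  have h2 : (rs a : P2 →+* Polynomial ℂ) f ∈ (mI a b ^ m).map (rs a : P2 →+* Polynomial ℂ) :=
    Ideal.mem_map_of_mem _ hf
  rw [Ideal.map_pow] at h2
  have h3 := Ideal.pow_right_mono h1 m h2
  rw [Ideal.span_singleton_pow, Ideal.mem_span_singleton] at h3
  exact h3

theorem rs_eq_sum (a : ℂ) (f : P2) : rs a f =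
    ∑ s ∈ f.support, Polynomial.C (coeff s f * a ^ s 0) * Polynomial.X ^ s 1 := by
  rw [rs, aeval_def, eval₂_eq']
  refine Finset.sum_congr rfl fun s _ => ?_
  rw [Fin.prod_univ_two, map_mul, map_pow]
  simp only [Matrix.cons_val_zero, Matrix.cons_val_one]
  rw [mul_assoc]
  rfl

theorem rs_coeff_top {a : ℂ} {f : P2} {d : ℕ} (hd : f.totalDegree ≤ d) :
    (rs a f).coeff d = coeff (Finsupp.single 1 d) f := by
  classical
  rw [rs_eq_sum, Polynomial.finsetSum_coeff]
  simp only [Polynomial.coeff_C_mul, Polynomial.coeff_X_pow]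
  rw [Finset.sum_eq_single (Finsupp.single 1 d)]
  · simp
  · intro s hs hne
    have h3 := (le_totalDegree hs).trans hd
    rw [degree_eq] at h3
    rw [if_neg, mul_zero]
    intro h
    apply hne
    ext i
    fin_cases i
    · simp; omega
    · simp [h]
  · intro h
    rw [notMem_support_iff] at h
    simp [h]

theorem rs_natDegree_le {a : ℂ} {f : P2} {d : ℕ} (hd : f.totalDegree ≤ d) :
    (rs a f).natDegree ≤ d := by
  rw [rs_eq_sum]
  refine Polynomial.natDegree_sum_le_of_forall_le _ _ fun s hs => ?_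
  have h3 := (le_totalDegree hs).trans hd
  rw [degree_eq] at h3
  refine (Polynomial.natDegree_C_mul_X_pow_le _ _).trans (by omega)

theorem rs_zero_coeff (g : P2) (k : ℕ) :
    (rs 0 g).coeff k = coeff (Finsupp.single 1 k) g := by
  classical
  rw [rs_eq_sum, Polynomial.finsetSum_coeff]
  simp only [Polynomial.coeff_C_mul, Polynomial.coeff_X_pow]
  rw [Finset.sum_eq_single (Finsupp.single 1 k)]
  · simp
  · intro s hs hne
    by_cases h0 : s 0 = 0
    · rw [if_neg, mul_zero]
      intro h
      apply hne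
      ext i
      fin_cases i
      · simp [h0]
      · simp [h]
    · rw [zero_pow h0]; simp
  · intro h
    rw [notMem_support_iff] at h
    simp [h]

theorem rs_tl (a b : ℂ) (f : P2) :
    rs 0 (tl a b f) = (rs a f).comp (Polynomial.X + Polynomial.C b) := by
  have h1 : (rs a f).comp (Polynomial.X + Polynomial.C b) =
      (Polynomial.compRingHom (Polynomial.X + Polynomial.C b)) (rs a f) := rfl
  rw [h1]
  have h2 : ((rs 0 : P2 →ₐ[ℂ] Polynomial ℂ).comp (tl a b)).toRingHom =
      (Polynomial.compRingHom (Polynomial.X + Polynomial.C b)).comp (rs a).toRingHom := by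
    apply MvPolynomial.ringHom_ext
    · intro c
      simp [rs, tl, ← algebraMap_eq]
    · intro i
      fin_cases i
      · simp [rs, tl, ← algebraMap_eq]
      · simp [rs, tl, ← algebraMap_eq, add_comm]
  exact RingHom.congr_fun h2 f

end Sub

/-- `f` is a plane curve of degree `d` with multiplicities `m i b` at the points `(a_i, b)`,
which does not pass through the point at infinity of the arms and meets the arms only in the
given points. -/
structure Good {r : ℕ} (a : Fin r → ℂ) (S : Fin r → Finset ℂ) (f : P2) (d : ℕ)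
    (m : Fin r → ℂ → ℕ) : Prop where
  deg : f.totalDegree ≤ d
  lead : coeff (Finsupp.single 1 d) f ≠ 0
  mult : ∀ i, ∀ b ∈ S i, f ∈ mI (a i) b ^ m i b
  sum : ∀ i, ∑ b ∈ S i, m i b = d

namespace Good

variable {r : ℕ} {a : Fin r → ℂ} {S : Fin r → Finset ℂ} {f g : P2} {d e : ℕ}
  {m n : Fin r → ℂ → ℕ}

theorem coeff_mul_top {f g : P2} {d e : ℕ} (hf : f.totalDegree ≤ d) (hg : g.totalDegree ≤ e) :
    coeff (Finsupp.single 1 (d + e)) (f * g) =
      coeff (Finsupp.single 1 d) f * coeff (Finsupp.single 1 e) g := by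
  have h1 := rs_coeff_top (a := 0) (f := f * g) (d := d + e)
    ((totalDegree_mul _ _).trans (Nat.add_le_add hf hg))
  rw [← h1, ← rs_coeff_top (a := 0) hf, ← rs_coeff_top (a := 0) hg, map_mul]
  exact Polynomial.coeff_mul_add_eq_of_natDegree_le (rs_natDegree_le hf) (rs_natDegree_le hg)

theorem mul (hf : Good a S f d m) (hg : Good a S g e n) :
    Good a S (f * g) (d + e) (fun i b => m i b + n i b) where
  deg := (totalDegree_mul _ _).trans (Nat.add_le_add hf.deg hg.deg)
  lead := by
    rw [coeff_mul_top hf.deg hg.deg]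
    exact mul_ne_zero hf.lead hg.lead
  mult i b hb := by
    rw [pow_add]
    exact Ideal.mul_mem_mul (hf.mult i b hb) (hg.mult i b hb)
  sum i := by rw [Finset.sum_add_distrib, hf.sum, hg.sum]

theorem pow (hf : Good a S f d m) (k : ℕ) :
    Good a S (f ^ k) (k * d) (fun i b => k * m i b) := by
  induction k with
  | zero =>
    refine ⟨by simp, by simp, fun i b _ => by simp, fun i => by simp⟩
  | succ k ih =>
    have h := ih.mul hf
    have e1 : (fun i b => k * m i b + m i b) = fun i b => (k + 1) * m i b := by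
      funext i b; ring
    rw [← pow_succ, e1, show k * d + d = (k + 1) * d by ring] at h
    exact h

theorem ne_zero (hf : Good a S f d m) : f ≠ 0 := by
  rintro rfl
  exact hf.lead (by simp)

/-- restriction to an arm -/
theorem rs_eq (hf : Good a S f d m) (i : Fin r) : rs (a i) f =
    Polynomial.C (coeff (Finsupp.single 1 d) f) *
      ∏ b ∈ S i, (Polynomial.X - Polynomial.C b) ^ m i b := by
  classical
  have hdvd : (∏ b ∈ S i, (Polynomial.X - Polynomial.C b) ^ m i b) ∣ rs (a i) f := by
    refine Finset.prod_dvd_of_coprime ?_ ?_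
    · intro b _ c _ hbc
      exact (Polynomial.isCoprime_X_sub_C_of_isUnit_sub
        (isUnit_iff_ne_zero.2 (sub_ne_zero.2 hbc))).pow
    · intro b hb
      exact rs_dvd (hf.mult i b hb)
  obtain ⟨q, hq⟩ := hdvd
  set p : Polynomial ℂ := ∏ b ∈ S i, (Polynomial.X - Polynomial.C b) ^ m i b with hp
  have hpm : p.Monic := Polynomial.monic_prod_of_monic _ _ fun b _ =>
    (Polynomial.monic_X_sub_C b).pow _
  have hpd : p.natDegree = d := by
    rw [hp, Polynomial.natDegree_prod_of_monic _ _ fun b _ =>
      (Polynomial.monic_X_sub_C b).pow _, ← hf.sum i]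
    refine Finset.sum_congr rfl fun b _ => ?_
    rw [Polynomial.natDegree_pow, Polynomial.natDegree_X_sub_C, mul_one]
  have hrs : (rs (a i) f).natDegree = d := by
    refine le_antisymm (rs_natDegree_le hf.deg) ?_
    refine Polynomial.le_natDegree_of_ne_zero ?_
    rw [rs_coeff_top hf.deg]
    exact hf.lead
  have hq0 : q ≠ 0 := by
    rintro rfl
    rw [mul_zero] at hq
    have := rs_coeff_top (a := a i) hf.deg
    rw [hq, Polynomial.coeff_zero] at this
    exact hf.lead this.symm
  have hqd : q.natDegree = 0 := by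
    have h1 : (p * q).natDegree = p.natDegree + q.natDegree :=
      Polynomial.natDegree_mul hpm.ne_zero hq0
    rw [← hq, hrs, hpd] at h1
    omega
  obtain ⟨c, hc⟩ : ∃ c, q = Polynomial.C c := ⟨_, Polynomial.eq_C_of_natDegree_eq_zero hqd⟩
  have hc2 : c = coeff (Finsupp.single 1 d) f := by
    have := rs_coeff_top (a := a i) hf.deg
    rw [hq, hc, mul_comm, Polynomial.coeff_C_mul] at this
    rw [← this]
    have h2 : p.coeff d = 1 := by
      have := hpm.coeff_natDegree
      rwa [hpd] at this
    rw [h2, mul_one]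
  rw [hq, hc, hc2, mul_comm]

/-- the coefficient of `Y^m` at the point `(a_i, b)` -/
theorem coeff_tl_ne (hf : Good a S f d m) (i : Fin r) {b : ℂ} (hb : b ∈ S i) :
    coeff (Finsupp.single 1 (m i b)) (tl (a i) b f) ≠ 0 := by
  classical
  rw [← rs_zero_coeff, rs_tl, hf.rs_eq i, ← Finset.mul_prod_erase _ _ hb]
  have h1 : (Polynomial.C (coeff (Finsupp.single 1 d) f) *
      ((Polynomial.X - Polynomial.C b) ^ m i b *
        ∏ b' ∈ (S i).erase b, (Polynomial.X - Polynomial.C b') ^ m i b')).comp
          (Polynomial.X + Polynomial.C b) =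
      (Polynomial.C (coeff (Finsupp.single 1 d) f) *
        ∏ b' ∈ (S i).erase b, (Polynomial.X + Polynomial.C (b - b')) ^ m i b') *
          Polynomial.X ^ m i b := by
    rw [Polynomial.mul_comp, Polynomial.mul_comp, Polynomial.pow_comp, Polynomial.sub_comp,
      Polynomial.X_comp, Polynomial.C_comp, Polynomial.C_comp, add_sub_cancel_right,
      Polynomial.prod_comp]
    have h2 : ∀ b' ∈ (S i).erase b, ((Polynomial.X - Polynomial.C b') ^ m i b').comp
        (Polynomial.X + Polynomial.C b) = (Polynomial.X + Polynomial.C (b - b')) ^ m i b' := by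
      intro b' _
      rw [Polynomial.pow_comp, Polynomial.sub_comp, Polynomial.X_comp, Polynomial.C_comp,
        Polynomial.C_sub]
      ring
    rw [Finset.prod_congr rfl h2]
    ring
  rw [h1]
  have h3 := Polynomial.coeff_mul_X_pow (Polynomial.C (coeff (Finsupp.single 1 d) f) *
        ∏ b' ∈ (S i).erase b, (Polynomial.X + Polynomial.C (b - b')) ^ m i b') (m i b) 0
  rw [zero_add] at h3
  rw [h3, Polynomial.coeff_zero_eq_eval_zero, Polynomial.eval_mul, Polynomial.eval_C,
    Polynomial.eval_prod]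
  refine mul_ne_zero hf.lead (Finset.prod_ne_zero_iff.2 fun b' hb' => ?_)
  rw [Polynomial.eval_pow, Polynomial.eval_add, Polynomial.eval_X, Polynomial.eval_C, zero_add]
  exact pow_ne_zero _ (sub_ne_zero.2 (Finset.ne_of_mem_erase hb').symm)

end Good

end Crest.Agent.R278
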