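import Mathlib
import Crest.Agent.R278.Plane2

set_option autoImplicit false

/-!
Row 278 (S0421): valuations and plane curves with given multiplicities.
-/

namespace Crest.Agent.R278

open MvPolynomial

section valuation

variable {K : Type} [Field K] [Algebra ℂ K]
variable (V : ValuationSubring K) (hV : ∀ c : ℂ, algebraMap ℂ K c ∈ V)
variable {r : ℕ} {a : Fin r → ℂ} {S : Fin r → Finset ℂ} {f : P2} {d : ℕ}
  {m : Fin r → ℂ → ℕ} {x y : K}

include hV

/-- degree bound at infinity -/
theorem val_le_pow (hd : f.totalDegree ≤ d) (hxy : V.valuation y ≤ V.valuation x)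
    (hx : 1 ≤ V.valuation x) : V.valuation (aeval ![x, y] f) ≤ V.valuation x ^ d := by
  rw [aeval_def, eval₂_eq']
  refine Valuation.map_sum_le _ ?_
  intro s hs
  rw [map_mul, Fin.prod_univ_two, map_mul, map_pow, map_pow]
  have h1 : V.valuation (algebraMap ℂ K (coeff s f)) ≤ 1 := val_const_le V hV _
  have h2 : s 0 + s 1 ≤ d := by
    have h3 := le_totalDegree hs
    rw [degree_eq] at h3
    exact h3.trans hd
  have h5 : V.valuation ((![x, y] : Fin 2 → K) 0) = V.valuation x := rfl
  have h6 : V.valuation ((![x, y] : Fin 2 → K) 1) = V.valuation y := rfl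
  rw [h5, h6]
  calc V.valuation (algebraMap ℂ K (coeff s f)) * (V.valuation x ^ s 0 * V.valuation y ^ s 1)
      ≤ 1 * (V.valuation x ^ s 0 * V.valuation x ^ s 1) := by gcongr
    _ = V.valuation x ^ (s 0 + s 1) := by rw [one_mul, pow_add]
    _ ≤ V.valuation x ^ d := pow_le_pow_right₀ hx h2

/-- `v(y) > 1`, `v(x) < v(y)`: then `v(f) = v(y)^d`. -/
theorem Good.val_y (hf : Good a S f d m) (hxy : V.valuation x < V.valuation y)
    (hy : 1 < V.valuation y) : V.valuation (aeval ![x, y] f) = V.valuation y ^ d := by
  have hy0 : V.valuation y ≠ 0 := (zero_lt_one.trans hy).ne'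
  have h := val_aeval_eq_of_dominant V hV x y f (Finsupp.single 1 d) hf.lead
    (by simp [hy0]) ?_
  · rw [h]
    simp
  · intro s hs hne
    have h3 := le_totalDegree hs
    rw [degree_eq] at h3
    have h2 : s 0 + s 1 ≤ d := h3.trans hf.deg
    simp only [Finsupp.single_apply, if_true]
    have e1 : ((1 : Fin 2) = 0) = False := by simp
    simp only [e1, if_false, pow_zero, one_mul]
    rcases Nat.eq_zero_or_pos (s 0) with h0 | h0
    · rw [h0, pow_zero, one_mul]
      have h4 : s 1 < d := by
        rcases Nat.lt_or_ge (s 1) d with h5 | h5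
        · exact h5
        · exfalso
          apply hne
          have h6 : s 1 = d := by omega
          ext i
          fin_cases i
          · simp [h0]
          · simp [h6]
      exact pow_lt_pow_right₀ hy h4
    · calc V.valuation x ^ s 0 * V.valuation y ^ s 1
          < V.valuation y ^ s 0 * V.valuation y ^ s 1 := by
            have h7 : V.valuation x ^ s 0 < V.valuation y ^ s 0 :=
              pow_lt_pow_left₀ hxy zero_le (by omega)
            exact mul_lt_mul_of_pos_right h7 (pow_pos (zero_lt_iff.2 hy0) _)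
        _ = V.valuation y ^ (s 0 + s 1) := by rw [pow_add]
        _ ≤ V.valuation y ^ d := pow_le_pow_right₀ hy.le h2

/-- `f(x,y) - f(a,y)` is divisible by `x - a`. -/
theorem ev_sub_rs (a : ℂ) (f : P2) (hx : x ∈ V) (hy : y ∈ V) :
    ∃ v ∈ V, aeval ![x, y] f - Polynomial.aeval y (rs a f) = (x - algebraMap ℂ K a) * v := by
  induction f using MvPolynomial.induction_on with
  | C c => exact ⟨0, V.zero_mem, by simp [rs, ← algebraMap_eq]⟩
  | add p q hp hq =>
    obtain ⟨v, hv, h1⟩ := hp
    obtain ⟨w, hw, h2⟩ := hq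
    refine ⟨v + w, V.add_mem _ _ hv hw, ?_⟩
    rw [map_add, map_add, map_add, mul_add, ← h1, ← h2]; ring
  | mul_X p i hp =>
    obtain ⟨v, hv, h1⟩ := hp
    have hr : Polynomial.aeval y (rs a p) ∈ V := by
      have h3 := aeval_mem V hV hx hy (liftY (rs a p))
      rwa [aeval_liftY] at h3
    fin_cases i
    · refine ⟨x * v + Polynomial.aeval y (rs a p), V.add_mem _ _ (V.mul_mem _ _ hx hv) hr, ?_⟩
      have e1 : rs a (p * X ((fun i => i) ⟨0, by omega⟩)) = rs a p * Polynomial.C a := by
        rw [map_mul]; simp [rs]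
      rw [e1, map_mul, map_mul, aeval_X, Polynomial.aeval_C]
      have e2 : (![x, y] : Fin 2 → K) ((fun i => i) ⟨0, by omega⟩) = x := rfl
      rw [e2]
      linear_combination x * h1
    · refine ⟨y * v, V.mul_mem _ _ hy hv, ?_⟩
      have e1 : rs a (p * X ((fun i => i) ⟨1, by omega⟩)) = rs a p * Polynomial.X := by
        rw [map_mul]; simp [rs]
      rw [e1, map_mul, map_mul, aeval_X, Polynomial.aeval_X]
      have e2 : (![x, y] : Fin 2 → K) ((fun i => i) ⟨1, by omega⟩) = y := rfl
      rw [e2]
      linear_combination y * h1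

/-- away from the points of the arm the curve is a unit. -/
theorem Good.val_arm (hf : Good a S f d m) (i : Fin r)
    (hx : V.valuation (x - algebraMap ℂ K (a i)) < 1) (hy : y ∈ V)
    (hyb : ∀ b ∈ S i, V.valuation (y - algebraMap ℂ K b) = 1) :
    V.valuation (aeval ![x, y] f) = 1 := by
  have hxV : x ∈ V := by
    have h1 := V.add_mem _ _ ((V.valuation_le_one_iff _).1 hx.le) (hV (a i))
    rwa [sub_add_cancel] at h1
  obtain ⟨v, hv, h1⟩ := ev_sub_rs V hV (a i) f hxV hy
  have h2 : V.valuation (Polynomial.aeval y (rs (a i) f)) = 1 := by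
    rw [hf.rs_eq i, map_mul, map_mul, map_prod, map_prod, Polynomial.aeval_C,
      val_const V hV hf.lead, one_mul]
    refine Finset.prod_eq_one fun b hb => ?_
    rw [map_pow, map_pow, map_sub, Polynomial.aeval_X, Polynomial.aeval_C, hyb b hb, one_pow]
  have h3 : aeval ![x, y] f = (x - algebraMap ℂ K (a i)) * v + Polynomial.aeval y (rs (a i) f) := by
    rw [← h1]; ring
  have h4 : V.valuation ((x - algebraMap ℂ K (a i)) * v) < 1 := by
    rw [map_mul]
    exact mul_lt_one_of_lt_of_le hx ((V.valuation_le_one_iff _).2 hv)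
  rw [h3, Valuation.map_add_eq_of_lt_right _ (by rw [h2]; exact h4), h2]

/-- in the direction of the arm. -/
theorem Good.val_dir (hf : Good a S f d m) (i : Fin r) {b : ℂ} (hb : b ∈ S i)
    (hxy : V.valuation (x - algebraMap ℂ K (a i)) < V.valuation (y - algebraMap ℂ K b))
    (hy : V.valuation (y - algebraMap ℂ K b) < 1) :
    V.valuation (aeval ![x, y] f) = V.valuation (y - algebraMap ℂ K b) ^ m i b := by
  rw [← ev_tl x y (a i) b f]
  set X' := x - algebraMap ℂ K (a i) with hX'
  set Y' := y - algebraMap ℂ K b with hY'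
  have hY0 : V.valuation Y' ≠ 0 := ((zero_le).trans_lt hxy).ne'
  have hYpos := zero_lt_iff.2 hY0
  have h := val_aeval_eq_of_dominant V hV X' Y' (tl (a i) b f) (Finsupp.single 1 (m i b))
    (hf.coeff_tl_ne i hb) (by simp [hY0]) ?_
  · rw [h]; simp
  · intro s hs hne
    have h3 := (mem_pow_idealOfVars_iff _ _).1 (tl_mem (hf.mult i b hb)) s hs
    have h2 : m i b ≤ s 0 + s 1 := by
      have h4 : s.degree = s 0 + s 1 := by
        rw [Finsupp.degree_eq_sum, Fin.sum_univ_two]
      rw [← h4]; exact h3
    simp only [Finsupp.single_apply, if_true]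
    have e1 : ((1 : Fin 2) = 0) = False := by simp
    simp only [e1, if_false, pow_zero, one_mul]
    rcases Nat.eq_zero_or_pos (s 0) with h0 | h0
    · rw [h0, pow_zero, one_mul]
      have h4 : m i b < s 1 := by
        rcases Nat.lt_or_ge (m i b) (s 1) with h5 | h5
        · exact h5
        · exfalso
          apply hne
          have h6 : s 1 = m i b := by omega
          ext i
          fin_cases i
          · simp [h0]
          · simp [h6]
      exact pow_lt_pow_right_of_lt_one₀ hYpos hy h4
    · calc V.valuation X' ^ s 0 * V.valuation Y' ^ s 1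
          < V.valuation Y' ^ s 0 * V.valuation Y' ^ s 1 := by
            have h7 : V.valuation X' ^ s 0 < V.valuation Y' ^ s 0 :=
              pow_lt_pow_left₀ hxy zero_le (by omega)
            exact mul_lt_mul_of_pos_right h7 (pow_pos hYpos _)
        _ = V.valuation Y' ^ (s 0 + s 1) := by rw [pow_add]
        _ ≤ V.valuation Y' ^ m i b := pow_le_pow_right_of_le_one' hy.le h2

end valuation

end Crest.Agent.R278
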