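import Mathlib
import Crest.Agent.R278.Plane2Val

set_option autoImplicit false

/-!
Row 278 (S0421): classification of the valuation rings containing the sections.
-/

namespace Crest.Agent.R278

open MvPolynomial

theorem mul_lt_aux {Γ : Type*} [LinearOrderedCommGroupWithZero Γ] {a b c d : Γ} (h2 : c ≤ d)
    (hd : d ≠ 0) (h1 : a < b) : a * c < b * d :=
  calc a * c ≤ a * d := by gcongr
    _ < b * d := mul_lt_mul_of_pos_right h1 (zero_lt_iff.2 hd)

/-- the upper bound in the blow-up chart. -/
theorem val_blow {K : Type} [Field K] [Algebra ℂ K] (V : ValuationSubring K)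
    (hV : ∀ c : ℂ, algebraMap ℂ K c ∈ V) {a b : ℂ} {m : ℕ} {f : P2} (hf : f ∈ mI a b ^ m)
    {x y : K} (hX0 : x - algebraMap ℂ K a ≠ 0)
    (hX : V.valuation (x - algebraMap ℂ K a) ≤ 1)
    (hYX : V.valuation (y - algebraMap ℂ K b) ≤ V.valuation (x - algebraMap ℂ K a)) :
    V.valuation (aeval ![x, y] f) ≤ V.valuation (x - algebraMap ℂ K a) ^ m := by
  obtain ⟨g, hg⟩ := bl_dvd hf
  have hv0 : V.valuation (x - algebraMap ℂ K a) ≠ 0 := V.valuation.ne_zero_iff.2 hX0
  rw [← ev_bl x y a b hX0, hg, map_mul, map_pow, aeval_X, map_mul, map_pow]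
  have h1 : (![x - algebraMap ℂ K a, (y - algebraMap ℂ K b) / (x - algebraMap ℂ K a)] :
    Fin 2 → K) 0 = x - algebraMap ℂ K a := rfl
  rw [h1]
  have h2 : V.valuation (aeval ![x - algebraMap ℂ K a,
      (y - algebraMap ℂ K b) / (x - algebraMap ℂ K a)] g) ≤ 1 := by
    rw [V.valuation_le_one_iff]
    refine aeval_mem V hV ?_ ?_ g
    · rwa [← V.valuation_le_one_iff]
    · rw [← V.valuation_le_one_iff, map_div₀, div_le_one₀ (zero_lt_iff.2 hv0)]
      exact hYX
  calc V.valuation (x - algebraMap ℂ K a) ^ m * _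
      ≤ V.valuation (x - algebraMap ℂ K a) ^ m * 1 := by gcongr
    _ = _ := mul_one _

/-- The plane data of the construction. -/
structure Plane2 where
  r : ℕ
  r_pos : 0 < r
  a : Fin r → ℂ
  a_inj : Function.Injective a
  S : Fin r → Finset ℂ
  S_ne : ∀ i, (S i).Nonempty
  M : Fin r → ℂ → ℕ
  M_pos : ∀ i, ∀ b ∈ S i, 0 < M i b
  μ : Fin r → ℕ
  hμ : ∀ i, ∀ b ∈ S i, M i b ≤ μ i
  D : ℕ
  Θ : P2
  good : Good a S Θ D M
  hμD : ∑ i, μ i < D
  hN : ∀ i, ∀ b ∈ S i, M i b + ∑ b' ∈ (S i).erase b, (M i b' - M i b) +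
    ∑ k ∈ Finset.univ.erase i, μ k < D

namespace Plane2

variable (P : Plane2)

/-- the points -/
abbrev Pt := (i : Fin P.r) × P.S i

/-- the index set of the sections -/
abbrev J := Fin 4 ⊕ P.Pt

/-- the index set of the charts -/
abbrev L := Fin 2 ⊕ P.Pt

theorem μ_pos (i : Fin P.r) : 0 < P.μ i := by
  obtain ⟨b, hb⟩ := P.S_ne i
  exact (P.M_pos i b hb).trans_le (P.hμ i b hb)

section K

variable {K : Type} [Field K] [Algebra ℂ K] (x y : K)

/-- `x - a_i` -/
noncomputable def X (i : Fin P.r) : K := x - algebraMap ℂ K (P.a i)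

/-- the value of `Θ` -/
noncomputable def th : K := aeval ![x, y] P.Θ

/-- `∏ X_i ^ μ_i` -/
noncomputable def Pμ : K := ∏ i, P.X x i ^ P.μ i

/-- the numerator belonging to a point -/
noncomputable def Nn (i : Fin P.r) (b : ℂ) : K :=
  P.X x i ^ P.M i b * (∏ b' ∈ (P.S i).erase b, (y - algebraMap ℂ K b') ^ (P.M i b' - P.M i b)) *
    ∏ k ∈ Finset.univ.erase i, P.X x k ^ P.μ k

/-- the exponent `n` -/
def n : ℕ := P.D - ∑ i, P.μ i

/-- the numerators of the sections -/
noncomputable def num : P.J → K
  | Sum.inl 0 => P.Pμ x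
  | Sum.inl 1 => P.Pμ x * x ^ P.n
  | Sum.inl 2 => P.Pμ x * x
  | Sum.inl 3 => P.Pμ x * y
  | Sum.inr p => P.Nn x y p.1 p.2

/-- the sections -/
noncomputable def sec (j : P.J) : K := P.num x y j / P.th x y

/-- first chart coordinate -/
noncomputable def cp : P.L → K
  | Sum.inl 0 => x
  | Sum.inl 1 => x⁻¹
  | Sum.inr p => P.X x p.1

/-- second chart coordinate -/
noncomputable def cq : P.L → K
  | Sum.inl 0 => y
  | Sum.inl 1 => y / x
  | Sum.inr p => (y - algebraMap ℂ K p.2) / P.X x p.1

/-- the inverted function of the chart -/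
noncomputable def ch : P.L → K
  | Sum.inl 0 => P.th x y * ∏ i, P.X x i
  | Sum.inl 1 => P.th x y / x ^ P.D * ∏ i, (1 - algebraMap ℂ K (P.a i) / x)
  | Sum.inr p => P.th x y / P.X x p.1 ^ P.M p.1 p.2 * (∏ k ∈ Finset.univ.erase p.1, P.X x k) *
      ∏ b' ∈ (P.S p.1).erase p.2, (y - algebraMap ℂ K b')

variable {x y} (V : ValuationSubring K) (hV : ∀ c : ℂ, algebraMap ℂ K c ∈ V)

include hV

theorem val_X_le (i : Fin P.r) : V.valuation (P.X x i) ≤ max (V.valuation x) 1 := by
  unfold X
  refine (V.valuation.map_sub _ _).trans ?_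
  exact max_le_max le_rfl (val_const_le V hV _)

theorem val_X_of_one_lt (hx : 1 < V.valuation x) (i : Fin P.r) :
    V.valuation (P.X x i) = V.valuation x := by
  unfold X
  rw [sub_eq_add_neg, Valuation.map_add_eq_of_lt_left]
  rw [Valuation.map_neg]
  exact (val_const_le V hV _).trans_lt hx

omit hV in
theorem val_Pμ : V.valuation (P.Pμ x) = ∏ i, V.valuation (P.X x i) ^ P.μ i := by
  unfold Pμ
  rw [map_prod]
  exact Finset.prod_congr rfl fun i _ => map_pow _ _ _

/-- Case C : `v(y)` dominates. -/
theorem num_lt_of_y (hxy : V.valuation x < V.valuation y) (hy : 1 < V.valuation y) (j : P.J) :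
    V.valuation (P.num x y j) < V.valuation y ^ P.D := by
  have hy0 : V.valuation y ≠ 0 := (zero_lt_one.trans hy).ne'
  have hypos := zero_lt_iff.2 hy0
  have hX : ∀ i, V.valuation (P.X x i) < V.valuation y := fun i =>
    (P.val_X_le V hV i).trans_lt (max_lt hxy hy)
  have hD := P.hμD
  -- strict bound of a product with a factor `X i`
  have hlt : ∀ (i : Fin P.r) (k : ℕ), 0 < k → V.valuation (P.X x i) ^ k < V.valuation y ^ k :=
    fun i k hk => pow_lt_pow_left₀ (hX i) zero_le hk.ne'
  have hle : ∀ (s : Finset (Fin P.r)), V.valuation (∏ k ∈ s, P.X x k ^ P.μ k) ≤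
      V.valuation y ^ (∑ k ∈ s, P.μ k) := by
    intro s
    rw [map_prod, ← Finset.prod_pow_eq_pow_sum]
    refine Finset.prod_le_prod' fun k _ => ?_
    rw [map_pow]
    exact pow_le_pow_left₀ zero_le (hX k).le _
  have hPμ : V.valuation (P.Pμ x) < V.valuation y ^ (∑ i, P.μ i) := by
    let i0 : Fin P.r := ⟨0, P.r_pos⟩
    unfold Pμ
    rw [← Finset.mul_prod_erase _ _ (Finset.mem_univ i0),
      ← Finset.add_sum_erase _ _ (Finset.mem_univ i0), map_mul, pow_add, map_pow]
    exact mul_lt_aux (hle _) (pow_ne_zero _ hy0) (hlt i0 _ (P.μ_pos i0))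
  have hup : ∀ k, k ≤ P.D → V.valuation y ^ k ≤ V.valuation y ^ P.D := fun k hk =>
    pow_le_pow_right₀ hy.le hk
  match j with
  | Sum.inl 0 => exact hPμ.trans_le (hup _ hD.le)
  | Sum.inl 1 =>
    change V.valuation (P.Pμ x * x ^ P.n) < _
    rw [map_mul, map_pow]
    have h1 : V.valuation y ^ P.D = V.valuation y ^ (∑ i, P.μ i) * V.valuation y ^ P.n := by
      rw [← pow_add, n]; congr 1; omega
    rw [h1]
    refine mul_lt_aux (pow_le_pow_left₀ zero_le hxy.le _) (pow_ne_zero _ hy0) hPμ
  | Sum.inl 2 =>
    change V.valuation (P.Pμ x * x) < _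
    rw [map_mul]
    calc V.valuation (P.Pμ x) * V.valuation x
        < V.valuation y ^ (∑ i, P.μ i) * V.valuation y :=
          mul_lt_aux hxy.le hy0 hPμ
      _ = V.valuation y ^ (∑ i, P.μ i + 1) := by rw [pow_succ]
      _ ≤ _ := hup _ (by omega)
  | Sum.inl 3 =>
    change V.valuation (P.Pμ x * y) < _
    rw [map_mul]
    calc V.valuation (P.Pμ x) * V.valuation y
        < V.valuation y ^ (∑ i, P.μ i) * V.valuation y :=
          mul_lt_aux le_rfl hy0 hPμ
      _ = V.valuation y ^ (∑ i, P.μ i + 1) := by rw [pow_succ]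
      _ ≤ _ := hup _ (by omega)
  | Sum.inr ⟨i, b, hb⟩ =>
    change V.valuation (P.Nn x y i b) < _
    unfold Nn
    rw [map_mul, map_mul, map_pow]
    have h1 : V.valuation (∏ b' ∈ (P.S i).erase b,
        (y - algebraMap ℂ K b') ^ (P.M i b' - P.M i b)) ≤
        V.valuation y ^ (∑ b' ∈ (P.S i).erase b, (P.M i b' - P.M i b)) := by
      rw [map_prod, ← Finset.prod_pow_eq_pow_sum]
      refine Finset.prod_le_prod' fun b' _ => ?_
      rw [map_pow]
      refine pow_le_pow_left₀ zero_le ?_ _
      refine (V.valuation.map_sub _ _).trans (max_le le_rfl ?_)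
      exact (val_const_le V hV _).trans hy.le
    calc _ < V.valuation y ^ P.M i b *
            V.valuation y ^ (∑ b' ∈ (P.S i).erase b, (P.M i b' - P.M i b)) *
            V.valuation y ^ (∑ k ∈ Finset.univ.erase i, P.μ k) := by
          refine mul_lt_aux (hle _) (pow_ne_zero _ hy0) ?_
          exact mul_lt_aux h1 (pow_ne_zero _ hy0) (hlt i _ (P.M_pos i b hb))
      _ = V.valuation y ^ (P.M i b + ∑ b' ∈ (P.S i).erase b, (P.M i b' - P.M i b) +
            ∑ k ∈ Finset.univ.erase i, P.μ k) := by rw [pow_add, pow_add]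
      _ ≤ _ := hup _ (P.hN i b hb).le

/-- In the finite case a numerator is divisible by `X_i ^ (positive)` times the factors at the
points of the arm. -/
theorem num_bound (hx : x ∈ V) (hy : y ∈ V) (i : Fin P.r) (j : P.J) :
    V.valuation (P.num x y j) ≤ V.valuation (P.X x i) ^ P.μ i ∨
    ∃ b ∈ P.S i, P.num x y j = P.Nn x y i b := by
  have hXV : ∀ k, P.X x k ∈ V := fun k => sub_mem hx (hV _)
  have hprod : ∀ s : Finset (Fin P.r), (∏ k ∈ s, P.X x k ^ P.μ k) ∈ V := fun s =>
    prod_mem fun k _ => pow_mem (hXV k) _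
  have hPμ : ∃ v ∈ V, P.Pμ x = P.X x i ^ P.μ i * v := by
    refine ⟨_, hprod (Finset.univ.erase i), ?_⟩
    unfold Pμ
    rw [Finset.mul_prod_erase _ (fun k => P.X x k ^ P.μ k) (Finset.mem_univ i)]
  have key : ∀ {z : K}, (∃ v ∈ V, z = P.X x i ^ P.μ i * v) →
      V.valuation z ≤ V.valuation (P.X x i) ^ P.μ i := by
    rintro z ⟨v, hv, rfl⟩
    rw [map_mul, map_pow]
    calc _ ≤ V.valuation (P.X x i) ^ P.μ i * 1 := by
          gcongr; exact (V.valuation_le_one_iff _).2 hv
      _ = _ := mul_one _
  obtain ⟨v, hv, hPv⟩ := hPμ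
  match j with
  | Sum.inl 0 => exact Or.inl (key ⟨v, hv, hPv⟩)
  | Sum.inl 1 =>
    refine Or.inl (key ⟨v * x ^ P.n, mul_mem hv (pow_mem hx _), ?_⟩)
    change P.Pμ x * x ^ P.n = _
    rw [hPv]; ring
  | Sum.inl 2 =>
    refine Or.inl (key ⟨v * x, mul_mem hv hx, ?_⟩)
    change P.Pμ x * x = _
    rw [hPv]; ring
  | Sum.inl 3 =>
    refine Or.inl (key ⟨v * y, mul_mem hv hy, ?_⟩)
    change P.Pμ x * y = _
    rw [hPv]; ring
  | Sum.inr ⟨k, b, hb⟩ =>
    by_cases hki : k = i
    · subst hki
      exact Or.inr ⟨b, hb, rfl⟩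
    · left
      refine key ⟨P.X x k ^ P.M k b * (∏ b' ∈ (P.S k).erase b,
        (y - algebraMap ℂ K b') ^ (P.M k b' - P.M k b)) *
          ∏ k' ∈ (Finset.univ.erase k).erase i, P.X x k' ^ P.μ k', ?_, ?_⟩
      · refine mul_mem (mul_mem (pow_mem (hXV k) _) ?_) (hprod _)
        exact prod_mem fun b' _ => pow_mem (sub_mem hy (hV _)) _
      · change P.Nn x y k b = _
        unfold Nn
        rw [← Finset.mul_prod_erase (Finset.univ.erase k) _
          (Finset.mem_erase.2 ⟨Ne.symm hki, Finset.mem_univ i⟩)]
        ring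

/-- **classification of the valuation rings.** -/
theorem cover (hth : P.th x y ≠ 0) (hX0 : ∀ i, P.X x i ≠ 0)
    (hsec : ∀ j, P.sec x y j ∈ V) (hunit : ∃ j, P.sec x y j ≠ 0 ∧ (P.sec x y j)⁻¹ ∈ V) :
    ∃ l, P.cp x l ∈ V ∧ P.cq x y l ∈ V ∧ (P.ch x y l)⁻¹ ∈ V := by
  classical
  have hth0 : V.valuation (P.th x y) ≠ 0 := V.valuation.ne_zero_iff.2 hth
  have hthpos := zero_lt_iff.2 hth0
  have hnum_le : ∀ j, V.valuation (P.num x y j) ≤ V.valuation (P.th x y) := by
    intro j
    have h1 := (V.valuation_le_one_iff _).2 (hsec j)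
    rw [sec, map_div₀, div_le_one₀ hthpos] at h1
    exact h1
  have hnum_eq : ∃ j, V.valuation (P.th x y) ≤ V.valuation (P.num x y j) := by
    obtain ⟨j, hj0, hj⟩ := hunit
    refine ⟨j, ?_⟩
    have h1 := (V.valuation_le_one_iff _).2 hj
    rw [map_inv₀, inv_le_one₀ (zero_lt_iff.2 (V.valuation.ne_zero_iff.2 hj0)), sec, map_div₀,
      one_le_div₀ hthpos] at h1
    exact h1
  obtain ⟨j0, hj0⟩ := hnum_eq
  rcases lt_or_ge 1 (V.valuation x) with hx | hx
  · rcases le_or_gt (V.valuation y) (V.valuation x) with hyx | hyx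
    · -- infinity
      have hx0 : V.valuation x ≠ 0 := (zero_lt_one.trans hx).ne'
      have hthle : V.valuation (P.th x y) ≤ V.valuation x ^ P.D :=
        val_le_pow V hV P.good.deg hyx hx.le
      have h1 : V.valuation (P.Pμ x) = V.valuation x ^ (∑ i, P.μ i) := by
        rw [val_Pμ, ← Finset.prod_pow_eq_pow_sum]
        refine Finset.prod_congr rfl fun i _ => ?_
        rw [P.val_X_of_one_lt V hV hx]
      have h2 : V.valuation (P.th x y) = V.valuation x ^ P.D := by
        refine le_antisymm hthle ?_
        have h3 := hnum_le (Sum.inl 1)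
        change V.valuation (P.Pμ x * x ^ P.n) ≤ _ at h3
        rw [map_mul, map_pow, h1, ← pow_add] at h3
        have h4 : ∑ i, P.μ i + P.n = P.D := by
          have := P.hμD
          rw [n]; omega
        rwa [h4] at h3
      have hxinv : V.valuation x⁻¹ < 1 := by
        rw [map_inv₀]; exact inv_lt_one_of_one_lt₀ hx
      refine ⟨Sum.inl 1, ?_, ?_, ?_⟩
      · exact (V.valuation_le_one_iff _).1 hxinv.le
      · change y / x ∈ V
        rw [← V.valuation_le_one_iff, map_div₀, div_le_one₀ (zero_lt_iff.2 hx0)]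
        exact hyx
      · change (P.th x y / x ^ P.D * ∏ i, (1 - algebraMap ℂ K (P.a i) / x))⁻¹ ∈ V
        rw [← V.valuation_le_one_iff, map_inv₀, map_mul, map_div₀, map_pow, h2,
          div_self (pow_ne_zero _ hx0), one_mul, map_prod, Finset.prod_eq_one, inv_one]
        intro i _
        rw [sub_eq_add_neg, Valuation.map_add_eq_of_lt_left, map_one]
        rw [Valuation.map_neg, map_one, div_eq_mul_inv, map_mul]
        exact Right.mul_lt_one_of_le_of_lt (val_const_le V hV _) hxinv
    · exfalso
      have h1 := P.num_lt_of_y V hV hyx (hx.trans hyx) j0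
      have h2 := P.good.val_y V hV hyx (hx.trans hyx)
      exact absurd h1 (not_lt.2 (h2.symm.le.trans hj0))
  · rcases lt_or_ge 1 (V.valuation y) with hy | hy
    · exfalso
      have h1 := P.num_lt_of_y V hV (hx.trans_lt hy) hy j0
      have h2 := P.good.val_y V hV (hx.trans_lt hy) hy
      exact absurd h1 (not_lt.2 (h2.symm.le.trans hj0))
    · -- finite case
      have hxV := (V.valuation_le_one_iff _).1 hx
      have hyV := (V.valuation_le_one_iff _).1 hy
      have hXV : ∀ i, P.X x i ∈ V := fun i => sub_mem hxV (hV _)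
      have hX1 : ∀ i, V.valuation (P.X x i) ≤ 1 := fun i => (V.valuation_le_one_iff _).2 (hXV i)
      have hthV : P.th x y ∈ V := aeval_mem V hV hxV hyV _
      by_cases hall : ∀ i, V.valuation (P.X x i) = 1
      · -- affine chart
        refine ⟨Sum.inl 0, hxV, hyV, ?_⟩
        change (P.th x y * ∏ i, P.X x i)⁻¹ ∈ V
        have h1 : V.valuation (P.Pμ x) = 1 := by
          rw [val_Pμ]
          exact Finset.prod_eq_one fun i _ => by rw [hall, one_pow]
        have h2 : V.valuation (P.th x y) = 1 := by
          refine le_antisymm ((V.valuation_le_one_iff _).2 hthV) ?_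
          have h3 := hnum_le (Sum.inl 0)
          change V.valuation (P.Pμ x) ≤ _ at h3
          rwa [h1] at h3
        rw [← V.valuation_le_one_iff, map_inv₀, map_mul, h2, map_prod,
          Finset.prod_eq_one fun i _ => hall i]
        simp
      · push Not at hall
        obtain ⟨i, hi⟩ := hall
        have hXi : V.valuation (P.X x i) < 1 := lt_of_le_of_ne (hX1 i) hi
        have hk : ∀ k, k ≠ i → V.valuation (P.X x k) = 1 := fun k hk =>
          val_sub_const V hV (fun h => hk (P.a_inj h).symm) hXi
        have hyb1 : ∀ b : ℂ, V.valuation (y - algebraMap ℂ K b) ≤ 1 := fun b =>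
          (V.valuation_le_one_iff _).2 (sub_mem hyV (hV b))
        by_cases hpt : ∀ b ∈ P.S i, V.valuation (y - algebraMap ℂ K b) = 1
        · exfalso
          have h1 : V.valuation (P.th x y) = 1 := P.good.val_arm V hV i hXi hyV hpt
          rw [h1] at hj0
          rcases P.num_bound V hV hxV hyV i j0 with h2 | ⟨b, hb, h2⟩
          · exact absurd (hj0.trans h2) (not_le.2 (pow_lt_one₀ zero_le hXi (P.μ_pos i).ne'))
          · rw [h2] at hj0
            refine absurd hj0 (not_le.2 ?_)
            unfold Nn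
            rw [map_mul, map_mul, map_pow]
            refine mul_lt_one_of_lt_of_le (mul_lt_one_of_lt_of_le
              (pow_lt_one₀ zero_le hXi (P.M_pos i b hb).ne') ?_) ?_
            · rw [V.valuation_le_one_iff]
              exact prod_mem fun b' _ => pow_mem (sub_mem hyV (hV _)) _
            · rw [V.valuation_le_one_iff]
              exact prod_mem fun k _ => pow_mem (hXV k) _
        · push Not at hpt
          obtain ⟨b, hb, hbne⟩ := hpt
          have hYb : V.valuation (y - algebraMap ℂ K b) < 1 := lt_of_le_of_ne (hyb1 b) hbne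
          have hb' : ∀ b', b' ≠ b → V.valuation (y - algebraMap ℂ K b') = 1 := fun b' hb'' =>
            val_sub_const V hV hb''.symm hYb
          have hXi0 : V.valuation (P.X x i) ≠ 0 := V.valuation.ne_zero_iff.2 (hX0 i)
          rcases lt_or_ge (V.valuation (P.X x i)) (V.valuation (y - algebraMap ℂ K b)) with
            hXY | hYX
          · exfalso
            have hY0 : V.valuation (y - algebraMap ℂ K b) ≠ 0 := (zero_le.trans_lt hXY).ne'
            have h1 : V.valuation (P.th x y) = V.valuation (y - algebraMap ℂ K b) ^ P.M i b :=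
              P.good.val_dir V hV i hb hXY hYb
            rw [h1] at hj0
            have hμb := P.hμ i b hb
            have hMb := P.M_pos i b hb
            rcases P.num_bound V hV hxV hyV i j0 with h2 | ⟨c, hc, h2⟩
            · refine absurd (hj0.trans h2) (not_le.2 ?_)
              calc V.valuation (P.X x i) ^ P.μ i ≤ V.valuation (P.X x i) ^ P.M i b :=
                    pow_le_pow_right_of_le_one' hXi.le hμb
                _ < _ := pow_lt_pow_left₀ hXY zero_le hMb.ne'
            · rw [h2] at hj0
              refine absurd hj0 (not_le.2 ?_)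
              have hMc := P.M_pos i c hc
              have h3 : V.valuation (∏ b' ∈ (P.S i).erase c,
                  (y - algebraMap ℂ K b') ^ (P.M i b' - P.M i c)) ≤
                  V.valuation (y - algebraMap ℂ K b) ^ (P.M i b - P.M i c) := by
                by_cases hbc : b = c
                · subst hbc
                  rw [Nat.sub_self, pow_zero, V.valuation_le_one_iff]
                  exact prod_mem fun b' _ => pow_mem (sub_mem hyV (hV _)) _
                · rw [← Finset.mul_prod_erase _ _ (Finset.mem_erase.2 ⟨hbc, hb⟩), map_mul,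
                    map_pow]
                  refine (mul_le_of_le_one_right zero_le ?_)
                  rw [V.valuation_le_one_iff]
                  exact prod_mem fun b' _ => pow_mem (sub_mem hyV (hV _)) _
              have h4 : V.valuation (∏ k ∈ Finset.univ.erase i, P.X x k ^ P.μ k) ≤ 1 := by
                rw [V.valuation_le_one_iff]
                exact prod_mem fun k _ => pow_mem (hXV k) _
              unfold Nn
              rw [map_mul, map_mul, map_pow]
              calc V.valuation (P.X x i) ^ P.M i c * V.valuation (∏ b' ∈ (P.S i).erase c,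
                    (y - algebraMap ℂ K b') ^ (P.M i b' - P.M i c)) *
                    V.valuation (∏ k ∈ Finset.univ.erase i, P.X x k ^ P.μ k)
                  ≤ V.valuation (P.X x i) ^ P.M i c *
                    V.valuation (y - algebraMap ℂ K b) ^ (P.M i b - P.M i c) * 1 := by
                    gcongr
                _ = V.valuation (P.X x i) ^ P.M i c *
                    V.valuation (y - algebraMap ℂ K b) ^ (P.M i b - P.M i c) := mul_one _
                _ < V.valuation (y - algebraMap ℂ K b) ^ P.M i c *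
                    V.valuation (y - algebraMap ℂ K b) ^ (P.M i b - P.M i c) := by
                    refine mul_lt_mul_of_pos_right ?_ (pow_pos (zero_lt_iff.2 hY0) _)
                    exact pow_lt_pow_left₀ hXY zero_le hMc.ne'
                _ = V.valuation (y - algebraMap ℂ K b) ^ (P.M i c + (P.M i b - P.M i c)) := by
                    rw [pow_add]
                _ ≤ V.valuation (y - algebraMap ℂ K b) ^ P.M i b :=
                    pow_le_pow_right_of_le_one' hYb.le (by omega)
          · -- the blow-up chart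
            have hthle : V.valuation (P.th x y) ≤ V.valuation (P.X x i) ^ P.M i b :=
              val_blow V hV (P.good.mult i b hb) (hX0 i) hXi.le hYX
            have hE : V.valuation (∏ k ∈ Finset.univ.erase i, P.X x k ^ P.μ k) = 1 := by
              rw [map_prod]
              refine Finset.prod_eq_one fun k hk' => ?_
              rw [map_pow, hk k (Finset.ne_of_mem_erase hk'), one_pow]
            have hE2 : V.valuation (∏ b' ∈ (P.S i).erase b,
                (y - algebraMap ℂ K b') ^ (P.M i b' - P.M i b)) = 1 := by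
              rw [map_prod]
              refine Finset.prod_eq_one fun b' hb'' => ?_
              rw [map_pow, hb' b' (Finset.ne_of_mem_erase hb''), one_pow]
            have h2 : V.valuation (P.th x y) = V.valuation (P.X x i) ^ P.M i b := by
              refine le_antisymm hthle ?_
              have h3 := hnum_le (Sum.inr ⟨i, b, hb⟩)
              change V.valuation (P.Nn x y i b) ≤ _ at h3
              unfold Nn at h3
              rwa [map_mul, map_mul, hE, hE2, mul_one, mul_one, map_pow] at h3
            refine ⟨Sum.inr ⟨i, b, hb⟩, hXV i, ?_, ?_⟩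
            · change (y - algebraMap ℂ K b) / P.X x i ∈ V
              rw [← V.valuation_le_one_iff, map_div₀, div_le_one₀ (zero_lt_iff.2 hXi0)]
              exact hYX
            · change (P.th x y / P.X x i ^ P.M i b * (∏ k ∈ Finset.univ.erase i, P.X x k) *
                ∏ b' ∈ (P.S i).erase b, (y - algebraMap ℂ K b'))⁻¹ ∈ V
              rw [← V.valuation_le_one_iff, map_inv₀, map_mul, map_mul, map_div₀, map_pow, h2,
                div_self (pow_ne_zero _ hXi0), one_mul, map_prod, map_prod,
                Finset.prod_eq_one fun k hk' => hk k (Finset.ne_of_mem_erase hk'),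
                Finset.prod_eq_one fun b' hb'' => hb' b' (Finset.ne_of_mem_erase hb'')]
              simp

end K

end Plane2

end Crest.Agent.R278
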