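import Mathlib
import Crest.Agent.R278.Plane2Mult
import Crest.Agent.R278.Plane2Reg

set_option autoImplicit false

/-!
Row 278 (S0421): the plane data from the four curves, and the final form of the classification.
-/

namespace Crest.Agent.R278

open MvPolynomial

namespace Plane2

/-- Plane data from good polynomials `z, w₁, w₂, ℓ` : `Θ = z w₁ w₂ ℓ³`. -/
noncomputable def ofGood {r : ℕ} (r_pos : 0 < r) (a : Fin r → ℂ) (a_inj : Function.Injective a)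
    (S : Fin r → Finset ℂ) (S_ne : ∀ i, (S i).Nonempty) {z w₁ w₂ ell : P2}
    {dz d₁ d₂ de : ℕ} {mz m₁ m₂ me : Fin r → ℂ → ℕ} (hz : Good a S z dz mz)
    (h₁ : Good a S w₁ d₁ m₁) (h₂ : Good a S w₂ d₂ m₂) (he : Good a S ell de me)
    (M_pos : ∀ i, ∀ b ∈ S i, 0 < mz i b + m₁ i b + m₂ i b + 3 * me i b)
    (μ : Fin r → ℕ) (hμ : ∀ i, ∀ b ∈ S i, mz i b + m₁ i b + m₂ i b + 3 * me i b ≤ μ i)
    (hμD : ∑ i, μ i < dz + d₁ + d₂ + 3 * de)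
    (hN : ∀ i, ∀ b ∈ S i, mz i b + m₁ i b + m₂ i b + 3 * me i b +
      ∑ b' ∈ (S i).erase b, (mz i b' + m₁ i b' + m₂ i b' + 3 * me i b' -
        (mz i b + m₁ i b + m₂ i b + 3 * me i b)) +
      ∑ k ∈ Finset.univ.erase i, μ k < dz + d₁ + d₂ + 3 * de) : Plane2 where
  r := r
  r_pos := r_pos
  a := a
  a_inj := a_inj
  S := S
  S_ne := S_ne
  M i b := mz i b + m₁ i b + m₂ i b + 3 * me i b
  M_pos := M_pos
  μ := μ
  hμ := hμ
  D := dz + d₁ + d₂ + 3 * de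
  Θ := z * w₁ * w₂ * ell ^ 3
  good := ((hz.mul h₁).mul h₂).mul (he.pow 3)
  hμD := hμD
  hN := hN

variable (P : Plane2) {F : Type} [Field F] [Algebra ℂ F] {x y : F}

theorem th_ne (h : RatCoord ℂ F x y) : P.th x y ≠ 0 := h.aeval_ne P.good.ne_zero

theorem X_ne (h : RatCoord ℂ F x y) (i : Fin P.r) : P.X x i ≠ 0 := h.sub_ne (P.a i)

/-- **hcov** -/
theorem hcov (h : RatCoord ℂ F x y) (V : ValuationSubring F)
    (hV : ∀ c : ℂ, algebraMap ℂ F c ∈ V) (hsec : ∀ j, P.sec x y j ∈ V)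
    (hunit : ∃ j, P.sec x y j ≠ 0 ∧ (P.sec x y j)⁻¹ ∈ V) :
    ∃ l, P.cp x l ∈ V ∧ P.cq x y l ∈ V ∧ (P.ch x y l)⁻¹ ∈ V :=
  P.cover V hV (P.th_ne h) (P.X_ne h) hsec hunit

theorem Pμ_ne (h : RatCoord ℂ F x y) : P.Pμ x ≠ 0 :=
  Finset.prod_ne_zero_iff.2 fun i _ => pow_ne_zero _ (P.X_ne h i)

theorem mlt_ne (h : RatCoord ℂ F x y) (l : P.L) : P.mlt x y l ≠ 0 := by
  have h1 := P.th_ne h
  have h2 := P.Pμ_ne h
  have h3 := h.left_ne_zero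
  match l with
  | Sum.inl 0 =>
    exact mul_ne_zero (pow_ne_zero _ (div_ne_zero h2 h1))
      (Finset.prod_ne_zero_iff.2 fun i _ => P.X_ne h i)
  | Sum.inl 1 =>
    exact mul_ne_zero (pow_ne_zero _ (div_ne_zero (mul_ne_zero h2 (pow_ne_zero _ h3)) h1))
      (div_ne_zero (Finset.prod_ne_zero_iff.2 fun i _ => P.X_ne h i) (pow_ne_zero _ h3))
  | Sum.inr ⟨i, b, hb⟩ =>
    refine mul_ne_zero (mul_ne_zero (pow_ne_zero _ (div_ne_zero ?_ h1)) ?_) ?_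
    · refine mul_ne_zero (mul_ne_zero (pow_ne_zero _ (P.X_ne h _)) ?_) ?_
      · exact Finset.prod_ne_zero_iff.2 fun b' _ => pow_ne_zero _ (h.sub_ne' b')
      · exact Finset.prod_ne_zero_iff.2 fun k _ => pow_ne_zero _ (P.X_ne h k)
    · exact Finset.prod_ne_zero_iff.2 fun b' _ => h.sub_ne' b'
    · exact Finset.prod_ne_zero_iff.2 fun k _ => P.X_ne h k

/-- **hbV** -/
theorem hbV (h : RatCoord ℂ F x y) (l : P.L) (V : ValuationSubring F)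
    (hV : ∀ c : ℂ, algebraMap ℂ F c ∈ V) (hsec : ∀ j, P.sec x y j ∈ V)
    (h1 : P.mlt x y l ∈ V) (h2 : (P.mlt x y l)⁻¹ ∈ V) :
    P.cp x l ∈ V ∧ P.cq x y l ∈ V ∧ (P.ch x y l)⁻¹ ∈ V :=
  P.mlt_val V hV (P.th_ne h) h.left_ne_zero (P.X_ne h) hsec l h1 h2 (P.mlt_ne h l)

end Plane2

end Crest.Agent.R278
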