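import Crest.Agent.R278.Plane2Inst

/-!
Row 278 (S0421): regularity of the sections and of the multipliers, for plane data.
-/

set_option autoImplicit false

namespace Crest.Agent.R278

open MvPolynomial

namespace Plane2

variable (P : Plane2)

/-- the factor `x - a_i` as a polynomial -/
noncomputable def xp (i : Fin P.r) : P2 := MvPolynomial.X 0 - C (P.a i)

noncomputable def Pμp : P2 := ∏ i, P.xp i ^ P.μ i

noncomputable def Nnp (i : Fin P.r) (b : ℂ) : P2 :=
  P.xp i ^ P.M i b * (∏ b' ∈ (P.S i).erase b, (MvPolynomial.X 1 - C b') ^ (P.M i b' - P.M i b)) *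
    ∏ k ∈ Finset.univ.erase i, P.xp k ^ P.μ k

/-- the numerators as polynomials -/
noncomputable def nump : P.J → P2
  | Sum.inl 0 => P.Pμp
  | Sum.inl 1 => P.Pμp * MvPolynomial.X 0 ^ P.n
  | Sum.inl 2 => P.Pμp * MvPolynomial.X 0
  | Sum.inl 3 => P.Pμp * MvPolynomial.X 1
  | Sum.inr p => P.Nnp p.1 p.2

variable {F : Type} [Field F] [Algebra ℂ F] {x y : F}

theorem ev_xp (i : Fin P.r) : aeval ![x, y] (P.xp i) = P.X x i := by
  unfold xp X
  simp

theorem ev_yp (b : ℂ) : aeval ![x, y] (MvPolynomial.X 1 - C b : P2) = y - algebraMap ℂ F b := by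
  simp

theorem ev_Pμp : aeval ![x, y] P.Pμp = P.Pμ x := by
  unfold Pμp Pμ
  rw [map_prod]
  exact Finset.prod_congr rfl fun i _ => by rw [map_pow, ev_xp]

theorem ev_Nnp (i : Fin P.r) (b : ℂ) : aeval ![x, y] (P.Nnp i b) = P.Nn x y i b := by
  unfold Nnp Nn
  rw [map_mul, map_mul, map_pow, ev_xp, map_prod, map_prod]
  congr 1
  · congr 1
    exact Finset.prod_congr rfl fun b' _ => by rw [map_pow, ev_yp]
  · exact Finset.prod_congr rfl fun k _ => by rw [map_pow, ev_xp]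

theorem ev_nump (j : P.J) : aeval ![x, y] (P.nump j) = P.num x y j := by
  match j with
  | Sum.inl 0 => exact P.ev_Pμp
  | Sum.inl 1 =>
    change aeval ![x, y] (P.Pμp * MvPolynomial.X 0 ^ P.n) = P.Pμ x * x ^ P.n
    rw [map_mul, ev_Pμp, map_pow, aeval_X]; rfl
  | Sum.inl 2 =>
    change aeval ![x, y] (P.Pμp * MvPolynomial.X 0) = P.Pμ x * x
    rw [map_mul, ev_Pμp, aeval_X]; rfl
  | Sum.inl 3 =>
    change aeval ![x, y] (P.Pμp * MvPolynomial.X 1) = P.Pμ x * y
    rw [map_mul, ev_Pμp, aeval_X]; rfl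
  | Sum.inr p => exact P.ev_Nnp p.1 p.2

/-! ### degrees -/

theorem deg_xp (i : Fin P.r) : (P.xp i).totalDegree ≤ 1 := by
  refine (totalDegree_sub _ _).trans ?_
  rw [totalDegree_X, totalDegree_C]; norm_num

theorem deg_yp (b : ℂ) : (MvPolynomial.X 1 - C b : P2).totalDegree ≤ 1 := by
  refine (totalDegree_sub _ _).trans ?_
  rw [totalDegree_X, totalDegree_C]; norm_num

theorem deg_pow {f : P2} (h : f.totalDegree ≤ 1) (k : ℕ) : (f ^ k).totalDegree ≤ k := by
  refine (totalDegree_pow _ _).trans ?_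
  calc k * f.totalDegree ≤ k * 1 := Nat.mul_le_mul_left _ h
    _ = k := mul_one _

theorem deg_prod {ι : Type*} (s : Finset ι) (f : ι → P2) (k : ι → ℕ)
    (h : ∀ i ∈ s, (f i).totalDegree ≤ 1) : (∏ i ∈ s, f i ^ k i).totalDegree ≤ ∑ i ∈ s, k i :=
  (totalDegree_finsetProd _ _).trans (Finset.sum_le_sum fun i hi => deg_pow (h i hi) _)

theorem deg_Pμp : P.Pμp.totalDegree ≤ ∑ i, P.μ i :=
  deg_prod _ _ _ fun i _ => P.deg_xp i

theorem deg_Nnp (i : Fin P.r) {b : ℂ} (hb : b ∈ P.S i) : (P.Nnp i b).totalDegree < P.D := by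
  refine lt_of_le_of_lt ?_ (P.hN i b hb)
  refine (totalDegree_mul _ _).trans (Nat.add_le_add ((totalDegree_mul _ _).trans
    (Nat.add_le_add (deg_pow (P.deg_xp i) _) ?_)) ?_)
  · exact deg_prod _ _ _ fun b' _ => deg_yp b'
  · exact deg_prod _ _ _ fun k _ => P.deg_xp k

theorem deg_nump (j : P.J) : (P.nump j).totalDegree ≤ P.D := by
  have hD := P.hμD
  match j with
  | Sum.inl 0 => exact P.deg_Pμp.trans hD.le
  | Sum.inl 1 =>
    refine (totalDegree_mul _ _).trans ((Nat.add_le_add P.deg_Pμp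
      (deg_pow (by rw [totalDegree_X]) P.n)).trans ?_)
    rw [n]; omega
  | Sum.inl 2 =>
    refine (totalDegree_mul _ _).trans ((Nat.add_le_add P.deg_Pμp
      (by rw [totalDegree_X] : _ ≤ 1)).trans ?_)
    omega
  | Sum.inl 3 =>
    refine (totalDegree_mul _ _).trans ((Nat.add_le_add P.deg_Pμp
      (by rw [totalDegree_X] : _ ≤ 1)).trans ?_)
    omega
  | Sum.inr ⟨i, b, hb⟩ => exact (P.deg_Nnp i hb).le

/-! ### membership at the points -/

theorem xp_mem (i : Fin P.r) (b : ℂ) : P.xp i ∈ mI (P.a i) b := Ideal.subset_span (by simp [xp])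

theorem yp_mem (a b : ℂ) : (MvPolynomial.X 1 - C b : P2) ∈ mI a b := Ideal.subset_span (by simp)

theorem Pμp_mem (i : Fin P.r) {b : ℂ} (hb : b ∈ P.S i) : P.Pμp ∈ mI (P.a i) b ^ P.M i b := by
  unfold Pμp
  rw [← Finset.mul_prod_erase _ _ (Finset.mem_univ i)]
  exact Ideal.mul_mem_right _ _ (Ideal.pow_le_pow_right (P.hμ i b hb)
    (Ideal.pow_mem_pow (P.xp_mem i b) _))

theorem Nnp_mem (i : Fin P.r) {b : ℂ} (hb : b ∈ P.S i) (i' : Fin P.r) (b' : ℂ) :
    P.Nnp i' b' ∈ mI (P.a i) b ^ P.M i b := by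
  classical
  by_cases hi : i' = i
  · subst hi
    unfold Nnp
    refine Ideal.mul_mem_right _ _ ?_
    by_cases hbb : b = b'
    · subst hbb
      exact Ideal.mul_mem_right _ _ (Ideal.pow_mem_pow (P.xp_mem i' b) _)
    · rw [← Finset.mul_prod_erase ((P.S i').erase b') _ (Finset.mem_erase.2 ⟨hbb, hb⟩),
        ← mul_assoc]
      refine Ideal.mul_mem_right _ _ ?_
      have h1 := Ideal.mul_mem_mul (Ideal.pow_mem_pow (P.xp_mem i' b) (P.M i' b'))
        (Ideal.pow_mem_pow (yp_mem (P.a i') b) (P.M i' b - P.M i' b'))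
      rw [← pow_add] at h1
      exact Ideal.pow_le_pow_right (by omega) h1
  · unfold Nnp
    refine Ideal.mul_mem_left _ _ ?_
    rw [← Finset.mul_prod_erase (Finset.univ.erase i') _
      (Finset.mem_erase.2 ⟨Ne.symm hi, Finset.mem_univ i⟩)]
    exact Ideal.mul_mem_right _ _ (Ideal.pow_le_pow_right (P.hμ i b hb)
      (Ideal.pow_mem_pow (P.xp_mem i b) _))

theorem nump_mem (i : Fin P.r) {b : ℂ} (hb : b ∈ P.S i) (j : P.J) :
    P.nump j ∈ mI (P.a i) b ^ P.M i b := by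
  match j with
  | Sum.inl 0 => exact P.Pμp_mem i hb
  | Sum.inl 1 => exact Ideal.mul_mem_right _ _ (P.Pμp_mem i hb)
  | Sum.inl 2 => exact Ideal.mul_mem_right _ _ (P.Pμp_mem i hb)
  | Sum.inl 3 => exact Ideal.mul_mem_right _ _ (P.Pμp_mem i hb)
  | Sum.inr p => exact P.Nnp_mem i hb _ _

/-! ### the general regularity statement -/

theorem reg_all (h : RatCoord ℂ F x y) {Q : P2} {k : ℕ} (hQ : Q.totalDegree ≤ k * P.D)
    (hQ' : ∀ i, ∀ b ∈ P.S i, Q ∈ mI (P.a i) b ^ (k * P.M i b)) (l : P.L) :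
    aeval ![x, y] Q / P.th x y ^ k ∈ chartRing ℂ (P.cp x l) (P.cq x y l) (P.ch x y l) := by
  match l with
  | Sum.inl 0 => exact reg_aff h P.good.ne_zero Q k
  | Sum.inl 1 => exact reg_inf h P.good.ne_zero hQ
  | Sum.inr ⟨i, b, hb⟩ => exact reg_pt i h P.good.ne_zero (hQ' i b hb)

theorem sec_mem (h : RatCoord ℂ F x y) (j : P.J) (l : P.L) :
    P.sec x y j ∈ chartRing ℂ (P.cp x l) (P.cq x y l) (P.ch x y l) := by
  have h1 := P.reg_all h (Q := P.nump j) (k := 1) (by rw [one_mul]; exact P.deg_nump j)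
    (fun i b hb => by rw [one_mul]; exact P.nump_mem i hb j) l
  rwa [ev_nump, pow_one] at h1

/-! ### the multipliers -/

/-- numerators of the multipliers -/
noncomputable def mltp : P.L → P2
  | Sum.inl 0 => P.Pμp ^ P.kk * ∏ i, P.xp i ^ 1
  | Sum.inl 1 => P.Pμp ^ P.kk * MvPolynomial.X 0 ^ (P.n * P.kk - P.r) * ∏ i, P.xp i ^ 1
  | Sum.inr p => P.Nnp p.1 p.2 ^ P.kk *
      (∏ b' ∈ (P.S p.1).erase p.2, (MvPolynomial.X 1 - C b') ^ 1) *
      ∏ k ∈ Finset.univ.erase p.1, P.xp k ^ 1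

theorem r_le : P.r ≤ P.kk := by unfold kk; omega


theorem ev_mltp (h : RatCoord ℂ F x y) (l : P.L) :
    P.mlt x y l = aeval ![x, y] (P.mltp l) / P.th x y ^ P.kk := by
  match l with
  | Sum.inl 0 =>
    change (P.Pμ x / P.th x y) ^ P.kk * ∏ i, P.X x i =
      aeval ![x, y] (P.Pμp ^ P.kk * ∏ i, P.xp i ^ 1) / _
    rw [map_mul, map_pow, ev_Pμp, map_prod, div_pow]
    simp only [pow_one, ev_xp]
    ring
  | Sum.inl 1 =>
    change (P.Pμ x * x ^ P.n / P.th x y) ^ P.kk * ((∏ i, P.X x i) / x ^ P.r) =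
      aeval ![x, y] (P.Pμp ^ P.kk * MvPolynomial.X 0 ^ (P.n * P.kk - P.r) * ∏ i, P.xp i ^ 1) / _
    rw [map_mul, map_mul, map_pow, map_pow, aeval_X, ev_Pμp, map_prod, div_pow, mul_pow]
    simp only [pow_one, ev_xp]
    have hx := h.left_ne_zero
    have h1 : P.r ≤ P.n * P.kk := P.r_le.trans (Nat.le_mul_of_pos_left _ P.n_pos)
    have h2 : (x ^ P.n) ^ P.kk = x ^ (P.n * P.kk - P.r) * x ^ P.r := by
      rw [← pow_mul, ← pow_add]; congr 1; omega
    have h3 : (![x, y] : Fin 2 → F) 0 = x := rfl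
    rw [h2, h3]
    field_simp
  | Sum.inr ⟨i, b, hb⟩ =>
    change (P.Nn x y i b / P.th x y) ^ P.kk *
      (∏ b' ∈ (P.S i).erase b, (y - algebraMap ℂ F b')) *
      (∏ k ∈ Finset.univ.erase i, P.X x k) =
      aeval ![x, y] (P.Nnp i b ^ P.kk *
      (∏ b' ∈ (P.S i).erase b, (MvPolynomial.X 1 - C b') ^ 1) *
      ∏ k ∈ Finset.univ.erase i, P.xp k ^ 1) / _
    rw [map_mul, map_mul, map_pow, ev_Nnp, map_prod, map_prod, div_pow]
    simp only [pow_one, ev_xp, ev_yp]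
    ring

theorem deg_mltp (l : P.L) : (P.mltp l).totalDegree ≤ P.kk * P.D := by
  have hD := P.hμD
  have hr := P.r_le
  have h0 : (P.Pμp ^ P.kk).totalDegree ≤ P.kk * ∑ i, P.μ i :=
    (totalDegree_pow _ _).trans (Nat.mul_le_mul_left _ P.deg_Pμp)
  have h1 : (∏ i, P.xp i ^ 1).totalDegree ≤ P.r := by
    refine (deg_prod _ _ _ fun i _ => P.deg_xp i).trans ?_
    simp
  match l with
  | Sum.inl 0 =>
    refine (totalDegree_mul _ _).trans ((Nat.add_le_add h0 h1).trans ?_)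
    calc P.kk * ∑ i, P.μ i + P.r ≤ P.kk * ∑ i, P.μ i + P.kk := by omega
      _ = P.kk * (∑ i, P.μ i + 1) := by ring
      _ ≤ P.kk * P.D := Nat.mul_le_mul_left _ hD
  | Sum.inl 1 =>
    have h2 : P.r ≤ P.n * P.kk := P.r_le.trans (Nat.le_mul_of_pos_left _ P.n_pos)
    have h3 : (MvPolynomial.X 0 ^ (P.n * P.kk - P.r) : P2).totalDegree ≤ P.n * P.kk - P.r :=
      deg_pow (by rw [totalDegree_X]) _
    have h4 : ∑ i, P.μ i + P.n = P.D := by rw [n]; omega
    refine (totalDegree_mul _ _).trans ((Nat.add_le_add ((totalDegree_mul _ _).trans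
      (Nat.add_le_add h0 h3)) h1).trans ?_)
    rw [← h4, mul_add, mul_comm P.kk P.n]
    omega
  | Sum.inr ⟨i, b, hb⟩ =>
    have h2 : (P.Nnp i b ^ P.kk).totalDegree ≤ P.kk * (P.D - 1) := by
      refine (totalDegree_pow _ _).trans (Nat.mul_le_mul_left _ ?_)
      have := P.deg_Nnp i hb
      omega
    have h3 : (∏ b' ∈ (P.S i).erase b, (MvPolynomial.X 1 - C b' : P2) ^ 1).totalDegree ≤
        ∑ i, (P.S i).card := by
      refine (deg_prod _ _ _ fun b' _ => deg_yp b').trans ?_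
      rw [Finset.sum_const, smul_eq_mul, mul_one]
      exact (Finset.card_le_card (Finset.erase_subset _ _)).trans
        (Finset.single_le_sum (f := fun i => (P.S i).card) (fun _ _ => Nat.zero_le _)
          (Finset.mem_univ i))
    have h4 : (∏ k ∈ Finset.univ.erase i, P.xp k ^ 1).totalDegree ≤ P.r := by
      refine (deg_prod _ _ _ fun k _ => P.deg_xp k).trans ?_
      rw [Finset.sum_const, smul_eq_mul, mul_one]
      refine (Finset.card_le_card (Finset.erase_subset _ _)).trans ?_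
      rw [Finset.card_univ, Fintype.card_fin]
    refine (totalDegree_mul _ _).trans ((Nat.add_le_add ((totalDegree_mul _ _).trans
      (Nat.add_le_add h2 h3)) h4).trans ?_)
    have h5 : P.kk * P.D = P.kk * (P.D - 1) + P.kk := by
      obtain ⟨e, he⟩ := Nat.exists_eq_add_of_lt hD
      rw [he]
      have : ∑ i, P.μ i + e + 1 - 1 = ∑ i, P.μ i + e := by omega
      rw [this]; ring
    rw [h5, kk]
    omega

theorem mltp_mem (l : P.L) (i : Fin P.r) {b : ℂ} (hb : b ∈ P.S i) :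
    P.mltp l ∈ mI (P.a i) b ^ (P.kk * P.M i b) := by
  have key : ∀ {f : P2}, f ∈ mI (P.a i) b ^ P.M i b → f ^ P.kk ∈
      mI (P.a i) b ^ (P.kk * P.M i b) := fun {f} hf => by
    rw [mul_comm, pow_mul]; exact Ideal.pow_mem_pow hf _
  match l with
  | Sum.inl 0 => exact Ideal.mul_mem_right _ _ (key (P.Pμp_mem i hb))
  | Sum.inl 1 => exact Ideal.mul_mem_right _ _ (Ideal.mul_mem_right _ _ (key (P.Pμp_mem i hb)))
  | Sum.inr p =>
    exact Ideal.mul_mem_right _ _ (Ideal.mul_mem_right _ _ (key (P.Nnp_mem i hb _ _)))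

theorem mlt_mem (h : RatCoord ℂ F x y) (l l' : P.L) :
    P.mlt x y l ∈ chartRing ℂ (P.cp x l') (P.cq x y l') (P.ch x y l') := by
  rw [P.ev_mltp h]
  exact P.reg_all h (P.deg_mltp l) (fun i b hb => P.mltp_mem l i hb) l'

end Plane2

end Crest.Agent.R278
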