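import Crest.Agent.R278.TwoRad
import Crest.Agent.R278.Plane2Inst
import Crest.Agent.R278.CheckList
import Crest.Agent.R278.AffInf
import Crest.Agent.R278.Plane2E
import Crest.Agent.R278.RegFacts
import Crest.Agent.R278.MltInv

/-!
Row 278 (S0421): the certificate for plane data.
-/

set_option autoImplicit false

namespace Crest.Agent.R278

open MvPolynomial

section Glue

variable {F : Type} [Field F] [Algebra ℂ F] [Algebra (MvPolynomial (Fin 2) ℂ) F]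
  [IsScalarTower ℂ (MvPolynomial (Fin 2) ℂ) F] [IsFractionRing (MvPolynomial (Fin 2) ℂ) F]

/-- the certificate for plane data -/
theorem concl_of_plane {N : ℕ} [NeZero N] {w₁ w₂ : F} (hw₁ : w₁ ≠ 0) (hw₂ : w₂ ≠ 0)
    (V₁ V₂ : Derivation ℂ F F) (r₁ r₂ : F) (P : Plane2)
    (C : P.L → ChartData N w₁ w₂ V₁ V₂ r₁ r₂)
    (hp : ∀ l, (C l).p = P.cp (xF F) l) (hq : ∀ l, (C l).q = P.cq (xF F) (yF F) l)
    (hh : ∀ l, (C l).h = P.ch (xF F) (yF F) l)
    (hE : ∀ V : ValuationSubring F, IsVE V (xF F) (yF F) →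
      V.valuation ((r₁ * V₁ (xF F)) ^ N * w₁) < 1 ∧
      V.valuation ((r₁ * V₁ (yF F)) ^ N * w₁) < V.valuation (yF F) ^ N) : Concl := by
  have hxy : RatCoord ℂ F (xF F) (yF F) := RatCoord.coord
  have hring : ∀ l, chartRing ℂ (C l).p (C l).q (C l).h =
      chartRing ℂ (P.cp (xF F) l) (P.cq (xF F) (yF F) l) (P.ch (xF F) (yF F) l) := fun l => by
    rw [hp, hq, hh]
  have : Nonempty P.L := ⟨Sum.inl 0⟩
  refine concl_of_chartData hw₁ hw₂ V₁ V₂ r₁ r₂ C (P.sec (xF F) (yF F))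
    (fun j l => by rw [hring]; exact P.sec_mem hxy j l) (P.hgen F) ?_ (P.mlt (xF F) (yF F))
    (fun l l' => by rw [hring]; exact P.mlt_mem hxy l l') (P.mlt_ne hxy)
    (fun l => by rw [hring]; exact P.mlt_inv_mem' hxy l) ?_ (fun V hV => ⟨fun j => P.sec_mem_E hV j, hE V hV⟩)
  · intro V hV h1 h2
    obtain ⟨l, h3, h4, h5⟩ := P.hcov hxy V hV h1 h2
    exact ⟨l, (hp l).symm ▸ h3, (hq l).symm ▸ h4, (hh l).symm ▸ h5⟩
  · intro l V hV h1 h2 h3
    obtain ⟨h4, h5, h6⟩ := P.hbV hxy l V hV h1 h2 h3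
    exact ⟨(hp l).symm ▸ h4, (hq l).symm ▸ h5, (hh l).symm ▸ h6⟩

end Glue

namespace CheckList

variable {N : ℕ} {S : VFData} (Q : CheckList N S)

section

variable {F : Type} [Field F] [Algebra ℂ F] [Algebra (MvPolynomial (Fin 2) ℂ) F]
  [IsScalarTower ℂ (MvPolynomial (Fin 2) ℂ) F] [IsFractionRing (MvPolynomial (Fin 2) ℂ) F]

theorem concl' [NeZero N]
    (Ca Ci : ChartData N (S.W₁ F) (S.W₂ F) (S.V₁ F) (S.V₂ F) (S.R F) (S.R F))
    (hpa : Ca.p = xF F) (hqa : Ca.q = yF F) (hha : Ca.h = S.Θ F * ∏ i, S.Xi F i)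
    (hpi : Ci.p = (xF F)⁻¹) (hqi : Ci.q = yF F / xF F)
    (hhi : Ci.h = S.Θ F / xF F ^ (Q.dz + Q.d₁ + Q.d₂ + 3 * Q.de) *
      ∏ i, (1 - algebraMap ℂ F (S.a i) / xF F))
    (hE : ∀ V : ValuationSubring F, IsVE V (xF F) (yF F) →
      V.valuation ((S.R F * S.V₁ F (xF F)) ^ N * S.W₁ F) < 1 ∧
      V.valuation ((S.R F * S.V₁ F (yF F)) ^ N * S.W₁ F) < V.valuation (yF F) ^ N) : Concl := by
  refine concl_of_plane (N := N) (div_ne_zero (S.P_ne F) (VFData.φF_ne F S.w₁_ne))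
    (div_ne_zero (S.P_ne F) (VFData.φF_ne F S.w₂_ne)) (S.V₁ F) (S.V₂ F) (S.R F) (S.R F)
    Q.plane (Q.chart Ca Ci) ?_ ?_ ?_ hE
  · rintro (l | ⟨i, b, hb⟩)
    · fin_cases l
      · exact hpa
      · exact hpi
    · rfl
  · rintro (l | ⟨i, b, hb⟩)
    · fin_cases l
      · exact hqa
      · exact hqi
    · rfl
  · rintro (l | ⟨i, b, hb⟩)
    · fin_cases l
      · refine hha.trans ?_
        change _ = Q.plane.th (xF F) (yF F) * ∏ i, _
        rw [Q.th_eq]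
        rfl
      · refine hhi.trans ?_
        change _ = Q.plane.th (xF F) (yF F) / _ * ∏ i, _
        rw [Q.th_eq]
        rfl
    · change (Q.T i b hb).h F = Q.plane.th (xF F) (yF F) / _ * _ * _
      rw [Q.th_eq]
      exact Q.point_h i b hb

/-- **The certificate.** -/
theorem concl (hN : 0 < N) (TI : InfFacts N S)
    (hD : TI.D = Q.dz + Q.d₁ + Q.d₂ + 3 * Q.de)
    (hE : ∀ V : ValuationSubring F, IsVE V (xF F) (yF F) →
      V.valuation ((S.R F * S.V₁ F (xF F)) ^ N * S.W₁ F) < 1 ∧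
      V.valuation ((S.R F * S.V₁ F (yF F)) ^ N * S.W₁ F) < V.valuation (yF F) ^ N) : Concl := by
  have : NeZero N := ⟨hN.ne'⟩
  refine Q.concl' (S.affChart F hN) (TI.infChart F hN) rfl rfl rfl rfl rfl ?_ hE
  rw [InfFacts.infChart_h, hD]

end

end CheckList

end Crest.Agent.R278
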