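import Mathlib

/-!
Kummer charts: `K = F(g)`, `g ^ N = u` a unit of the normal domain `R` with fraction field `F`.
Then the integral closure of `R` in `K` is `R[g]`, and derivations of `K` preserving `R` up to
integral elements preserve the integral closure.
-/

set_option autoImplicit false

namespace Crest.Agent.R278

open Module

section Trace

variable {F K : Type*} [Field F] [Field K] [Algebra F K] {N : ℕ}

theorem trace_pow_eq_zero (hN : 0 < N) (g : K) (b : Basis (Fin N) F K)
    (hb : ∀ i, b i = g ^ (i : ℕ)) (w : F) (hw : g ^ N = algebraMap F K w)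
    {j : ℕ} (hj : ¬ N ∣ j) : Algebra.trace F K (g ^ j) = 0 := by
  classical
  have key : ∀ j, 0 < j → j < N → Algebra.trace F K (g ^ j) = 0 := by
    intro j hj0 hjN
    rw [Algebra.trace_eq_matrix_trace b, Matrix.trace]
    apply Finset.sum_eq_zero
    intro i _
    rw [Matrix.diag_apply, Algebra.leftMulMatrix_apply, LinearMap.toMatrix_apply]
    have hcoe : (Algebra.lmul F K (g ^ j)) (b i) = g ^ (j + (i : ℕ)) := by
      rw [Algebra.coe_lmul_eq_mul, LinearMap.mul_apply', hb i, ← pow_add]
    rw [hcoe]
    by_cases h : j + (i : ℕ) < N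
    · have : g ^ (j + (i : ℕ)) = b ⟨j + i, h⟩ := by rw [hb]
      rw [this, b.repr_self, Finsupp.single_apply, if_neg]
      intro hh
      have := congrArg Fin.val hh
      simp at this
      omega
    · have h' : j + (i : ℕ) = (j + i - N) + N := by omega
      have hlt : j + (i : ℕ) - N < N := by have := i.2; omega
      have : g ^ (j + (i : ℕ)) = w • b ⟨j + i - N, hlt⟩ := by
        rw [hb, Algebra.smul_def, ← hw, mul_comm, ← pow_add]
        exact congrArg (g ^ ·) h'
      rw [this, map_smul, b.repr_self, Finsupp.smul_apply, Finsupp.single_apply, if_neg, smul_zero]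
      intro hh
      have := congrArg Fin.val hh
      simp at this
      omega
  have hdm := Nat.div_add_mod j N
  have hmod : 0 < j % N := by
    rcases Nat.eq_zero_or_pos (j % N) with h | h
    · exact absurd (Nat.dvd_of_mod_eq_zero h) hj
    · exact h
  have : g ^ j = (w ^ (j / N)) • g ^ (j % N) := by
    conv_lhs => rw [← hdm, pow_add, pow_mul, hw]
    rw [Algebra.smul_def, map_pow]
  rw [this, map_smul, key _ hmod (Nat.mod_lt _ hN), smul_zero]

theorem trace_mul_pow (hN : 0 < N) (g : K) (b : Basis (Fin N) F K)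
    (hb : ∀ i, b i = g ^ (i : ℕ)) (w : F) (hw : g ^ N = algebraMap F K w)
    (v : K) (l : Fin N) :
    Algebra.trace F K (v * g ^ (N - (l : ℕ))) = (N : F) * w * b.repr v l := by
  classical
  conv_lhs => rw [← b.sum_repr v]
  rw [Finset.sum_mul, map_sum, Finset.sum_eq_single l]
  · rw [smul_mul_assoc, hb, ← pow_add, map_smul]
    have : (l : ℕ) + (N - l) = N := by have := l.2; omega
    rw [this, hw, Algebra.trace_algebraMap]
    have hfr : Module.finrank F K = N := by
      rw [Module.finrank_eq_card_basis b, Fintype.card_fin]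
    rw [hfr, smul_eq_mul, nsmul_eq_mul]
    ring
  · intro i _ hil
    rw [smul_mul_assoc, hb, ← pow_add, map_smul, trace_pow_eq_zero hN g b hb w hw, smul_zero]
    intro hd
    have hi := i.2
    have hl := l.2
    have hne : (i : ℕ) ≠ l := fun h => hil (Fin.ext h)
    obtain ⟨c, hc⟩ := hd
    have hc0 : 0 < c := by
      rcases Nat.eq_zero_or_pos c with h | h
      · subst h; omega
      · exact h
    have hc2 : c < 2 := by
      by_contra h
      have : 2 ≤ c := by omega
      have : N * 2 ≤ N * c := Nat.mul_le_mul_left _ this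
      omega
    have : c = 1 := by omega
    subst this
    omega
  · simp

end Trace

section Integral

variable {F K : Type*} [Field F] [Field K] [Algebra F K] {N : ℕ}
variable {R : Type*} [CommRing R] [IsIntegrallyClosed R] [Algebra R F] [IsFractionRing R F]
  [Algebra R K] [IsScalarTower R F K]

theorem exists_coeff (hN : 0 < N) (hNR : IsUnit (N : R)) (g : K) (b : Basis (Fin N) F K)
    (hb : ∀ i, b i = g ^ (i : ℕ)) (u : Rˣ) (hw : g ^ N = algebraMap R K u)
    {v : K} (hv : IsIntegral R v) (l : Fin N) : ∃ r : R, algebraMap R F r = b.repr v l := by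
  have : FiniteDimensional F K := Module.Finite.of_basis b
  have hg : IsIntegral R g := by
    apply IsIntegral.of_pow hN
    rw [hw]; exact isIntegral_algebraMap
  have hw' : g ^ N = algebraMap F K (algebraMap R F u) := by
    rw [hw, ← IsScalarTower.algebraMap_apply R F K]
  have h1 : IsIntegral R (Algebra.trace F K (v * g ^ (N - (l : ℕ)))) :=
    Algebra.isIntegral_trace (hv.mul (hg.pow _))
  rw [trace_mul_pow hN g b hb _ hw'] at h1
  obtain ⟨r, hr⟩ := IsIntegrallyClosed.isIntegral_iff.1 h1
  obtain ⟨n, hn⟩ := hNR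
  have hnF : algebraMap R F ↑n⁻¹ * (N : F) = 1 := by
    have : (N : F) = algebraMap R F (N : R) := by simp
    rw [this, ← hn, ← map_mul, Units.inv_mul, map_one]
  refine ⟨↑n⁻¹ * ↑u⁻¹ * r, ?_⟩
  rw [map_mul, map_mul, hr]
  have hu : algebraMap R F ↑u⁻¹ * algebraMap R F (u : R) = 1 := by
    rw [← map_mul, Units.inv_mul, map_one]
  calc algebraMap R F ↑n⁻¹ * algebraMap R F ↑u⁻¹ * ((N : F) * algebraMap R F ↑u * b.repr v l)
      = (algebraMap R F ↑n⁻¹ * N) * (algebraMap R F ↑u⁻¹ * algebraMap R F (u : R)) *
          b.repr v l := by ring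
    _ = b.repr v l := by rw [hnF, hu]; ring

theorem exists_sum (hN : 0 < N) (hNR : IsUnit (N : R)) (g : K) (b : Basis (Fin N) F K)
    (hb : ∀ i, b i = g ^ (i : ℕ)) (u : Rˣ) (hw : g ^ N = algebraMap R K u)
    {v : K} (hv : IsIntegral R v) :
    ∃ r : Fin N → R, v = ∑ i, algebraMap R K (r i) * g ^ (i : ℕ) := by
  choose r hr using exists_coeff hN hNR g b hb u hw hv
  refine ⟨r, ?_⟩
  conv_lhs => rw [← b.sum_repr v]
  refine Finset.sum_congr rfl fun i _ => ?_
  rw [← hr, hb, Algebra.smul_def, IsScalarTower.algebraMap_apply R F K]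

theorem isIntegral_iff_mem_adjoin (hN : 0 < N) (hNR : IsUnit (N : R)) (g : K) (b : Basis (Fin N) F K)
    (hb : ∀ i, b i = g ^ (i : ℕ)) (u : Rˣ) (hw : g ^ N = algebraMap R K u)
    {v : K} : IsIntegral R v ↔ v ∈ Algebra.adjoin R {g} := by
  constructor
  · intro hv
    obtain ⟨r, hr⟩ := exists_sum hN hNR g b hb u hw hv
    rw [hr]
    have hgm : g ∈ Algebra.adjoin R {g} := Algebra.subset_adjoin (Set.mem_singleton g)
    exact sum_mem fun i _ => mul_mem (Subalgebra.algebraMap_mem _ _) (pow_mem hgm _)
  · intro hv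
    have hg : IsIntegral R g := by
      apply IsIntegral.of_pow hN
      rw [hw]; exact isIntegral_algebraMap
    have : Algebra.adjoin R {g} ≤ integralClosure R K := by
      rw [Algebra.adjoin_le_iff]
      intro x hx
      rw [Set.mem_singleton_iff] at hx
      subst hx
      exact hg
    exact this hv

end Integral

end Crest.Agent.R278
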