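import Mathlib

set_option autoImplicit false

namespace Crest.Agent.R278

section Approx

variable {R : Type*} [CommRing R] [Algebra ℂ R] (D₁ D₂ : Derivation ℂ R R)

/-- If `M = (u,v)`, every element is a constant plus an element of `M`, and the derivations
preserve `M`, then the values of `(D₁,D₂)` are, modulo every power of `M`, combinations of the
values at `u` and `v`. -/
theorem approx (M : Ideal R) (u v : R) (hM : M = Ideal.span {u, v})
    (hC : ∀ x : R, ∃ c : ℂ, x - algebraMap ℂ R c ∈ M) (n : ℕ) :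
    ∀ x : R, ∃ a b : R, D₁ x - (a * D₁ u + b * D₁ v) ∈ M ^ n ∧
      D₂ x - (a * D₂ u + b * D₂ v) ∈ M ^ n := by
  induction n with
  | zero => intro x; exact ⟨0, 0, by simp, by simp⟩
  | succ n ih =>
    intro x
    obtain ⟨c, hc⟩ := hC x
    rw [hM, Ideal.mem_span_pair] at hc
    obtain ⟨α, β, hab⟩ := hc
    have hx : x = algebraMap ℂ R c + (α * u + β * v) := by rw [hab]; ring
    obtain ⟨a₁, b₁, h11, h12⟩ := ih α
    obtain ⟨a₂, b₂, h21, h22⟩ := ih β
    have hu : u ∈ M := by rw [hM]; exact Ideal.subset_span (by simp)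
    have hv : v ∈ M := by rw [hM]; exact Ideal.subset_span (by simp)
    refine ⟨α + u * a₁ + v * a₂, β + u * b₁ + v * b₂, ?_, ?_⟩
    · have h := Ideal.add_mem _ (Ideal.mul_mem_mul hu h11) (Ideal.mul_mem_mul hv h21)
      rw [← pow_succ'] at h
      convert h using 1
      rw [hx]
      simp only [map_add, Derivation.leibniz, Derivation.map_algebraMap, smul_eq_mul]
      ring
    · have h := Ideal.add_mem _ (Ideal.mul_mem_mul hu h12) (Ideal.mul_mem_mul hv h22)
      rw [← pow_succ'] at h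
      convert h using 1
      rw [hx]
      simp only [map_add, Derivation.leibniz, Derivation.map_algebraMap, smul_eq_mul]
      ring

/-- The minor of the pair `(D₁,D₂)` on the pair `(x,y)`. -/
def minor (x y : R) : R := D₁ x * D₂ y - D₁ y * D₂ x

theorem minor_mem_sup_pow (M : Ideal R) (u v : R) (hM : M = Ideal.span {u, v})
    (hC : ∀ x : R, ∃ c : ℂ, x - algebraMap ℂ R c ∈ M) (x y : R) (n : ℕ) :
    minor D₁ D₂ x y ∈ Ideal.span {minor D₁ D₂ u v} ⊔ M ^ n := by
  obtain ⟨a, b, h1, h2⟩ := approx D₁ D₂ M u v hM hC n x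
  obtain ⟨c, d, h3, h4⟩ := approx D₁ D₂ M u v hM hC n y
  set e1 := D₁ x - (a * D₁ u + b * D₁ v) with he1
  set e2 := D₂ x - (a * D₂ u + b * D₂ v) with he2
  set e3 := D₁ y - (c * D₁ u + d * D₁ v) with he3
  set e4 := D₂ y - (c * D₂ u + d * D₂ v) with he4
  have hx1 : D₁ x = a * D₁ u + b * D₁ v + e1 := by rw [he1]; ring
  have hx2 : D₂ x = a * D₂ u + b * D₂ v + e2 := by rw [he2]; ring
  have hy1 : D₁ y = c * D₁ u + d * D₁ v + e3 := by rw [he3]; ring
  have hy2 : D₂ y = c * D₂ u + d * D₂ v + e4 := by rw [he4]; ring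
  have : minor D₁ D₂ x y = (a * d - b * c) * minor D₁ D₂ u v
      + ((a * D₁ u + b * D₁ v) * e4 + D₂ y * e1 - ((c * D₁ u + d * D₁ v) * e2 + D₂ x * e3)) := by
    unfold minor
    rw [hx1, hx2, hy1, hy2]
    ring
  rw [this]
  refine Submodule.add_mem_sup (Ideal.mul_mem_left _ _ (Ideal.mem_span_singleton_self _)) ?_
  refine Ideal.sub_mem _ (Ideal.add_mem _ (Ideal.mul_mem_left _ _ h4) (Ideal.mul_mem_left _ _ h1))
    (Ideal.add_mem _ (Ideal.mul_mem_left _ _ h2) (Ideal.mul_mem_left _ _ h3))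

/-- In a Noetherian local ring, `⋂ₙ (I + mⁿ) = I`. -/
theorem mem_of_forall_mem_sup_pow {R : Type*} [CommRing R] [IsLocalRing R] [IsNoetherianRing R]
    (I : Ideal R) (x : R) (h : ∀ n : ℕ, x ∈ I ⊔ IsLocalRing.maximalIdeal R ^ n) : x ∈ I := by
  by_cases hI : I = ⊤
  · rw [hI]; trivial
  have : Nontrivial (R ⧸ I) := Ideal.Quotient.nontrivial_iff.mpr hI
  have hl : IsLocalRing (R ⧸ I) := IsLocalRing.of_surjective' (Ideal.Quotient.mk I)
    Ideal.Quotient.mk_surjective
  have h2 : ∀ n : ℕ, Ideal.Quotient.mk I x ∈ IsLocalRing.maximalIdeal (R ⧸ I) ^ n := by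
    intro n
    obtain ⟨y, hy, z, hz, hyz⟩ := Submodule.mem_sup.mp (h n)
    rw [← hyz, map_add, Ideal.Quotient.eq_zero_iff_mem.mpr hy, zero_add]
    have h3 : Ideal.map (Ideal.Quotient.mk I) (IsLocalRing.maximalIdeal R ^ n) ≤
        IsLocalRing.maximalIdeal (R ⧸ I) ^ n := by
      rw [Ideal.map_pow]
      refine Ideal.pow_right_mono ?_ n
      refine Ideal.map_le_iff_le_comap.mpr ?_
      intro w hw
      rw [Ideal.mem_comap, IsLocalRing.mem_maximalIdeal, mem_nonunits_iff]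
      intro hu
      have hsurj : IsLocalHom (Ideal.Quotient.mk I) :=
        IsLocalHom.of_surjective _ Ideal.Quotient.mk_surjective
      exact hw (isUnit_of_map_unit _ _ hu)
    exact h3 (Ideal.mem_map_of_mem _ hz)
  have h4 : Ideal.Quotient.mk I x ∈ ⨅ n : ℕ, IsLocalRing.maximalIdeal (R ⧸ I) ^ n := by
    simpa using h2
  rw [Ideal.iInf_pow_eq_bot_of_isLocalRing _ (Ideal.IsPrime.ne_top inferInstance)] at h4
  exact Ideal.Quotient.eq_zero_iff_mem.mp (by simpa using h4)

theorem minor_mem_span {R : Type*} [CommRing R] [Algebra ℂ R] [IsLocalRing R] [IsNoetherianRing R]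
    (D₁ D₂ : Derivation ℂ R R) (u v : R)
    (hM : IsLocalRing.maximalIdeal R = Ideal.span {u, v})
    (hC : ∀ x : R, ∃ c : ℂ, x - algebraMap ℂ R c ∈ IsLocalRing.maximalIdeal R) (x y : R) :
    minor D₁ D₂ x y ∈ Ideal.span {minor D₁ D₂ u v} :=
  mem_of_forall_mem_sup_pow _ _ fun n => minor_mem_sup_pow D₁ D₂ _ u v hM hC x y n

end Approx

end Crest.Agent.R278
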