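import Mathlib

/-!
Row 278 (S0421): local algebra at one point.  From membership in powers of the ideal of a point
`(a, b)` to divisibility in the chart `x = a + X 0`, `y = b + X 0 * X 1`.
-/

set_option autoImplicit false

namespace Crest.Agent.R278

open MvPolynomial

namespace LocalPts

/-- the chart substitution `x = a + X 0`, `y = b + X 0 * X 1` -/
noncomputable abbrev sb (a b : ℂ) : MvPolynomial (Fin 2) ℂ →ₐ[ℂ] MvPolynomial (Fin 2) ℂ :=
  aeval ![C a + X 0, C b + X 0 * X 1]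

/-- the maximal ideal of the point `(a, b)` -/
noncomputable abbrev pI (a b : ℂ) : Ideal (MvPolynomial (Fin 2) ℂ) :=
  Ideal.span {X 0 - C a, X 1 - C b}

theorem sb_x (a b : ℂ) : sb a b (X 0 - C a) = X 0 := by
  simp [sb]

theorem sb_y (a b : ℂ) : sb a b (X 1 - C b) = X 0 * X 1 := by
  simp [sb]

/-- membership in the power of the ideal gives divisibility in the chart -/
theorem sb_of_mem {a b : ℂ} {m : ℕ} {f : MvPolynomial (Fin 2) ℂ} (hf : f ∈ pI a b ^ m) :
    ∃ g, sb a b f = X 0 ^ m * g := by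
  have h1 : (pI a b ^ m).map (sb a b : MvPolynomial (Fin 2) ℂ →+* MvPolynomial (Fin 2) ℂ) ≤
      Ideal.span {(X 0 : MvPolynomial (Fin 2) ℂ) ^ m} := by
    rw [Ideal.map_pow, ← Ideal.span_singleton_pow]
    refine Ideal.pow_right_mono ?_ m
    rw [Ideal.map_span, Ideal.span_le]
    rintro _ ⟨u, hu | hu, rfl⟩
    · rw [hu]
      change sb a b (X 0 - C a) ∈ _
      rw [sb_x]
      exact Ideal.mem_span_singleton_self _
    · rw [Set.mem_singleton_iff] at hu
      rw [hu]
      change sb a b (X 1 - C b) ∈ _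
      rw [sb_y]
      exact Ideal.mul_mem_right _ _ (Ideal.mem_span_singleton_self _)
  have h2 := h1 (Ideal.mem_map_of_mem _ hf)
  rw [Ideal.mem_span_singleton] at h2
  exact h2

/-! ### exact order -/

/-- restriction to the line `x = a` -/
noncomputable abbrev ln (a : ℂ) : MvPolynomial (Fin 2) ℂ →ₐ[ℂ] Polynomial ℂ :=
  aeval ![Polynomial.C a, Polynomial.X]

/-- translation -/
noncomputable abbrev tr (a b : ℂ) : MvPolynomial (Fin 2) ℂ →ₐ[ℂ] MvPolynomial (Fin 2) ℂ :=
  aeval ![C a + X 0, C b + X 1]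

theorem sb_eq_tr (a b : ℂ) (f : MvPolynomial (Fin 2) ℂ) :
    sb a b f = aeval ![X 0, X 0 * X 1] (tr a b f) := by
  have h : (sb a b) = (aeval ![X 0, X 0 * X 1] :
      MvPolynomial (Fin 2) ℂ →ₐ[ℂ] MvPolynomial (Fin 2) ℂ).comp (tr a b) := by
    apply MvPolynomial.algHom_ext
    intro i
    fin_cases i <;> simp [sb, tr]
  rw [h]; rfl

theorem ln_tr (a b : ℂ) (f : MvPolynomial (Fin 2) ℂ) :
    ln 0 (tr a b f) = (ln a f).comp (Polynomial.X + Polynomial.C b) := by
  have h : (ln 0).comp (tr a b) = (Polynomial.aeval (Polynomial.X + Polynomial.C b) :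
      Polynomial ℂ →ₐ[ℂ] Polynomial ℂ).comp (ln a) := by
    apply MvPolynomial.algHom_ext
    intro i
    fin_cases i
    · simp [ln, tr]
    · simp [ln, tr, add_comm]
  exact DFunLike.congr_fun h f

/-- the exponent `(i, j)` -/
noncomputable abbrev ex (i j : ℕ) : Fin 2 →₀ ℕ := Finsupp.single 0 i + Finsupp.single 1 j

theorem ex_inj {i j i' j' : ℕ} : ex i j = ex i' j' ↔ i = i' ∧ j = j' := by
  constructor
  · intro h
    have h0 := DFunLike.congr_fun h 0
    have h1 := DFunLike.congr_fun h 1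
    simp [ex] at h0 h1
    exact ⟨h0, h1⟩
  · rintro ⟨rfl, rfl⟩; rfl

theorem eq_ex (s : Fin 2 →₀ ℕ) : s = ex (s 0) (s 1) := by
  ext i
  fin_cases i <;> simp [ex]

theorem monomial_eq_ex (s : Fin 2 →₀ ℕ) (c : ℂ) :
    (monomial s c : MvPolynomial (Fin 2) ℂ) = C c * (X 0 ^ s 0 * X 1 ^ s 1) := by
  conv_lhs => rw [eq_ex s]
  rw [ex, MvPolynomial.X_pow_eq_monomial, MvPolynomial.X_pow_eq_monomial,
    MvPolynomial.monomial_mul, MvPolynomial.C_mul_monomial]
  simp

theorem coeff_blow (m : ℕ) (p : MvPolynomial (Fin 2) ℂ) :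
    coeff (ex m m) (aeval ![(X 0 : MvPolynomial (Fin 2) ℂ), X 0 * X 1] p) = coeff (ex 0 m) p := by
  induction p using MvPolynomial.induction_on' with
  | monomial s c =>
    have h1 : aeval ![(X 0 : MvPolynomial (Fin 2) ℂ), X 0 * X 1] (monomial s c) =
        monomial (ex (s 0 + s 1) (s 1)) c := by
      rw [monomial_eq_ex, monomial_eq_ex (ex (s 0 + s 1) (s 1)) c]
      have e0 : (ex (s 0 + s 1) (s 1)) 0 = s 0 + s 1 := by simp [ex]
      have e1 : (ex (s 0 + s 1) (s 1)) 1 = s 1 := by simp [ex]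
      rw [e0, e1]
      simp only [map_mul, map_pow, aeval_X, aeval_C, Matrix.cons_val_zero, Matrix.cons_val_one,
        MvPolynomial.algebraMap_eq]
      ring
    rw [h1, coeff_monomial, coeff_monomial]
    by_cases h2 : s 0 = 0 ∧ s 1 = m
    · rw [if_pos, if_pos]
      · rw [eq_ex s, h2.1, h2.2]
      · rw [h2.1, h2.2, zero_add]
    · rw [if_neg, if_neg]
      · intro h3
        rw [eq_ex s, ex_inj] at h3
        exact h2 h3
      · intro h3
        rw [ex_inj] at h3
        omega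
  | add p q hp hq => rw [map_add, coeff_add, coeff_add, hp, hq]

theorem coeff_ln (m : ℕ) (p : MvPolynomial (Fin 2) ℂ) :
    (ln 0 p).coeff m = coeff (ex 0 m) p := by
  induction p using MvPolynomial.induction_on' with
  | monomial s c =>
    rw [coeff_monomial, monomial_eq_ex]
    by_cases h0 : s 0 = 0
    · by_cases h1 : s 1 = m
      · rw [if_pos (by rw [eq_ex s, h0, h1])]
        simp [ln, h0, h1]
      · rw [if_neg (fun h3 => by
          rw [eq_ex s, ex_inj] at h3
          exact h1 h3.2)]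
        simp [ln, h0, Polynomial.coeff_X_pow, Ne.symm h1]
    · rw [if_neg (fun h3 => by
        rw [eq_ex s, ex_inj] at h3
        exact h0 h3.1)]
      simp [ln, h0]
  | add p q hp hq => rw [map_add, Polynomial.coeff_add, coeff_add, hp, hq]

/-- **Exact order.** If the restriction of `f` to `x = a` vanishes to order exactly `m` at `b`
then `X 0 ^ (m+1)` does not divide the pullback of `f`. -/
theorem not_dvd_of_line {a b : ℂ} {m : ℕ} {f g : MvPolynomial (Fin 2) ℂ}
    (hg : sb a b f = X 0 ^ m * g) {S : Polynomial ℂ} (hS : S.eval b ≠ 0)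
    (hf : ln a f = (Polynomial.X - Polynomial.C b) ^ m * S) : ¬ X 0 ∣ g := by
  rintro ⟨g', rfl⟩
  have h1 : coeff (ex m m) (sb a b f) = 0 := by
    rw [hg, ← mul_assoc, ← pow_succ, MvPolynomial.X_pow_eq_monomial,
      MvPolynomial.coeff_monomial_mul', if_neg]
    intro h
    have := h 0
    simp [ex] at this
  have h2 : coeff (ex m m) (sb a b f) = S.eval b := by
    rw [sb_eq_tr, coeff_blow, ← coeff_ln, ln_tr, hf, Polynomial.mul_comp, Polynomial.pow_comp,
      Polynomial.sub_comp, Polynomial.X_comp, Polynomial.C_comp, add_sub_cancel_right,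
      Polynomial.coeff_X_pow_mul', if_pos le_rfl, Nat.sub_self, Polynomial.coeff_zero_eq_eval_zero,
      Polynomial.eval_comp]
    simp
  exact hS (h2 ▸ h1)

/-! ### vector fields -/

theorem aeval_sub_mem {a b : ℂ} (H : Polynomial ℂ) :
    Polynomial.aeval (X 1 : MvPolynomial (Fin 2) ℂ) H - C (H.eval b) ∈ pI a b := by
  have h1 : (Polynomial.X - Polynomial.C b) ∣ H - Polynomial.C (H.eval b) := by
    rw [Polynomial.dvd_iff_isRoot]; simp
  obtain ⟨q, hq⟩ := h1
  have h2 := congrArg (Polynomial.aeval (X 1 : MvPolynomial (Fin 2) ℂ)) hq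
  rw [map_sub, Polynomial.aeval_C, map_mul, map_sub, Polynomial.aeval_X, Polynomial.aeval_C] at h2
  have h3 : Polynomial.aeval (X 1 : MvPolynomial (Fin 2) ℂ) H - C (H.eval b) =
      (X 1 - C b) * Polynomial.aeval (X 1 : MvPolynomial (Fin 2) ℂ) q := h2
  rw [h3]
  exact Ideal.mul_mem_right _ _ (Ideal.subset_span (by simp))

theorem aeval_sub_mem_sq {a b : ℂ} (H : Polynomial ℂ) (hb : H.eval b = 0) :
    Polynomial.aeval (X 1 : MvPolynomial (Fin 2) ℂ) H -
      C (H.derivative.eval b) * (X 1 - C b) ∈ pI a b ^ 2 := by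
  have h1 : (Polynomial.X - Polynomial.C b) ∣ H := by
    rw [Polynomial.dvd_iff_isRoot]; exact hb
  obtain ⟨q, hq⟩ := h1
  have hd : H.derivative.eval b = q.eval b := by
    rw [hq]; simp
  have h2 : Polynomial.aeval (X 1 : MvPolynomial (Fin 2) ℂ) H =
      (X 1 - C b) * Polynomial.aeval (X 1 : MvPolynomial (Fin 2) ℂ) q := by
    rw [hq, map_mul, map_sub, Polynomial.aeval_X, Polynomial.aeval_C]; rfl
  rw [h2, hd, mul_comm (C (q.eval b)), ← mul_sub, sq]
  exact Ideal.mul_mem_mul (Ideal.subset_span (by simp)) (aeval_sub_mem q)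

/-- **plain points** -/
theorem plain_mem {a b : ℂ} {l : ℕ} (hl : 1 ≤ l) {at' be : MvPolynomial (Fin 2) ℂ}
    {H : Polynomial ℂ} (hb : H.eval b = 0) (hb' : H.derivative.eval b ≠ 0)
    (h1 : at' ∈ pI a b ^ (l - 1)) (h2 : be ∈ pI a b ^ l)
    (h3 : Polynomial.aeval (X 1 : MvPolynomial (Fin 2) ℂ) H.derivative * be -
      Polynomial.aeval (X 1 : MvPolynomial (Fin 2) ℂ) H * at' ∈ pI a b ^ (l + 1)) :
    be - (X 1 - C b) * at' ∈ pI a b ^ (l + 1) := by
  set c := H.derivative.eval b with hc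
  have e1 : C c * (be - (X 1 - C b) * at') =
      (Polynomial.aeval (X 1 : MvPolynomial (Fin 2) ℂ) H.derivative * be -
        Polynomial.aeval (X 1 : MvPolynomial (Fin 2) ℂ) H * at') -
      (Polynomial.aeval (X 1 : MvPolynomial (Fin 2) ℂ) H.derivative - C c) * be +
      (Polynomial.aeval (X 1 : MvPolynomial (Fin 2) ℂ) H - C c * (X 1 - C b)) * at' := by
    ring
  have h4 : C c * (be - (X 1 - C b) * at') ∈ pI a b ^ (l + 1) := by
    rw [e1]
    refine add_mem (sub_mem h3 ?_) ?_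
    · rw [pow_succ']
      exact Ideal.mul_mem_mul (aeval_sub_mem _) h2
    · have : l + 1 = 2 + (l - 1) := by omega
      rw [this, pow_add]
      exact Ideal.mul_mem_mul (aeval_sub_mem_sq H hb) h1
  have h5 : be - (X 1 - C b) * at' = C c⁻¹ * (C c * (be - (X 1 - C b) * at')) := by
    rw [← mul_assoc, ← C_mul, inv_mul_cancel₀ hb', C_1, one_mul]
  rw [h5]
  exact Ideal.mul_mem_left _ _ h4

/-- log points -/
theorem log_mem {a b : ℂ} {l : ℕ} {at' be : MvPolynomial (Fin 2) ℂ}
    (h1 : at' ∈ pI a b ^ l) (h2 : be ∈ pI a b ^ (l + 1)) :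
    be - (X 1 - C b) * at' ∈ pI a b ^ (l + 1) := by
  refine sub_mem h2 ?_
  rw [pow_succ']
  exact Ideal.mul_mem_mul (Ideal.subset_span (by simp)) h1

/-- pullback of `alpha = (x - a) * at` -/
theorem sb_al {a b : ℂ} {n : ℕ} {al at' : MvPolynomial (Fin 2) ℂ} (hal : al = (X 0 - C a) * at')
    (h1 : at' ∈ pI a b ^ n) : ∃ g, sb a b al = X 0 ^ (n + 1) * g := by
  refine sb_of_mem ?_
  rw [hal, pow_succ']
  exact Ideal.mul_mem_mul (Ideal.subset_span (by simp)) h1

/-- pullback of `beta - W * alpha` -/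
theorem sb_be {a b : ℂ} {n : ℕ} {al at' be : MvPolynomial (Fin 2) ℂ}
    (hal : al = (X 0 - C a) * at') (h : be - (X 1 - C b) * at' ∈ pI a b ^ n) :
    ∃ g, sb a b be - X 1 * sb a b al = X 0 ^ n * g := by
  obtain ⟨g, hg⟩ := sb_of_mem h
  refine ⟨g, ?_⟩
  rw [← hg, hal, map_sub, map_mul, map_mul, sb_x, sb_y]
  ring

end LocalPts

end Crest.Agent.R278
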