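import Mathlib
import Crest.Agent.R278.Classify

set_option linter.style.haveILetI false
set_option autoImplicit false

/-! Row 278 (S0421): the charts as an explicit family; membership in `clos s t`. -/

namespace Crest.Agent.R278

open MvPolynomial

variable {K : Type} [Field K] [Algebra ℂ K]

namespace PlaneData

variable (P : PlaneData) (x y : K)

/-- index type of the charts: affine chart, chart at infinity, blow-up charts. -/
abbrev Idx : Type := Option (Option (Σ i : Fin P.r, {b : ℂ // b ∈ (P.p i).roots.toFinset}))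

noncomputable def G : P.Idx → Set K
  | none => P.G0 x y
  | some none => P.Ginf x y
  | some (some ⟨i, b⟩) => P.Gb x y i b

/-- first coordinate of the chart -/
noncomputable def cp : P.Idx → K
  | none => x
  | some none => x⁻¹
  | some (some ⟨i, _⟩) => P.Xi x i

/-- second coordinate of the chart -/
noncomputable def cq : P.Idx → K
  | none => y
  | some none => y / x
  | some (some ⟨i, b⟩) => (y - algebraMap ℂ K b) / P.Xi x i

/-- `s₀ = ∏ X_i^{M_i} / z` -/
noncomputable def s0 : K := P.PP x / P.zz x y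

/-- the multiplier of the chart -/
noncomputable def cb : P.Idx → K
  | none => P.s0 x y
  | some none => P.s0 x y * x ^ P.n
  | some (some ⟨i, b⟩) => P.s0 x y ^ (P.p i).natDegree * Polynomial.aeval y (P.q i b)

variable {x y}
variable (V : ValuationSubring K) (hV : ∀ c : ℂ, algebraMap ℂ K c ∈ V)

/-- valuation rings over the finite charts -/
structure FinV : Prop where
  hx : V.valuation x ≤ 1
  hy : V.valuation y ≤ 1
  hPz : V.valuation (P.PP x) = V.valuation (P.zz x y)
  hp : ∀ i, V.valuation (Polynomial.aeval y (P.p i)) ≤ V.valuation (P.Xi x i)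

/-- valuation rings over the chart at infinity -/
structure InfV : Prop where
  hx : 1 ≤ V.valuation x
  hxy : V.valuation y ≤ V.valuation x
  hz : V.valuation (P.zz x y) = V.valuation x ^ P.D
  hX : ∀ i, V.valuation (P.Xi x i) = V.valuation x

include hV

theorem val_poly_le (hy : V.valuation y ≤ 1) (q : Polynomial ℂ) :
    V.valuation (Polynomial.aeval y q) ≤ 1 := by
  have hyV := (V.valuation_le_one_iff _).1 hy
  have h1 := aeval_mem V hV hyV hyV (liftY q)
  rw [aeval_liftY] at h1
  exact (V.valuation_le_one_iff _).2 h1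

omit [Algebra ℂ K] hV in
/-- a product of elements of value at most one whose inverse has value at most one -/
theorem eq_one_of_inv_le {Γ : Type*} [LinearOrderedCommGroupWithZero Γ] {a b : Γ} (ha : a ≤ 1)
    (hb : b ≤ 1) (hab : a * b ≠ 0) (h : (a * b)⁻¹ ≤ 1) : a = 1 ∧ b = 1 := by
  have h1 : 1 ≤ a * b := (inv_le_one₀ (zero_lt_iff.2 hab)).1 h
  have h2 : a * b ≤ a := mul_le_of_le_one_right' hb
  have h3 : a * b ≤ b := mul_le_of_le_one_left' ha
  exact ⟨le_antisymm ha (h1.trans h2), le_antisymm hb (h1.trans h3)⟩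

theorem finV_of_G0 (hzz : P.zz x y ≠ 0) (hX0 : ∀ i, P.Xi x i ≠ 0)
    (h : ∀ g ∈ P.G0 x y, g ∈ V) : FinV P (x := x) (y := y) V := by
  have hxV : x ∈ V := h x (by simp [G0])
  have hyV : y ∈ V := h y (by simp [G0])
  have hu : (P.zz x y * P.PP x)⁻¹ ∈ V := h _ (by simp [G0])
  have hx := (V.valuation_le_one_iff _).2 hxV
  have hy := (V.valuation_le_one_iff _).2 hyV
  have hPP0 : P.PP x ≠ 0 := Finset.prod_ne_zero_iff.2 fun i _ => pow_ne_zero _ (hX0 i)
  have hXle : ∀ i, V.valuation (P.Xi x i) ≤ 1 := fun i => by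
    have h1 := P.val_Xi_le V hV (x := x) i
    rwa [max_eq_right hx] at h1
  have h1 : V.valuation (P.zz x y) ≤ 1 := (V.valuation_le_one_iff _).2 (aeval_mem V hV hxV hyV _)
  have h2 : V.valuation (P.PP x) ≤ 1 := by
    rw [val_PP]
    exact Finset.prod_le_one' fun i _ => pow_le_one₀ zero_le (hXle i)
  have h3 := (V.valuation_le_one_iff _).2 hu
  rw [map_inv₀, map_mul] at h3
  obtain ⟨e1, e2⟩ := eq_one_of_inv_le h1 h2
    (mul_ne_zero (V.valuation.ne_zero_iff.2 hzz) (V.valuation.ne_zero_iff.2 hPP0)) h3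
  refine ⟨hx, hy, by rw [e1, e2], fun i => ?_⟩
  have h4 : V.valuation (P.Xi x i) = 1 := by
    apply le_antisymm (hXle i)
    by_contra hcon
    push Not at hcon
    have : V.valuation (P.PP x) < 1 := by
      rw [val_PP, ← Finset.mul_prod_erase _ _ (Finset.mem_univ i)]
      refine mul_lt_one_of_lt_of_le (pow_lt_one₀ zero_le hcon (P.M_pos i).ne') ?_
      exact Finset.prod_le_one' fun i _ => pow_le_one₀ zero_le (hXle i)
    exact absurd e2 this.ne
  rw [h4]
  exact val_poly_le V hV hy _

/-- all facts in the blow-up chart -/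
theorem finV_of_Gb (hzz : P.zz x y ≠ 0) (hX0 : ∀ i, P.Xi x i ≠ 0)
    (hyt : ∀ q : Polynomial ℂ, q ≠ 0 → Polynomial.aeval y q ≠ 0)
    (i : Fin P.r) (b : ℂ) (hb : (P.p i).IsRoot b)
    (h : ∀ g ∈ P.Gb x y i b, g ∈ V) : FinV P (x := x) (y := y) V ∧
      V.valuation (Polynomial.aeval y (P.q i b)) = 1 := by
  classical
  have hXV : P.Xi x i ∈ V := h _ (by simp [Gb])
  have hWV : (y - algebraMap ℂ K b) / P.Xi x i ∈ V := h _ (by simp [Gb])
  have hu := h _ (show (P.zz x y / P.Xi x i ^ P.M i * (∏ k ∈ Finset.univ.erase i, P.Xi x k) *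
      Polynomial.aeval y (P.q i b) * Polynomial.aeval y (Polynomial.derivative (P.p i)))⁻¹ ∈
      P.Gb x y i b by simp [Gb])
  have hxV : x ∈ V := by
    have h1 : x = P.Xi x i + algebraMap ℂ K (P.a i) := by unfold Xi; ring
    rw [h1]
    exact V.add_mem _ _ hXV (hV _)
  have hyV : y ∈ V := by
    have h1 : y = algebraMap ℂ K b + P.Xi x i * ((y - algebraMap ℂ K b) / P.Xi x i) := by
      rw [mul_div_cancel₀ _ (hX0 i)]; ring
    rw [h1]
    exact V.add_mem _ _ (hV _) (V.mul_mem _ _ hXV hWV)
  have hx := (V.valuation_le_one_iff _).2 hxV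
  have hy := (V.valuation_le_one_iff _).2 hyV
  have hX1 := (V.valuation_le_one_iff _).2 hXV
  have hW1 := (V.valuation_le_one_iff _).2 hWV
  have hXne : V.valuation (P.Xi x i) ≠ 0 := V.valuation.ne_zero_iff.2 (hX0 i)
  have hXpos := zero_lt_iff.2 hXne
  have hXle : ∀ i, V.valuation (P.Xi x i) ≤ 1 := fun i => by
    have h1 := P.val_Xi_le V hV (x := x) i
    rwa [max_eq_right hx] at h1
  -- `p = (X - b) q`
  have hpq : (Polynomial.X - Polynomial.C b) * P.q i b = P.p i :=
    Polynomial.mul_divByMonic_eq_iff_isRoot.2 hb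
  have hyb : V.valuation (y - algebraMap ℂ K b) ≤ V.valuation (P.Xi x i) := by
    rw [map_div₀, div_le_one₀ hXpos] at hW1
    exact hW1
  have hpi : V.valuation (Polynomial.aeval y (P.p i)) ≤ V.valuation (P.Xi x i) := by
    rw [← hpq, map_mul, map_mul]
    have h1 : Polynomial.aeval y (Polynomial.X - Polynomial.C b) = y - algebraMap ℂ K b := by simp
    rw [h1]
    calc V.valuation (y - algebraMap ℂ K b) * V.valuation (Polynomial.aeval y (P.q i b))
        ≤ V.valuation (P.Xi x i) * 1 := by
          gcongr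
          exact val_poly_le V hV hy _
      _ = _ := mul_one _
  -- `z / X^M ∈ V`
  set e : K := Polynomial.aeval y (P.p i) with he
  have hw : ∀ k, V.valuation (ev x y (P.w i k)) ≤ 1 := fun k =>
    (V.valuation_le_one_iff _).2 (aeval_mem V hV hxV hyV _)
  have hzeq : P.zz x y = algebraMap ℂ K (P.c i) * e ^ P.M i +
      ∑ k ∈ Finset.range (P.M i), P.Xi x i ^ (k + 1) * e ^ (P.M i - 1 - k) * ev x y (P.w i k) := by
    unfold zz
    conv_lhs => rw [P.hw i]
    rw [map_add, map_mul, map_pow, aeval_liftY, map_sum, aeval_C]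
    congr 1
    refine Finset.sum_congr rfl fun k _ => ?_
    rw [map_mul, map_mul, map_pow, map_pow, aeval_liftY, map_sub, aeval_X, aeval_C]
    rfl
  have hzle : V.valuation (P.zz x y / P.Xi x i ^ P.M i) ≤ 1 := by
    rw [map_div₀, map_pow, div_le_one₀ (pow_pos hXpos _), hzeq]
    refine (V.valuation.map_add _ _).trans (max_le ?_ ?_)
    · rw [map_mul, map_pow]
      calc V.valuation (algebraMap ℂ K (P.c i)) * V.valuation e ^ P.M i
          ≤ 1 * V.valuation (P.Xi x i) ^ P.M i := by
            gcongr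
            exact val_const_le V hV _
        _ = _ := one_mul _
    · refine V.valuation.map_sum_le fun k hk => ?_
      rw [Finset.mem_range] at hk
      rw [map_mul, map_mul, map_pow, map_pow]
      calc V.valuation (P.Xi x i) ^ (k + 1) * V.valuation e ^ (P.M i - 1 - k) *
            V.valuation (ev x y (P.w i k))
          ≤ V.valuation (P.Xi x i) ^ (k + 1) * V.valuation (P.Xi x i) ^ (P.M i - 1 - k) * 1 := by
            gcongr
            exact hw k
        _ = V.valuation (P.Xi x i) ^ P.M i := by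
            rw [mul_one, ← pow_add]; congr 1; omega
  have hprod : V.valuation (∏ k ∈ Finset.univ.erase i, P.Xi x k) ≤ 1 := by
    rw [map_prod]
    exact Finset.prod_le_one' fun i _ => hXle i
  have hq0 : P.q i b ≠ 0 := by
    intro h0
    have h1 := (P.p_monic i).ne_zero
    rw [← hpq, h0, mul_zero] at h1
    exact h1 rfl
  have hd0 : Polynomial.derivative (P.p i) ≠ 0 := by
    intro h0
    have h2 := (P.p_sep i)
    rw [Polynomial.Separable, h0] at h2
    obtain ⟨u, v, huv⟩ := h2
    have h3 := congrArg (Polynomial.eval b) huv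
    rw [Polynomial.eval_add, Polynomial.eval_mul, Polynomial.eval_mul, hb.eq_zero] at h3
    simp at h3
  have hq1 := val_poly_le V hV hy (P.q i b)
  have hd1 := val_poly_le V hV hy (Polynomial.derivative (P.p i))
  have n1 : V.valuation (P.zz x y / P.Xi x i ^ P.M i) ≠ 0 :=
    V.valuation.ne_zero_iff.2 (div_ne_zero hzz (pow_ne_zero _ (hX0 i)))
  have n2 : V.valuation (∏ k ∈ Finset.univ.erase i, P.Xi x k) ≠ 0 :=
    V.valuation.ne_zero_iff.2 (Finset.prod_ne_zero_iff.2 fun k _ => hX0 k)
  have n3 : V.valuation (Polynomial.aeval y (P.q i b)) ≠ 0 :=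
    V.valuation.ne_zero_iff.2 (hyt _ hq0)
  have n4 : V.valuation (Polynomial.aeval y (Polynomial.derivative (P.p i))) ≠ 0 :=
    V.valuation.ne_zero_iff.2 (hyt _ hd0)
  have h3 := (V.valuation_le_one_iff _).2 hu
  rw [map_inv₀, map_mul, map_mul, map_mul] at h3
  obtain ⟨h4, h5⟩ := eq_one_of_inv_le (mul_le_one' (mul_le_one' hzle hprod) hq1) hd1
    (mul_ne_zero (mul_ne_zero (mul_ne_zero n1 n2) n3) n4) h3
  obtain ⟨h6, h7⟩ := eq_one_of_inv_le (mul_le_one' hzle hprod) hq1
    (mul_ne_zero (mul_ne_zero n1 n2) n3) (by rw [h4, inv_one])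
  obtain ⟨h8, h9⟩ := eq_one_of_inv_le hzle hprod
    (mul_ne_zero n1 n2) (by rw [h6, inv_one])
  have hk : ∀ k, k ≠ i → V.valuation (P.Xi x k) = 1 := by
    intro k hk
    apply le_antisymm (hXle k)
    by_contra hcon
    push Not at hcon
    have : V.valuation (∏ k ∈ Finset.univ.erase i, P.Xi x k) < 1 := by
      rw [map_prod, ← Finset.mul_prod_erase _ _ (Finset.mem_erase.2 ⟨hk, Finset.mem_univ k⟩)]
      refine mul_lt_one_of_lt_of_le hcon ?_
      exact Finset.prod_le_one' fun i _ => hXle i
    exact absurd h9 this.ne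
  refine ⟨⟨hx, hy, ?_, ?_⟩, h7⟩
  · rw [val_PP, ← Finset.mul_prod_erase _ _ (Finset.mem_univ i), Finset.prod_eq_one, mul_one]
    · rw [map_div₀, map_pow, div_eq_one_iff_eq (pow_ne_zero _ hXne)] at h8
      exact h8.symm
    · intro k hk'
      rw [hk k (Finset.ne_of_mem_erase hk'), one_pow]
  · intro k
    by_cases hki : k = i
    · subst hki; exact hpi
    · rw [hk k hki]
      exact val_poly_le V hV hy _

theorem infV_of_Ginf (hx0 : x ≠ 0) (hzz : P.zz x y ≠ 0) (hX0 : ∀ i, P.Xi x i ≠ 0)
    (h : ∀ g ∈ P.Ginf x y, g ∈ V) : InfV P (x := x) (y := y) V := by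
  have hxV : x⁻¹ ∈ V := h _ (by simp [Ginf])
  have hyV : y / x ∈ V := h _ (by simp [Ginf])
  have hu := h _ (show (P.zz x y / x ^ P.D * ∏ i, (1 - algebraMap ℂ K (P.a i) / x))⁻¹ ∈
    P.Ginf x y by simp [Ginf])
  have hxv : V.valuation x ≠ 0 := V.valuation.ne_zero_iff.2 hx0
  have hxpos := zero_lt_iff.2 hxv
  have hx : 1 ≤ V.valuation x := by
    have := (V.valuation_le_one_iff _).2 hxV
    rw [map_inv₀] at this
    exact (inv_le_one₀ hxpos).1 this
  have hxy : V.valuation y ≤ V.valuation x := by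
    have := (V.valuation_le_one_iff _).2 hyV
    rwa [map_div₀, div_le_one₀ hxpos] at this
  have hzle : V.valuation (P.zz x y) ≤ V.valuation x ^ P.D := by
    unfold zz ev
    rw [aeval_def, eval₂_eq']
    refine Valuation.map_sum_le _ ?_
    intro d hd
    rw [map_mul, Fin.prod_univ_two, map_mul, map_pow, map_pow]
    have h1 : V.valuation (algebraMap ℂ K (coeff d P.z)) ≤ 1 := val_const_le V hV _
    have h2 : d 0 + d 1 ≤ P.D := by
      have h3 := le_totalDegree hd
      rw [degree_eq] at h3
      exact h3.trans P.z_deg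
    have h5 : V.valuation ((![x, y] : Fin 2 → K) 0) = V.valuation x := rfl
    have h6 : V.valuation ((![x, y] : Fin 2 → K) 1) = V.valuation y := rfl
    rw [h5, h6]
    calc V.valuation (algebraMap ℂ K (coeff d P.z)) * (V.valuation x ^ d 0 * V.valuation y ^ d 1)
        ≤ 1 * (V.valuation x ^ d 0 * V.valuation x ^ d 1) := by gcongr
      _ = V.valuation x ^ (d 0 + d 1) := by rw [one_mul, pow_add]
      _ ≤ V.valuation x ^ P.D := pow_le_pow_right₀ hx h2
  have hXle : ∀ i, V.valuation (1 - algebraMap ℂ K (P.a i) / x) ≤ 1 := by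
    intro i
    refine (V.valuation.map_sub _ _).trans (max_le (by rw [map_one]) ?_)
    rw [div_eq_mul_inv, map_mul]
    exact mul_le_one' (val_const_le V hV _) ((V.valuation_le_one_iff _).2 hxV)
  have hXeq : ∀ i, (1 - algebraMap ℂ K (P.a i) / x) = P.Xi x i / x := by
    intro i
    unfold Xi
    field_simp
  have hXne : ∀ i, V.valuation (1 - algebraMap ℂ K (P.a i) / x) ≠ 0 := by
    intro i
    rw [hXeq, V.valuation.ne_zero_iff]
    exact div_ne_zero (hX0 i) hx0
  have h3 := (V.valuation_le_one_iff _).2 hu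
  rw [map_inv₀, map_mul] at h3
  have hz1 : V.valuation (P.zz x y / x ^ P.D) ≤ 1 := by
    rw [map_div₀, map_pow, div_le_one₀ (pow_pos hxpos _)]; exact hzle
  have hp1 : V.valuation (∏ i, (1 - algebraMap ℂ K (P.a i) / x)) ≤ 1 := by
    rw [map_prod]; exact Finset.prod_le_one' fun i _ => hXle i
  obtain ⟨h4, h5⟩ := eq_one_of_inv_le hz1 hp1
    (mul_ne_zero (V.valuation.ne_zero_iff.2 (div_ne_zero hzz (pow_ne_zero _ hx0)))
      (by rw [map_prod]; exact Finset.prod_ne_zero_iff.2 fun i _ => hXne i)) h3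
  refine ⟨hx, hxy, ?_, ?_⟩
  · rw [map_div₀, map_pow, div_eq_one_iff_eq (pow_ne_zero _ hxv)] at h4
    exact h4
  · intro i
    have h6 : V.valuation (1 - algebraMap ℂ K (P.a i) / x) = 1 := by
      apply le_antisymm (hXle i)
      by_contra hcon
      push Not at hcon
      have : V.valuation (∏ i, (1 - algebraMap ℂ K (P.a i) / x)) < 1 := by
        rw [map_prod, ← Finset.mul_prod_erase _ _ (Finset.mem_univ i)]
        refine mul_lt_one_of_lt_of_le hcon ?_
        exact Finset.prod_le_one' fun i _ => hXle i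
      exact absurd h5 this.ne
    rw [hXeq, map_div₀, div_eq_one_iff_eq hxv] at h6
    exact h6

/-- every chart valuation ring is of type `FinV` or `InfV`. -/
theorem finV_or_infV (hx0 : x ≠ 0) (hzz : P.zz x y ≠ 0) (hX0 : ∀ i, P.Xi x i ≠ 0)
    (hyt : ∀ q : Polynomial ℂ, q ≠ 0 → Polynomial.aeval y q ≠ 0)
    (l : P.Idx) (h : ∀ g ∈ P.G x y l, g ∈ V) :
    FinV P (x := x) (y := y) V ∨ InfV P (x := x) (y := y) V := by
  match l, h with
  | none, h => exact Or.inl (P.finV_of_G0 V hV hzz hX0 h)
  | some none, h => exact Or.inr (P.infV_of_Ginf V hV hx0 hzz hX0 h)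
  | some (some ⟨i, b⟩), h =>
    exact Or.inl (P.finV_of_Gb V hV hzz hX0 hyt i b
      ((Polynomial.mem_roots (P.p_monic i).ne_zero).1 (Multiset.mem_toFinset.1 b.2)) h).1

omit hV in
theorem FinV.s0 (hzz : P.zz x y ≠ 0) (h : FinV P (x := x) (y := y) V) :
    V.valuation (P.s0 x y) = 1 := by
  unfold PlaneData.s0
  rw [map_div₀, h.hPz, div_self (V.valuation.ne_zero_iff.2 hzz)]

omit hV in
theorem InfV.s0 (hx0 : x ≠ 0) (h : InfV P (x := x) (y := y) V) :
    V.valuation (P.s0 x y) * V.valuation x ^ P.n = 1 := by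
  have hxv : V.valuation x ≠ 0 := V.valuation.ne_zero_iff.2 hx0
  unfold PlaneData.s0
  rw [map_div₀, h.hz, val_PP, D]
  have : ∏ i, V.valuation (P.Xi x i) ^ P.M i = V.valuation x ^ (∑ i, P.M i) := by
    rw [← Finset.prod_pow_eq_pow_sum]
    exact Finset.prod_congr rfl fun i _ => by rw [h.hX]
  rw [this, pow_add]
  field_simp

theorem val_poly_le_pow (hx : 1 ≤ V.valuation x) (hxy : V.valuation y ≤ V.valuation x)
    (q : Polynomial ℂ) : V.valuation (Polynomial.aeval y q) ≤ V.valuation x ^ q.natDegree := by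
  rw [Polynomial.aeval_eq_sum_range]
  refine V.valuation.map_sum_le fun k hk => ?_
  rw [Finset.mem_range] at hk
  rw [Algebra.smul_def, map_mul, map_pow]
  calc V.valuation (algebraMap ℂ K (q.coeff k)) * V.valuation y ^ k
      ≤ 1 * V.valuation x ^ k := by
        gcongr
        exact val_const_le V hV _
    _ = V.valuation x ^ k := one_mul _
    _ ≤ V.valuation x ^ q.natDegree := pow_le_pow_right₀ hx (by omega)

omit V hV
variable (hind : AlgebraicIndependent ℂ ![x, y])

/-- the nonvanishing facts -/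
theorem _root_.Crest.Agent.R278.aeval_ne (hind : AlgebraicIndependent ℂ ![x, y]) {Q : P2}
    (hQ : Q ≠ 0) : aeval ![x, y] Q ≠ 0 := by
  intro h
  exact hQ ((injective_iff_map_eq_zero _).1 hind Q h)

include hind

theorem nx : x ≠ 0 := by
  have := aeval_ne (x := x) (y := y) hind (X_ne_zero 0)
  rwa [aeval_X] at this

theorem ny : y ≠ 0 := by
  have := aeval_ne (x := x) (y := y) hind (X_ne_zero 1)
  rwa [aeval_X] at this

theorem nX (i : Fin P.r) : P.Xi x i ≠ 0 := by
  have h1 : (X 0 - C (P.a i) : P2) ≠ 0 := by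
    intro h
    have := congrArg (MvPolynomial.eval (fun _ => P.a i + 1)) h
    simp at this
  have := aeval_ne (x := x) (y := y) hind h1
  rw [map_sub, aeval_X, aeval_C] at this
  exact this

theorem nz : P.zz x y ≠ 0 := by
  refine aeval_ne (x := x) (y := y) hind ?_
  intro h
  have := P.z_0
  rw [h, coeff_zero] at this
  exact this rfl

theorem nPP : P.PP x ≠ 0 := Finset.prod_ne_zero_iff.2 fun i _ => pow_ne_zero _ (P.nX hind i)

theorem ns : P.s x y ≠ 0 :=
  div_ne_zero (mul_ne_zero (P.nPP hind) (pow_ne_zero _ (nx hind))) (P.nz hind)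

theorem nt : P.t x y ≠ 0 :=
  div_ne_zero (mul_ne_zero (P.nPP hind) (pow_ne_zero _ (ny hind))) (P.nz hind)

theorem nyt (q : Polynomial ℂ) (hq : q ≠ 0) : Polynomial.aeval y q ≠ 0 := by
  have h1 : liftY q ≠ 0 := by
    intro h
    have h2 : Function.Injective (Polynomial.aeval (X 1 : P2) : Polynomial ℂ →ₐ[ℂ] P2) := by
      rw [← transcendental_iff_injective]
      exact transcendental_X ℂ 1
    exact hq ((injective_iff_map_eq_zero _).1 h2 q h)
  have := aeval_ne (x := x) (y := y) hind h1
  rwa [aeval_liftY] at this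

omit hind in
theorem FinV.st (hzz : P.zz x y ≠ 0) {V : ValuationSubring K} (h : FinV P (x := x) (y := y) V) :
    P.s x y ∈ V ∧ P.t x y ∈ V := by
  have hz : V.valuation (P.zz x y) ≠ 0 := V.valuation.ne_zero_iff.2 hzz
  constructor
  · rw [← V.valuation_le_one_iff, val_s, h.hPz, mul_div_assoc, mul_comm, div_mul_cancel₀ _ hz]
    exact pow_le_one₀ zero_le h.hx
  · rw [← V.valuation_le_one_iff, val_t, h.hPz, mul_div_assoc, mul_comm, div_mul_cancel₀ _ hz]
    exact pow_le_one₀ zero_le h.hy

omit hind in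
theorem InfV.st (hx0 : x ≠ 0) {V : ValuationSubring K} (h : InfV P (x := x) (y := y) V) :
    P.s x y ∈ V ∧ P.t x y ∈ V := by
  have h1 := InfV.s0 P V hx0 h
  have h2 : P.s x y = P.s0 x y * x ^ P.n := by unfold PlaneData.s PlaneData.s0; ring
  have h3 : P.t x y = P.s0 x y * y ^ P.n := by unfold PlaneData.t PlaneData.s0; ring
  constructor
  · rw [← V.valuation_le_one_iff, h2, map_mul, map_pow, h1]
  · rw [← V.valuation_le_one_iff, h3, map_mul, map_pow, ← h1]
    gcongr
    exact h.hxy

/-- `clos s t ≤ intClos (G l)` -/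
theorem hle (l : P.Idx) : clos (P.s x y) (P.t x y) ≤ intClos (P.G x y l) := by
  rw [clos_eq_intClos]
  refine intClos_mono_of_mem ?_
  have key : P.s x y ∈ intClos (P.G x y l) ∧ P.t x y ∈ intClos (P.G x y l) := by
    rw [mem_intClos_iff_valuationSubring, mem_intClos_iff_valuationSubring]
    constructor
    · intro V hV h
      rcases P.finV_or_infV V hV (nx hind) (P.nz hind) (P.nX hind) (nyt hind) l h with h | h
      · exact (FinV.st P (P.nz hind) h).1
      · exact (InfV.st P (nx hind) h).1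
    · intro V hV h
      rcases P.finV_or_infV V hV (nx hind) (P.nz hind) (P.nX hind) (nyt hind) l h with h | h
      · exact (FinV.st P (P.nz hind) h).2
      · exact (InfV.st P (nx hind) h).2
  intro g hg
  rcases hg with rfl | rfl
  · exact key.1
  · exact key.2

/-- `⋂ intClos (G l) ≤ clos s t` -/
theorem hinter (hst : AlgebraicIndependent ℂ ![P.s x y, P.t x y])
    [Algebra.IsAlgebraic (Algebra.adjoin ℂ ({P.s x y, P.t x y} : Set K)) K]
    (k : K) (hk : ∀ l, k ∈ intClos (P.G x y l)) : k ∈ clos (P.s x y) (P.t x y) := by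
  refine mem_clos_of_cover _ _ hst (P.G x y) ?_ k hk
  intro V hV hs ht hst
  rcases P.cover V hV (P.nz hind) (P.nX hind) (P.ns hind) (P.nt hind) hs ht hst with
    h | h | ⟨i, b, hb, h⟩
  · exact ⟨none, h⟩
  · exact ⟨some none, h⟩
  · exact ⟨some (some ⟨i, ⟨b, by
      rw [Multiset.mem_toFinset, Polynomial.mem_roots (P.p_monic i).ne_zero]; exact hb⟩⟩), h⟩

/-- membership in `clos s t` from the two types of valuation rings. -/
theorem mem_clos_of_finV_infV (hst : AlgebraicIndependent ℂ ![P.s x y, P.t x y])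
    [Algebra.IsAlgebraic (Algebra.adjoin ℂ ({P.s x y, P.t x y} : Set K)) K] (k : K)
    (h1 : ∀ V : ValuationSubring K, (∀ c : ℂ, algebraMap ℂ K c ∈ V) →
      FinV P (x := x) (y := y) V → V.valuation k ≤ 1)
    (h2 : ∀ V : ValuationSubring K, (∀ c : ℂ, algebraMap ℂ K c ∈ V) →
      InfV P (x := x) (y := y) V → V.valuation k ≤ 1) :
    k ∈ clos (P.s x y) (P.t x y) := by
  refine P.hinter hind hst k fun l => ?_
  rw [mem_intClos_iff_valuationSubring]
  intro V hV h
  rw [← V.valuation_le_one_iff]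
  rcases P.finV_or_infV V hV (nx hind) (P.nz hind) (P.nX hind) (nyt hind) l h with h | h
  · exact h1 V hV h
  · exact h2 V hV h

theorem ns0 : P.s0 x y ≠ 0 := div_ne_zero (P.nPP hind) (P.nz hind)

/-- elements `s₀^e f` with `v(f) ≤ 1` at finite places and `v(f) ≤ v(x)^{e n}` at infinity. -/
theorem s0_pow_mul_mem (hst : AlgebraicIndependent ℂ ![P.s x y, P.t x y])
    [Algebra.IsAlgebraic (Algebra.adjoin ℂ ({P.s x y, P.t x y} : Set K)) K] (e : ℕ) (f : K)
    (h1 : ∀ V : ValuationSubring K, (∀ c : ℂ, algebraMap ℂ K c ∈ V) →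
      FinV P (x := x) (y := y) V → V.valuation f ≤ 1)
    (h2 : ∀ V : ValuationSubring K, (∀ c : ℂ, algebraMap ℂ K c ∈ V) →
      InfV P (x := x) (y := y) V → V.valuation f ≤ V.valuation x ^ (P.n * e)) :
    P.s0 x y ^ e * f ∈ clos (P.s x y) (P.t x y) := by
  refine P.mem_clos_of_finV_infV hind hst _ ?_ ?_
  · intro V hV h
    rw [map_mul, map_pow, FinV.s0 P V (P.nz hind) h, one_pow, one_mul]
    exact h1 V hV h
  · intro V hV h
    have h3 := InfV.s0 P V (nx hind) h
    rw [map_mul, map_pow]
    calc V.valuation (P.s0 x y) ^ e * V.valuation f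
        ≤ V.valuation (P.s0 x y) ^ e * V.valuation x ^ (P.n * e) := by
          gcongr
          exact h2 V hV h
      _ = (V.valuation (P.s0 x y) * V.valuation x ^ P.n) ^ e := by rw [mul_pow, ← pow_mul]
      _ ≤ 1 := by rw [h3, one_pow]

theorem hb_all (hst : AlgebraicIndependent ℂ ![P.s x y, P.t x y])
    [Algebra.IsAlgebraic (Algebra.adjoin ℂ ({P.s x y, P.t x y} : Set K)) K] (l : P.Idx) :
    P.cb x y l ∈ clos (P.s x y) (P.t x y) ∧
    P.cb x y l * P.cp x l ∈ clos (P.s x y) (P.t x y) ∧
    P.cb x y l * P.cq x y l ∈ clos (P.s x y) (P.t x y) := by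
  have hn := P.n_pos
  match l with
  | none =>
    refine ⟨?_, ?_, ?_⟩
    · have := P.s0_pow_mul_mem hind hst 1 1 (fun V _ _ => by rw [map_one])
        (fun V _ h => by rw [map_one]; exact one_le_pow₀ h.hx)
      rwa [pow_one, mul_one] at this
    · have := P.s0_pow_mul_mem hind hst 1 x (fun V _ h => h.hx)
        (fun V _ h => by
          conv_lhs => rw [← pow_one (V.valuation x)]
          exact pow_le_pow_right₀ h.hx (by omega))
      rwa [pow_one] at this
    · have := P.s0_pow_mul_mem hind hst 1 y (fun V _ h => h.hy)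
        (fun V _ h => by
          refine h.hxy.trans ?_
          conv_lhs => rw [← pow_one (V.valuation x)]
          exact pow_le_pow_right₀ h.hx (by omega))
      rwa [pow_one] at this
  | some none =>
    refine ⟨?_, ?_, ?_⟩
    · have := P.s0_pow_mul_mem hind hst 1 (x ^ P.n)
        (fun V _ h => by rw [map_pow]; exact pow_le_one₀ zero_le h.hx)
        (fun V _ h => by rw [map_pow, mul_one])
      rwa [pow_one] at this
    · have := P.s0_pow_mul_mem hind hst 1 (x ^ (P.n - 1))
        (fun V _ h => by rw [map_pow]; exact pow_le_one₀ zero_le h.hx)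
        (fun V _ h => by rw [map_pow]; exact pow_le_pow_right₀ h.hx (by omega))
      rw [pow_one] at this
      convert this using 1
      change P.s0 x y * x ^ P.n * x⁻¹ = _
      have h1 : x ^ P.n = x ^ (P.n - 1) * x := by rw [← pow_succ]; congr 1; omega
      rw [h1]
      have := nx hind
      field_simp
    · have := P.s0_pow_mul_mem hind hst 1 (x ^ (P.n - 1) * y)
        (fun V _ h => by
          rw [map_mul, map_pow]; exact mul_le_one' (pow_le_one₀ zero_le h.hx) h.hy)
        (fun V _ h => by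
          rw [map_mul, map_pow]
          calc V.valuation x ^ (P.n - 1) * V.valuation y
              ≤ V.valuation x ^ (P.n - 1) * V.valuation x := by
                gcongr
                exact h.hxy
            _ = V.valuation x ^ (P.n * 1) := by rw [← pow_succ]; congr 1; omega)
      rw [pow_one] at this
      convert this using 1
      change P.s0 x y * x ^ P.n * (y / x) = _
      have h1 : x ^ P.n = x ^ (P.n - 1) * x := by rw [← pow_succ]; congr 1; omega
      rw [h1]
      have := nx hind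
      field_simp
  | some (some ⟨i, ⟨b, hb⟩⟩) =>
    have hroot : (P.p i).IsRoot b :=
      (Polynomial.mem_roots (P.p_monic i).ne_zero).1 (Multiset.mem_toFinset.1 hb)
    have hpq : (Polynomial.X - Polynomial.C b) * P.q i b = P.p i :=
      Polynomial.mul_divByMonic_eq_iff_isRoot.2 hroot
    have hq0 : P.q i b ≠ 0 := by
      intro h0
      have h1 := (P.p_monic i).ne_zero
      rw [← hpq, h0, mul_zero] at h1
      exact h1 rfl
    have hdeg : (P.q i b).natDegree + 1 = (P.p i).natDegree := by
      rw [← hpq, Polynomial.natDegree_mul (Polynomial.X_sub_C_ne_zero b) hq0,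
        Polynomial.natDegree_X_sub_C, add_comm]
    have hle : (P.p i).natDegree ≤ P.n * (P.p i).natDegree := Nat.le_mul_of_pos_left _ hn
    refine ⟨?_, ?_, ?_⟩
    · change P.s0 x y ^ (P.p i).natDegree * Polynomial.aeval y (P.q i b) ∈ _
      refine P.s0_pow_mul_mem hind hst _ _ (fun V hV h => val_poly_le V hV h.hy _) ?_
      intro V hV h
      refine (val_poly_le_pow V hV h.hx h.hxy _).trans (pow_le_pow_right₀ h.hx (by omega))
    · change P.s0 x y ^ (P.p i).natDegree * Polynomial.aeval y (P.q i b) * P.Xi x i ∈ _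
      rw [mul_assoc]
      refine P.s0_pow_mul_mem hind hst _ _ ?_ ?_
      · intro V hV h
        rw [map_mul]
        refine mul_le_one' (val_poly_le V hV h.hy _) ?_
        have h1 := P.val_Xi_le V hV (x := x) i
        rwa [max_eq_right h.hx] at h1
      · intro V hV h
        rw [map_mul, h.hX]
        calc V.valuation (Polynomial.aeval y (P.q i b)) * V.valuation x
            ≤ V.valuation x ^ (P.q i b).natDegree * V.valuation x := by
              gcongr
              exact val_poly_le_pow V hV h.hx h.hxy _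
          _ = V.valuation x ^ ((P.q i b).natDegree + 1) := (pow_succ _ _).symm
          _ ≤ _ := pow_le_pow_right₀ h.hx (by omega)
    · change P.s0 x y ^ (P.p i).natDegree * Polynomial.aeval y (P.q i b) *
        ((y - algebraMap ℂ K b) / P.Xi x i) ∈ _
      have h1 : P.s0 x y ^ (P.p i).natDegree * Polynomial.aeval y (P.q i b) *
        ((y - algebraMap ℂ K b) / P.Xi x i) = P.s0 x y ^ (P.p i).natDegree *
          (Polynomial.aeval y (P.p i) / P.Xi x i) := by
        rw [← hpq, map_mul, map_sub, Polynomial.aeval_X, Polynomial.aeval_C]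
        ring
      rw [h1]
      refine P.s0_pow_mul_mem hind hst _ _ ?_ ?_
      · intro V hV h
        rw [map_div₀, div_le_one₀ (zero_lt_iff.2 (V.valuation.ne_zero_iff.2 (P.nX hind i)))]
        exact h.hp i
      · intro V hV h
        rw [map_div₀, h.hX]
        have hxv : V.valuation x ≠ 0 := V.valuation.ne_zero_iff.2 (nx hind)
        rw [div_le_iff₀ (zero_lt_iff.2 hxv), ← pow_succ]
        exact (val_poly_le_pow V hV h.hx h.hxy _).trans (pow_le_pow_right₀ h.hx (by omega))

theorem cb_ne (l : P.Idx) : P.cb x y l ≠ 0 := by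
  match l with
  | none => exact P.ns0 hind
  | some none => exact mul_ne_zero (P.ns0 hind) (pow_ne_zero _ (nx hind))
  | some (some ⟨i, ⟨b, hb⟩⟩) =>
    have hroot : (P.p i).IsRoot b :=
      (Polynomial.mem_roots (P.p_monic i).ne_zero).1 (Multiset.mem_toFinset.1 hb)
    have hpq : (Polynomial.X - Polynomial.C b) * P.q i b = P.p i :=
      Polynomial.mul_divByMonic_eq_iff_isRoot.2 hroot
    have hq0 : P.q i b ≠ 0 := by
      intro h0
      have h1 := (P.p_monic i).ne_zero
      rw [← hpq, h0, mul_zero] at h1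
      exact h1 rfl
    exact mul_ne_zero (pow_ne_zero _ (P.ns0 hind)) (nyt hind _ hq0)

theorem hbi (l : P.Idx) : (P.cb x y l)⁻¹ ∈ intClos (P.G x y l) := by
  rw [mem_intClos_iff_valuationSubring]
  intro V hV hG
  rw [← V.valuation_le_one_iff, map_inv₀]
  match l, hG with
  | none, hG =>
    have h := P.finV_of_G0 V hV (P.nz hind) (P.nX hind) hG
    have h1 := FinV.s0 P V (P.nz hind) h
    change (V.valuation (P.s0 x y))⁻¹ ≤ 1
    rw [h1, inv_one]
  | some none, hG =>
    have h := P.infV_of_Ginf V hV (nx hind) (P.nz hind) (P.nX hind) hG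
    have h1 := InfV.s0 P V (nx hind) h
    change (V.valuation (P.s0 x y * x ^ P.n))⁻¹ ≤ 1
    rw [map_mul, map_pow, h1, inv_one]
  | some (some ⟨i, ⟨b, hb⟩⟩), hG =>
    have hroot : (P.p i).IsRoot b :=
      (Polynomial.mem_roots (P.p_monic i).ne_zero).1 (Multiset.mem_toFinset.1 hb)
    have h := P.finV_of_Gb V hV (P.nz hind) (P.nX hind) (nyt hind) i b hroot hG
    have h1 := FinV.s0 P V (P.nz hind) h.1
    change (V.valuation (P.s0 x y ^ (P.p i).natDegree * Polynomial.aeval y (P.q i b)))⁻¹ ≤ 1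
    rw [map_mul, map_pow, h1, h.2, one_pow, one_mul, inv_one]

end PlaneData

end Crest.Agent.R278
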