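import Crest.Agent.R278.Cover

set_option autoImplicit false

namespace Crest.Agent.R278

/-- A radical system: `gam c ^ N = W c ∈ F`, and every element of `K` integral over `ℂ[G]`,
`G ⊆ F`, is a sum of elements `(c x) * gam x` with `c x ∈ F`, each of which is again integral over
`ℂ[G]`. -/
structure RadSys (F : Type*) (K : Type) [Field F] [Field K] [Algebra ℂ F] [Algebra F K] [Algebra ℂ K]
    [IsScalarTower ℂ F K] (N : ℕ) {X : Type*} [Fintype X] (gam : X → K) (W : X → F) : Prop where
  pow : ∀ c, gam c ^ N = algebraMap F K (W c)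
  W_ne : ∀ c, W c ≠ 0
  decomp : ∀ (G : Set F) (v : K), v ∈ intClos (algebraMap F K '' G) →
    ∃ c : X → F, v = ∑ x, algebraMap F K (c x) * gam x ∧
      ∀ x, algebraMap F K (c x) * gam x ∈ intClos (algebraMap F K '' G)

end Crest.Agent.R278
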