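import Crest.Agent.R278.Multiplier
import Crest.Agent.R278.RadSys

/-!
Row 278 (S0421): ramified charts for radical extensions `K = F(g₁, …, gₙ)`, `gᵢ ^ N ∈ F`.
-/

set_option autoImplicit false

namespace Crest.Agent.R278

open MvPolynomial

section Mono

variable {F : Type} [Field F] [Algebra ℂ F] {N : ℕ} {p q h : F}
variable {K : Type} [Field K] [Algebra F K] [Algebra ℂ K] [IsScalarTower ℂ F K]

/-- `G` is a monomial at the chart: `(e G) ^ N = p ^ r ω` with `ω` a unit of the chart ring. -/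
structure Mono (N : ℕ) (p q h : F) (G : K) (e ω : F) (r : ℤ) : Prop where
  he : e ≠ 0
  hω : ω ∈ chartRing ℂ p q h
  hω' : ω⁻¹ ∈ chartRing ℂ p q h
  hω0 : ω ≠ 0
  pow : (algebraMap F K e * G) ^ N = algebraMap F K (p ^ r * ω)

omit [Algebra ℂ K] [IsScalarTower ℂ F K] in
theorem Mono.of_eq {G : K} {e ω w : F} {r : ℤ} (he : e ≠ 0) (hω : ω ∈ chartRing ℂ p q h)
    (hω' : ω⁻¹ ∈ chartRing ℂ p q h) (hω0 : ω ≠ 0) (hG : G ^ N = algebraMap F K w)
    (hw : e ^ N * w = p ^ r * ω) : Mono N p q h G e ω r :=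
  ⟨he, hω, hω', hω0, by rw [mul_pow, hG, ← map_pow, ← map_mul, hw]⟩

omit [Algebra ℂ K] [IsScalarTower ℂ F K] in
theorem Mono.one : Mono N p q h (1 : K) 1 1 0 :=
  ⟨one_ne_zero, Subalgebra.one_mem _, by rw [inv_one]; exact Subalgebra.one_mem _, one_ne_zero,
    by simp⟩

omit [Algebra ℂ K] [IsScalarTower ℂ F K] in
theorem Mono.mul (hp0 : p ≠ 0) {G G' : K} {e ω e' ω' : F} {r r' : ℤ}
    (H : Mono N p q h G e ω r) (H' : Mono N p q h G' e' ω' r') :
    Mono N p q h (G * G') (e * e') (ω * ω') (r + r') :=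
  ⟨mul_ne_zero H.he H'.he, Subalgebra.mul_mem _ H.hω H'.hω, by
    rw [mul_inv]; exact Subalgebra.mul_mem _ H.hω' H'.hω', mul_ne_zero H.hω0 H'.hω0, by
    have h1 : algebraMap F K (e * e') * (G * G') =
      (algebraMap F K e * G) * (algebraMap F K e' * G') := by rw [map_mul]; ring
    rw [h1, mul_pow, H.pow, H'.pow, ← map_mul, zpow_add₀ hp0]
    congr 1
    ring⟩

omit [Algebra ℂ K] [IsScalarTower ℂ F K] in
theorem Mono.npow (hp0 : p ≠ 0) {G : K} {e ω : F} {r : ℤ}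
    (H : Mono N p q h G e ω r) (n : ℕ) :
    Mono N p q h (G ^ n) (e ^ n) (ω ^ n) (n * r) := by
  induction n with
  | zero => simpa using Mono.one
  | succ n ih =>
    have := ih.mul hp0 H
    rw [← pow_succ, ← pow_succ, ← pow_succ] at this
    convert this using 1
    push_cast; ring

omit [Algebra ℂ K] [IsScalarTower ℂ F K] in
theorem Mono.prod (hp0 : p ≠ 0) {I : Type*} (s : Finset I) {G : I → K} {e ω : I → F} {r : I → ℤ}
    (H : ∀ i ∈ s, Mono N p q h (G i) (e i) (ω i) (r i)) :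
    Mono N p q h (∏ i ∈ s, G i) (∏ i ∈ s, e i) (∏ i ∈ s, ω i) (∑ i ∈ s, r i) := by
  classical
  induction s using Finset.induction_on with
  | empty => simpa using Mono.one
  | insert a s ha ih =>
    rw [Finset.prod_insert ha, Finset.prod_insert ha, Finset.prod_insert ha, Finset.sum_insert ha]
    exact (H a (Finset.mem_insert_self a s)).mul hp0
      (ih fun i hi => H i (Finset.mem_insert_of_mem hi))

omit [Algebra ℂ K] [IsScalarTower ℂ F K] in
theorem Mono.pow_eq {G : K} {e ω : F} {r : ℤ} (H : Mono N p q h G e ω r) (f : F) :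
    (algebraMap F K f * (algebraMap F K e * G)) ^ N = algebraMap F K (f ^ N * p ^ r * ω) := by
  rw [mul_pow, H.pow, ← map_pow, ← map_mul, mul_assoc]

theorem Mono.mem_of {G : K} {e ω : F} {r : ℤ} (H : Mono N p q h G e ω r) (hN : 0 < N) {f : F}
    (hf : f ^ N * p ^ r ∈ chartRing ℂ p q h) :
    algebraMap F K f * (algebraMap F K e * G) ∈ CK K p q h := by
  have h1 : (algebraMap F K f * (algebraMap F K e * G)) ^ N ∈ CK K p q h := by
    rw [H.pow_eq]
    exact alg_mem_intClos (Subalgebra.mul_mem _ hf H.hω)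
  exact IsIntegral.of_pow hN h1

theorem Mono.of_mem {G : K} {e ω : F} {r : ℤ} (H : Mono N p q h G e ω r) (hc : IsChart ℂ p q)
    (hh : h ∈ polyRing ℂ p q) (h0 : h ≠ 0) {f : F}
    (hf : algebraMap F K f * (algebraMap F K e * G) ∈ CK K p q h) :
    f ^ N * p ^ r ∈ chartRing ℂ p q h := by
  have h1 : (algebraMap F K f * (algebraMap F K e * G)) ^ N ∈ CK K p q h :=
    Subalgebra.pow_mem _ hf N
  rw [H.pow_eq] at h1
  have h2 := mem_chartRing_of_intClos hc hh h0 h1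
  have h3 : f ^ N * p ^ r = f ^ N * p ^ r * ω * ω⁻¹ := by
    rw [mul_assoc, mul_inv_cancel₀ H.hω0, mul_one]
  rw [h3]
  exact Subalgebra.mul_mem _ h2 H.hω'

omit [Algebra ℂ K] [IsScalarTower ℂ F K] in
theorem Mono.ne_zero {G : K} {e ω : F} {r : ℤ} (H : Mono N p q h G e ω r) (hN : 0 < N)
    (hp0 : p ≠ 0) : G ≠ 0 := by
  rintro rfl
  have h1 := H.pow
  rw [mul_zero, zero_pow hN.ne'] at h1
  have h2 : algebraMap F K (p ^ r * ω) ≠ 0 := by
    rw [Ne, map_eq_zero]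
    exact mul_ne_zero (zpow_ne_zero _ hp0) H.hω0
  exact h2 h1.symm

/-- the normalized monomial `p^(-⌊r/N⌋) e G`. -/
noncomputable def Gam (p e : F) (r : ℤ) (N : ℕ) (G : K) : K :=
  algebraMap F K (p ^ (-(r / N))) * (algebraMap F K e * G)

omit [Algebra ℂ K] [IsScalarTower ℂ F K] in
theorem Mono.Gam_pow {G : K} {e ω : F} {r : ℤ} (H : Mono N p q h G e ω r) (hp0 : p ≠ 0) {ρ : ℕ}
    (hρ : r % N = ρ) : (Gam p e r N G) ^ N = algebraMap F K (p ^ ρ * ω ^ 1) := by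
  rw [Gam, H.pow_eq, pow_one]
  congr 2
  rw [← zpow_natCast (p ^ (-(r / N))), ← zpow_mul, ← zpow_add₀ hp0, ← zpow_natCast p ρ]
  congr 1
  have := Int.ediv_mul_add_emod r N
  rw [← hρ]
  linarith

theorem Mono.Gam_mem {G : K} {e ω : F} {r : ℤ} (H : Mono N p q h G e ω r) (hN : 0 < N)
    (hp0 : p ≠ 0) : Gam p e r N G ∈ CK K p q h := by
  have hN' : (0 : ℤ) < N := by exact_mod_cast hN
  obtain ⟨ρ, hρ⟩ := Int.eq_ofNat_of_zero_le (Int.emod_nonneg r hN'.ne')
  have h1 : (Gam p e r N G) ^ N ∈ CK K p q h := by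
    rw [H.Gam_pow hp0 hρ]
    exact alg_mem_intClos (Subalgebra.mul_mem _ (Subalgebra.pow_mem _
      (Algebra.subset_adjoin (by simp)) _) (Subalgebra.pow_mem _ H.hω _))
  exact IsIntegral.of_pow hN h1

end Mono

section Der

variable {F : Type} [Field F] [Algebra ℂ F] {N : ℕ} {p q h : F}
variable {K : Type} [Field K] [Algebra F K] [Algebra ℂ K] [IsScalarTower ℂ F K]
variable {X : Type} [Fintype X] {γ : X → K} {W : X → F}

/-- **P4R for radical systems.** -/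
theorem RadSys.der_mem (S : RadSys F K N γ W) (hN : 0 < N) (hc : IsChart ℂ p q)
    (hh : h ∈ polyRing ℂ p q) (h0 : h ≠ 0) (hp0 : p ≠ 0) {E Ω : X → F} {R : X → ℤ}
    (H : ∀ χ, Mono N p q h (γ χ) (E χ) (Ω χ) (R χ))
    (hd : (∀ χ, R χ = 0) ∨ h / p ∉ polyRing ℂ p q) (D : Derivation ℂ K K)
    (hDp : D (algebraMap F K p) ∈ CK K p q h) (hDq : D (algebraMap F K q) ∈ CK K p q h)
    (hlog : ∀ χ, R χ % N ≠ 0 → Gam p (E χ) (R χ) N (γ χ) *
      (D (algebraMap F K p) / algebraMap F K p) ∈ CK K p q h) :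
    ∀ v ∈ CK K p q h, D v ∈ CK K p q h := by
  intro v hv
  have hv' := hv
  rw [CK, ← image_G] at hv'
  obtain ⟨c, rfl, hcm⟩ := S.decomp _ v hv'
  rw [map_sum]
  refine Subalgebra.sum_mem _ fun χ _ => ?_
  have h1 := hcm χ
  rw [image_G] at h1
  have hE' : algebraMap F K (E χ) ≠ 0 := by rw [Ne, map_eq_zero]; exact (H χ).he
  set f : F := c χ / E χ with hf
  have h2 : algebraMap F K (c χ) * γ χ = algebraMap F K f * (algebraMap F K (E χ) * γ χ) := by
    rw [hf, map_div₀]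
    field_simp
  rw [h2] at h1
  have h3 := (H χ).of_mem hc hh h0 h1
  have h4 : f * p ^ (R χ / N) ∈ chartRing ℂ p q h := by
    rcases hd with hd | hd
    · rw [hd χ] at h3 ⊢
      rw [zpow_zero, mul_one] at h3
      rw [Int.zero_ediv, zpow_zero, mul_one]
      exact mem_chartRing_of_pow hc hh h0 hN h3
    · exact floor_mem hc hh h0 hp0 hd hN h3
  set a : F := f * p ^ (R χ / N) with ha
  have h5 : algebraMap F K f * (algebraMap F K (E χ) * γ χ) =
      algebraMap F K a * Gam p (E χ) (R χ) N (γ χ) := by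
    have e1 : a * p ^ (-(R χ / N)) = f := by
      rw [ha, mul_assoc, ← zpow_add₀ hp0]; simp
    rw [Gam, ← mul_assoc (algebraMap F K a), ← map_mul, e1]
  rw [h2, h5, D.leibniz, smul_eq_mul, smul_eq_mul]
  have hγ := (H χ).Gam_mem hN hp0
  have haD : ∀ a ∈ chartRing ℂ p q h, D (algebraMap F K a) ∈ CK K p q h := by
    intro a ha
    obtain ⟨α, hα, β, hβ, hD⟩ := exists_partials (K := K) hh h0 ha
    rw [hD]
    exact Subalgebra.add_mem _ (Subalgebra.mul_mem _ (alg_mem_intClos hα) hDp)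
      (Subalgebra.mul_mem _ (alg_mem_intClos hβ) hDq)
  refine Subalgebra.add_mem _ (Subalgebra.mul_mem _ (alg_mem_intClos h4) ?_)
    (Subalgebra.mul_mem _ hγ (haD a h4))
  have hN' : (0 : ℤ) < N := by exact_mod_cast hN
  obtain ⟨ρ, hρ⟩ := Int.eq_ofNat_of_zero_le (Int.emod_nonneg (R χ) hN'.ne')
  rw [der_root hN hp0 (H χ).hω0 ((H χ).Gam_pow hp0 hρ) D]
  have h6 : algebraMap ℂ K (N : ℂ)⁻¹ * Gam p (E χ) (R χ) N (γ χ) *
      ((ρ : K) * (D (algebraMap F K p) / algebraMap F K p) +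
        ((1 : ℕ) : K) * (D (algebraMap F K (Ω χ)) / algebraMap F K (Ω χ))) =
      algebraMap ℂ K (N : ℂ)⁻¹ * ((ρ : K) * (Gam p (E χ) (R χ) N (γ χ) *
        (D (algebraMap F K p) / algebraMap F K p)) +
        (Gam p (E χ) (R χ) N (γ χ) * (D (algebraMap F K (Ω χ)) *
          algebraMap F K (Ω χ)⁻¹))) := by
    rw [map_inv₀ (algebraMap F K) (Ω χ), Nat.cast_one]; ring
  rw [h6]
  refine Subalgebra.mul_mem _ (Subalgebra.algebraMap_mem _ _) (Subalgebra.add_mem _ ?_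
    (Subalgebra.mul_mem _ hγ
      (Subalgebra.mul_mem _ (haD _ (H χ).hω) (alg_mem_intClos (H χ).hω'))))
  by_cases h0 : ρ = 0
  · rw [h0, Nat.cast_zero, zero_mul]; exact Subalgebra.zero_mem _
  · refine Subalgebra.mul_mem _ (natCast_mem _ _) (hlog χ ?_)
    rw [hρ]
    exact_mod_cast h0

/-- stability from conditions in `F`. -/
theorem RadSys.stable (S : RadSys F K N γ W) (hN : 0 < N) (hc : IsChart ℂ p q)
    (hh : h ∈ polyRing ℂ p q) (h0 : h ≠ 0) (hp0 : p ≠ 0) {E Ω : X → F} {R : X → ℤ}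
    (H : ∀ χ, Mono N p q h (γ χ) (E χ) (Ω χ) (R χ))
    (hd : (∀ χ, R χ = 0) ∨ h / p ∉ polyRing ℂ p q) (D : Derivation ℂ K K)
    {G : K} {e ω : F} {r : ℤ} (HG : Mono N p q h G e ω r)
    {a b : F} (hDp : D (algebraMap F K p) = algebraMap F K a * G)
    (hDq : D (algebraMap F K q) = algebraMap F K b * G)
    {d : ℕ} (hdN : d ≤ N) (hdR : ∀ χ, (d : ℤ) ∣ R χ) (hdN' : (d : ℤ) ∣ N)
    {j j' : ℤ} (ha : a / e / p ^ j ∈ chartRing ℂ p q h) (hj : 0 ≤ N * (j - 1) + r + d)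
    (hb : b / e / p ^ j' ∈ chartRing ℂ p q h) (hj' : 0 ≤ N * j' + r) :
    ∀ v ∈ CK K p q h, D v ∈ CK K p q h := by
  have he' : algebraMap F K e ≠ 0 := by rw [Ne, map_eq_zero]; exact HG.he
  have hN' : (0 : ℤ) < N := by exact_mod_cast hN
  have hgcd : (d : ℤ) ≤ N := by exact_mod_cast hdN
  have key : ∀ a : F, algebraMap F K a * G = algebraMap F K (a / e) * (algebraMap F K e * G) := by
    intro a
    rw [map_div₀]
    field_simp
  have pw : ∀ (a : F) (j c : ℤ), (a * p ^ c) ^ N = (a / p ^ j) ^ N * p ^ (N * (j + c)) := by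
    intro a j c
    have h1 : a * p ^ c = a / p ^ j * p ^ (j + c) := by
      rw [zpow_add₀ hp0]
      have := zpow_ne_zero j hp0
      field_simp
    rw [h1, mul_pow, ← zpow_natCast (p ^ (j + c)), ← zpow_mul, mul_comm (j + c)]
  refine S.der_mem hN hc hh h0 hp0 H hd D ?_ ?_ ?_
  · rw [hDp, key]
    refine HG.mem_of hN ?_
    have h1 := pw (a / e) j 0
    rw [zpow_zero, mul_one] at h1
    rw [h1, mul_assoc, ← zpow_add₀ hp0]
    refine zpow_nonneg_mem ?_ (Subalgebra.pow_mem _ ha N)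
    linarith
  · rw [hDq, key]
    refine HG.mem_of hN ?_
    have h1 := pw (b / e) j' 0
    rw [zpow_zero, mul_one] at h1
    rw [h1, mul_assoc, ← zpow_add₀ hp0]
    refine zpow_nonneg_mem ?_ (Subalgebra.pow_mem _ hb N)
    linarith
  · intro χ hχ
    rw [hDp, key]
    have h1 : Gam p (E χ) (R χ) N (γ χ) * (algebraMap F K (a / e) *
        (algebraMap F K e * G) / algebraMap F K p) =
        algebraMap F K (a / e * p ^ (-(R χ / N) - 1)) *
          (algebraMap F K (E χ * e) * (γ χ * G)) := by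
      rw [Gam, map_mul, zpow_sub_one₀ hp0, map_mul, map_inv₀, map_mul]
      ring
    rw [h1]
    refine ((H χ).mul hp0 HG).mem_of hN ?_
    rw [pw (a / e) j, mul_assoc, ← zpow_add₀ hp0]
    refine zpow_nonneg_mem ?_ (Subalgebra.pow_mem _ ha N)
    have h2 := Int.ediv_mul_add_emod (R χ) N
    have h3 : (d : ℤ) ≤ R χ % N := by
      have h4 : (d : ℤ) ∣ R χ % N := by
        rw [Int.emod_def]
        exact dvd_sub (hdR χ) (Dvd.dvd.mul_right hdN' _)
      exact Int.le_of_dvd (lt_of_le_of_ne (Int.emod_nonneg _ hN'.ne') (Ne.symm hχ)) h4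
    have h5 : (N : ℤ) * (j + (-(R χ / N) - 1)) + (R χ + r) =
        N * (j - 1) + r + (R χ - (R χ / N) * N) := by
      ring
    rw [h5]
    linarith

/-- **Unit minors** on ramified charts. -/
theorem minor_unit (hN : 0 < N)
    (hh : h ∈ polyRing ℂ p q) (h0 : h ≠ 0) (hp0 : p ≠ 0) {Gπ : K} {eπ ωπ : F} {rπ : ℤ}
    (Hπ : Mono N p q h Gπ eπ ωπ rπ) {d : ℕ} (hd0 : 0 < d) {a : ℤ} (had : N * a + rπ = d)
    {G : K} {e ω : F} {r : ℤ} (HG : Mono N p q h G e ω r)
    (D₁ D₂ : Derivation ℂ K K) {M : F}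
    (hM : minor D₁ D₂ (algebraMap F K p) (algebraMap F K q) = algebraMap F K M * G)
    {j : ℤ} (hM0 : M ≠ 0)
    (h1 : M / e / p ^ j ∈ chartRing ℂ p q h) (h2 : (M / e / p ^ j)⁻¹ ∈ chartRing ℂ p q h)
    (hj : N * j + r = N - d) :
    ∃ π ∈ CK K p q h, ∃ c₁ ∈ CK K p q h, ∃ c₂ ∈ CK K p q h,
      c₁ * minor D₁ D₂ (algebraMap F K p) (algebraMap F K q) +
      c₂ * minor D₁ D₂ π (algebraMap F K q) = 1 := by
  have he' : algebraMap F K e ≠ 0 := by rw [Ne, map_eq_zero]; exact HG.he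
  have heπ' : algebraMap F K eπ ≠ 0 := by rw [Ne, map_eq_zero]; exact Hπ.he
  have hp0' : algebraMap F K p ≠ 0 := by rw [Ne, map_eq_zero]; exact hp0
  have hω0' : algebraMap F K ωπ ≠ 0 := by rw [Ne, map_eq_zero]; exact Hπ.hω0
  have hG0 := HG.ne_zero hN hp0
  have hGπ0 := Hπ.ne_zero hN hp0
  have hchar : CharZero K := charZero_of_injective_algebraMap (algebraMap ℂ K).injective
  have hNK : (N : K) ≠ 0 := by exact_mod_cast hN.ne'
  have hdK : (d : K) ≠ 0 := by exact_mod_cast hd0.ne'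
  have hpa : (p ^ a) ^ N * p ^ rπ = p ^ d := by
    rw [← zpow_natCast (p ^ a), ← zpow_mul, ← zpow_add₀ hp0, ← zpow_natCast p d]
    congr 1
    rw [← had]; ring
  set π : K := algebraMap F K (p ^ a) * (algebraMap F K eπ * Gπ) with hπ
  have hπC : π ∈ CK K p q h := by
    refine Hπ.mem_of hN ?_
    rw [hpa]
    exact Subalgebra.pow_mem _ (Algebra.subset_adjoin (by simp)) _
  have hπN : π ^ N = algebraMap F K (p ^ d * ωπ ^ 1) := by
    rw [hπ, Hπ.pow_eq, hpa, pow_one]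
  set μ := minor D₁ D₂ (algebraMap F K p) (algebraMap F K q) with hμ
  have hμ' : μ = algebraMap F K (M / e) * (algebraMap F K e * G) := by
    rw [hM, map_div₀]
    field_simp
  have hM0' : M / e ≠ 0 := div_ne_zero hM0 HG.he
  have hμ0 : μ ≠ 0 := by
    rw [hμ']
    exact mul_ne_zero (by rw [Ne, map_eq_zero]; exact hM0') (mul_ne_zero he' hG0)
  have hπ0 : π ≠ 0 := mul_ne_zero (by rw [Ne, map_eq_zero]; exact zpow_ne_zero _ hp0)
    (mul_ne_zero heπ' hGπ0)
  set u₁ := π / algebraMap F K p * μ with hu₁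
  have hmono := Hπ.mul hp0 HG
  have hu₁' : u₁ = algebraMap F K (p ^ (a - 1) * (M / e)) *
      (algebraMap F K (eπ * e) * (Gπ * G)) := by
    rw [hu₁, hμ', hπ, map_mul (algebraMap F K) (p ^ (a - 1)), zpow_sub_one₀ hp0, map_mul, map_inv₀,
      map_mul]
    ring
  have hu₁N : u₁ ^ N = algebraMap F K ((M / e / p ^ j) ^ N * (ωπ * ω)) := by
    rw [hu₁', hmono.pow_eq]
    congr 2
    have h3 : p ^ (a - 1) * (M / e) = M / e / p ^ j * p ^ (j + (a - 1)) := by
      rw [zpow_add₀ hp0]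
      have := zpow_ne_zero j hp0
      field_simp
    rw [h3, mul_pow, ← zpow_natCast (p ^ (j + (a - 1))), ← zpow_mul, mul_assoc,
      ← zpow_add₀ hp0]
    have h4 : (j + (a - 1)) * (N : ℤ) + (rπ + r) = 0 := by
      linear_combination hj + had
    rw [h4, zpow_zero, mul_one]
  have hu₁C : u₁ ∈ CK K p q h := by
    apply IsIntegral.of_pow hN
    rw [hu₁N]
    exact alg_mem_intClos (Subalgebra.mul_mem _ (Subalgebra.pow_mem _ h1 _)
      (Subalgebra.mul_mem _ Hπ.hω HG.hω))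
  have hu₁C' : u₁⁻¹ ∈ CK K p q h := by
    apply IsIntegral.of_pow hN
    have h5 : (algebraMap F K ((M / e / p ^ j) ^ N * (ωπ * ω)))⁻¹ =
        algebraMap F K ((M / e / p ^ j)⁻¹ ^ N * (ωπ⁻¹ * ω⁻¹)) := by
      rw [← map_inv₀ (algebraMap F K), mul_inv, inv_pow, mul_inv ωπ]
    rw [inv_pow, hu₁N, h5]
    exact alg_mem_intClos (Subalgebra.mul_mem _ (Subalgebra.pow_mem _ h2 _)
      (Subalgebra.mul_mem _ Hπ.hω' HG.hω'))
  obtain ⟨θ, hθ, θ', hθ', hDω⟩ := exists_partials (K := K) hh h0 Hπ.hω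
  have hminω : minor D₁ D₂ (algebraMap F K ωπ) (algebraMap F K q) = algebraMap F K θ * μ := by
    rw [hμ]
    unfold minor
    rw [hDω, hDω]; ring
  have hminπ : minor D₁ D₂ π (algebraMap F K q) = algebraMap ℂ K (N : ℂ)⁻¹ * π *
      ((d : K) * (μ / algebraMap F K p) +
        (algebraMap F K θ * μ / algebraMap F K ωπ)) := by
    rw [← hminω, hμ]
    unfold minor
    rw [der_root hN hp0 Hπ.hω0 hπN D₁, der_root hN hp0 Hπ.hω0 hπN D₂, Nat.cast_one]
    field_simp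
    ring
  refine ⟨π, hπC, -(π * algebraMap F K θ * algebraMap F K ωπ⁻¹ *
    algebraMap ℂ K (d : ℂ)⁻¹ * u₁⁻¹), ?_, (N : K) * algebraMap ℂ K (d : ℂ)⁻¹ * u₁⁻¹, ?_, ?_⟩
  · exact Subalgebra.neg_mem _ (Subalgebra.mul_mem _ (Subalgebra.mul_mem _
      (Subalgebra.mul_mem _ (Subalgebra.mul_mem _ hπC
      (alg_mem_intClos hθ)) (alg_mem_intClos Hπ.hω')) (Subalgebra.algebraMap_mem _ _)) hu₁C')
  · exact Subalgebra.mul_mem _ (Subalgebra.mul_mem _ (natCast_mem _ _)
      (Subalgebra.algebraMap_mem _ _)) hu₁C'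
  · rw [hminπ, hu₁, map_inv₀, map_inv₀, map_inv₀, map_natCast, map_natCast]
    field_simp
    ring

end Der

end Crest.Agent.R278
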