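import Mathlib
import Crest.Agent.R278.Cover

set_option autoImplicit false

/-!
Row 278 (S0421): an intersection of charts as `clos s t`, from finitely many sections
(Noether normalization).
-/

namespace Crest.Agent.R278

open MvPolynomial

variable {K : Type} [Field K] [Algebra ℂ K]

/-- polynomials without constant term in elements of the maximal ideal of `V` lie in the maximal
ideal of `V`. -/
theorem val_aeval_lt {J : Type*} (V : ValuationSubring K) (hV : ∀ c : ℂ, algebraMap ℂ K c ∈ V)
    (f : J → K) (hf : ∀ j, V.valuation (f j) < 1) (Q : MvPolynomial J ℂ)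
    (hQ : constantCoeff Q = 0) : V.valuation (aeval f Q) < 1 := by
  have key : ∀ Q : MvPolynomial J ℂ,
      V.valuation (aeval f Q - algebraMap ℂ K (constantCoeff Q)) < 1 ∧ aeval f Q ∈ V := by
    intro Q
    induction Q using MvPolynomial.induction_on with
    | C a =>
      refine ⟨?_, ?_⟩
      · simp
      · rw [aeval_C]; exact hV a
    | add p q hp hq =>
      refine ⟨?_, ?_⟩
      · have h1 : aeval f (p + q) - algebraMap ℂ K (constantCoeff (p + q)) =
            (aeval f p - algebraMap ℂ K (constantCoeff p)) +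
            (aeval f q - algebraMap ℂ K (constantCoeff q)) := by
          rw [map_add, map_add, map_add]; ring
        rw [h1]
        exact V.valuation.map_add_lt hp.1 hq.1
      · rw [map_add]; exact V.add_mem _ _ hp.2 hq.2
    | mul_X p i hp =>
      have h1 : V.valuation (aeval f p * f i) < 1 := by
        rw [map_mul, mul_comm]
        exact mul_lt_one_of_lt_of_le (hf i) ((V.valuation_le_one_iff _).2 hp.2)
      have h2 : aeval f (p * X i) = aeval f p * f i := by rw [map_mul, aeval_X]
      refine ⟨?_, ?_⟩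
      · rw [h2, map_mul constantCoeff, constantCoeff_X, mul_zero, map_zero, sub_zero]
        exact h1
      · rw [h2]; exact (V.valuation_le_one_iff _).1 h1.le
  have := (key Q).1
  rwa [hQ, map_zero, sub_zero] at this

/-- Translation of the variables. -/
noncomputable def translate {n : ℕ} (c : Fin n → ℂ) :
    MvPolynomial (Fin n) ℂ ≃ₐ[ℂ] MvPolynomial (Fin n) ℂ :=
  AlgEquiv.ofAlgHom (aeval fun i => X i - C (c i)) (aeval fun i => X i + C (c i))
    (by apply MvPolynomial.algHom_ext; intro i; simp [← algebraMap_eq])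
    (by apply MvPolynomial.algHom_ext; intro i; simp [← algebraMap_eq])

theorem translate_X {n : ℕ} (c : Fin n → ℂ) (i : Fin n) :
    translate c (X i) = X i - C (c i) := by
  simp [translate]

/-- Noether normalization of `ℂ[f_j]` by elements of the ideal `(f_j)`. -/
theorem exists_noether {J : Type*} [Finite J] (f : J → K) :
    ∃ (n : ℕ) (g : MvPolynomial (Fin n) ℂ →ₐ[ℂ] Algebra.adjoin ℂ (Set.range f)),
      Function.Injective g ∧ g.IsIntegral ∧
      ∀ i, ∃ Q : MvPolynomial J ℂ, constantCoeff Q = 0 ∧ (g (X i) : K) = aeval f Q := by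
  have hft : Algebra.FiniteType ℂ (Algebra.adjoin ℂ (Set.range f)) :=
    (Subalgebra.fg_iff_finiteType _).1 ((Subalgebra.fg_def).2 ⟨_, Set.finite_range f, rfl⟩)
  obtain ⟨n, g, hginj, hgint⟩ :=
    exists_integral_inj_algHom_of_fg ℂ (Algebra.adjoin ℂ (Set.range f))
  have hP : ∀ i, ∃ P : MvPolynomial J ℂ, aeval f P = (g (X i) : K) := by
    intro i
    have h1 : (g (X i) : K) ∈ (aeval f : MvPolynomial J ℂ →ₐ[ℂ] K).range :=
      (Algebra.adjoin_range_eq_range_aeval ℂ f) ▸ (g (X i)).2
    exact h1
  choose P hP using hP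
  refine ⟨n, g.comp (translate fun i => constantCoeff (P i)).toAlgHom, ?_, ?_, ?_⟩
  · rw [AlgHom.coe_comp]
    exact hginj.comp (translate fun i => constantCoeff (P i)).injective
  · refine RingHom.IsIntegral.trans _ _ ?_ hgint
    exact RingHom.isIntegral_of_surjective _ (translate fun i => constantCoeff (P i)).surjective
  · intro i
    refine ⟨P i - C (constantCoeff (P i)), by simp, ?_⟩
    have h1 : (g.comp (translate fun i => constantCoeff (P i)).toAlgHom) (X i) =
        g (X i) - algebraMap ℂ _ (constantCoeff (P i)) := by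
      rw [AlgHom.comp_apply]
      change g (translate (fun i => constantCoeff (P i)) (X i)) = _
      rw [translate_X, map_sub, ← algebraMap_eq, AlgHom.commutes]
    rw [h1, map_sub, hP, aeval_C]
    rfl

/-- **Sections form of the cover criterion.** Finitely many sections `f_j` which are regular on the
charts `G l`, such that every valuation ring containing all `f_j`, one of them a unit, contains
a chart. Then the intersection of the charts is the integral closure of some `ℂ[s,t]`. -/
theorem exists_clos_of_sections {J ι : Type*} [Finite J] (f : J → K) (G : ι → Set K) {x y : K}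
    (hxy : AlgebraicIndependent ℂ ![x, y])
    [Algebra.IsAlgebraic (Algebra.adjoin ℂ ({x, y} : Set K)) K]
    [Algebra.IsAlgebraic (Algebra.adjoin ℂ (Set.range f)) K]
    (hreg : ∀ j l, f j ∈ intClos (G l))
    (hcov : ∀ V : ValuationSubring K, (∀ c : ℂ, algebraMap ℂ K c ∈ V) → (∀ j, f j ∈ V) →
      (∃ j, V.valuation (f j) = 1) → ∃ l, ∀ g ∈ G l, g ∈ V) :
    ∃ s t : K, s ∈ Algebra.adjoin ℂ (Set.range f) ∧ t ∈ Algebra.adjoin ℂ (Set.range f) ∧
      AlgebraicIndependent ℂ ![s, t] ∧
      Algebra.IsAlgebraic (Algebra.adjoin ℂ ({s, t} : Set K)) K ∧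
      (∀ l, clos s t ≤ intClos (G l)) ∧ ∀ k, (∀ l, k ∈ intClos (G l)) → k ∈ clos s t := by
  set R := Algebra.adjoin ℂ (Set.range f) with hR
  obtain ⟨n, g, hginj, hgint, hQ⟩ := exists_noether f
  let v : Fin n → K := fun i => (g (X i) : K)
  have hav : (aeval v : MvPolynomial (Fin n) ℂ →ₐ[ℂ] K) = R.val.comp g := by
    apply MvPolynomial.algHom_ext
    intro i
    rw [aeval_X]
    rfl
  have hvind : AlgebraicIndependent ℂ v := by
    rw [AlgebraicIndependent, hav, AlgHom.coe_comp]
    exact Subtype.val_injective.comp hginj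
  let _ : Algebra (MvPolynomial (Fin n) ℂ) R := g.toRingHom.toAlgebra
  let _ : Algebra (MvPolynomial (Fin n) ℂ) K := (aeval v : MvPolynomial (Fin n) ℂ →ₐ[ℂ] K).toRingHom.toAlgebra
  have hmapK : ∀ p, algebraMap (MvPolynomial (Fin n) ℂ) K p = aeval v p := fun _ => rfl
  have : IsScalarTower (MvPolynomial (Fin n) ℂ) R K := by
    refine IsScalarTower.of_algebraMap_eq fun p => ?_
    rw [hmapK, hav]
    rfl
  have : Algebra.IsIntegral (MvPolynomial (Fin n) ℂ) R := ⟨fun r => hgint r⟩
  have : FaithfulSMul (MvPolynomial (Fin n) ℂ) R := by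
    rw [faithfulSMul_iff_algebraMap_injective]
    exact hginj
  have : Algebra.IsAlgebraic (MvPolynomial (Fin n) ℂ) K :=
    Algebra.IsAlgebraic.trans (MvPolynomial (Fin n) ℂ) R K
  -- `n = 2`
  let _ : Algebra (MvPolynomial (Fin n) ℂ) (Algebra.adjoin ℂ (Set.range v)) :=
    (hvind.aevalEquiv : MvPolynomial (Fin n) ℂ →+* Algebra.adjoin ℂ (Set.range v)).toAlgebra
  have : IsScalarTower (MvPolynomial (Fin n) ℂ) (Algebra.adjoin ℂ (Set.range v)) K :=
    IsScalarTower.of_algebraMap_eq fun p => (hvind.algebraMap_aevalEquiv p).symm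
  have halgv : Algebra.IsAlgebraic (Algebra.adjoin ℂ (Set.range v)) K :=
    Algebra.IsAlgebraic.extendScalars (R := MvPolynomial (Fin n) ℂ) hvind.aevalEquiv.injective
  have hb1 : IsTranscendenceBasis ℂ v :=
    hvind.isTranscendenceBasis_iff_isAlgebraic.2 halgv
  have hb2 : IsTranscendenceBasis ℂ ![x, y] := by
    rw [hxy.isTranscendenceBasis_iff_isAlgebraic]
    rw [show Set.range ![x, y] = {x, y} by ext z; simp [or_comm, eq_comm]]
    infer_instance
  have hn : n = 2 := by
    have h1 := hb1.cardinalMk_eq hb2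
    rw [Cardinal.mk_fin, Cardinal.mk_fin] at h1
    exact_mod_cast h1
  subst hn
  have hv : v = ![v 0, v 1] := by
    funext i
    fin_cases i <;> rfl
  have hst : AlgebraicIndependent ℂ ![v 0, v 1] := hv ▸ hvind
  have halg := isAlgebraic_of_gen (v 0) (v 1) x y hst
  have hmem : ∀ l, ∀ r ∈ R, r ∈ intClos (G l) := by
    intro l r hr
    induction hr using Algebra.adjoin_induction with
    | mem z hz =>
      obtain ⟨j, rfl⟩ := hz
      exact hreg j l
    | algebraMap c => exact Subalgebra.algebraMap_mem _ c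
    | add a b _ _ ha hb => exact Subalgebra.add_mem _ ha hb
    | mul a b _ _ ha hb => exact Subalgebra.mul_mem _ ha hb
  refine ⟨v 0, v 1, (g (X 0)).2, (g (X 1)).2, hst, halg, fun l => ?_, fun k hk => ?_⟩
  · rw [clos_eq_intClos]
    refine intClos_mono_of_mem ?_
    rintro z (rfl | rfl)
    · exact hmem l _ (g (X 0)).2
    · exact hmem l _ (g (X 1)).2
  · refine mem_clos_of_cover (v 0) (v 1) hst G ?_ k hk
    intro V hV h0 h1 hunit
    have hfV : ∀ j, f j ∈ V := by
      intro j
      have hj : IsIntegral (MvPolynomial (Fin 2) ℂ) (f j) := by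
        have h2 : IsIntegral (MvPolynomial (Fin 2) ℂ)
          (⟨f j, Algebra.subset_adjoin ⟨j, rfl⟩⟩ : R) := Algebra.IsIntegral.isIntegral _
        exact h2.algebraMap (B := K)
      refine mem_valuationSubring_of_isIntegral V (fun p => ?_) hj
      rw [hmapK]
      induction p using MvPolynomial.induction_on with
      | C a => rw [aeval_C]; exact hV a
      | add p q hp hq => rw [map_add]; exact V.add_mem _ _ hp hq
      | mul_X p i hp =>
        rw [map_mul, aeval_X]
        refine V.mul_mem _ _ hp ?_
        fin_cases i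
        · exact h0
        · exact h1
    refine hcov V hV hfV ?_
    by_contra hcon
    push Not at hcon
    have hlt : ∀ j, V.valuation (f j) < 1 := fun j =>
      lt_of_le_of_ne ((V.valuation_le_one_iff _).2 (hfV j)) (hcon j)
    have hvlt : ∀ i, V.valuation (v i) < 1 := by
      intro i
      obtain ⟨Q, hQ0, hQ1⟩ := hQ i
      change V.valuation (g (X i) : K) < 1
      rw [hQ1]
      exact val_aeval_lt V hV f hlt Q hQ0
    have hne : ∀ i, v i ≠ 0 := fun i => hvind.ne_zero i
    rcases hunit with h | h
    · have h3 := (V.valuation_le_one_iff _).2 h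
      rw [map_inv₀, inv_le_one₀ (zero_lt_iff.2 ((V.valuation.ne_zero_iff).2 (hne 0)))] at h3
      exact absurd (hvlt 0) (not_lt.2 h3)
    · have h3 := (V.valuation_le_one_iff _).2 h
      rw [map_inv₀, inv_le_one₀ (zero_lt_iff.2 ((V.valuation.ne_zero_iff).2 (hne 1)))] at h3
      exact absurd (hvlt 1) (not_lt.2 h3)

end Crest.Agent.R278
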