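import Crest.Agent.R278.Ramified
import Crest.Agent.R278.Sections

/-!
Row 278 (S0421): multipliers `b` with `b ^ n c ∈ A`; chart form with two pairs of minors.
-/

set_option autoImplicit false

namespace Crest.Agent.R278

section Mult

variable {K : Type} [Field K] [Algebra ℂ K]

/-- integral closure is idempotent -/
theorem mem_intClos_of_isIntegral_intClos {S : Set K} {c : K} (h : IsIntegral (intClos S) c) :
    c ∈ intClos S := by
  have h1 : IsIntegral (integralClosure (Algebra.adjoin ℂ S) K) c := h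
  exact isIntegral_trans (R := Algebra.adjoin ℂ S)
    (A := integralClosure (Algebra.adjoin ℂ S) K) c h1

/-- **Multipliers.** If `c` lies in every valuation ring containing `S` and `b⁻¹` then
`b ^ n c` is integral over `ℂ[S]` for some `n`. -/
theorem exists_pow_mul_mem {S : Set K} {b c : K} (hb : b ∈ intClos S) (hb0 : b ≠ 0)
    (h : ∀ V : ValuationSubring K, (∀ c : ℂ, algebraMap ℂ K c ∈ V) → (∀ z ∈ S, z ∈ V) →
      b⁻¹ ∈ V → c ∈ V) : ∃ n : ℕ, b ^ n * c ∈ intClos S := by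
  set A := intClos S with hA
  let B : Subalgebra ℂ K := Algebra.adjoin ℂ ((A : Set K) ∪ {b⁻¹})
  have hAB : A ≤ B := fun z hz => Algebra.subset_adjoin (Or.inl hz)
  let _ : Algebra A B := (Subalgebra.inclusion hAB).toRingHom.toAlgebra
  have hinv : b⁻¹ ∈ B := Algebra.subset_adjoin (Or.inr rfl)
  have hex : ∀ f ∈ B, ∃ n : ℕ, f * b ^ n ∈ A := by
    intro f hf
    induction hf using Algebra.adjoin_induction with
    | mem z hz =>
      rcases hz with hz | hz
      · exact ⟨0, by simpa using hz⟩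
      · rw [Set.mem_singleton_iff] at hz
        subst hz
        exact ⟨1, by rw [pow_one, inv_mul_cancel₀ hb0]; exact A.one_mem⟩
    | algebraMap c => exact ⟨0, by simp⟩
    | add u v _ _ hu hv =>
      obtain ⟨n, hn⟩ := hu
      obtain ⟨m, hm⟩ := hv
      refine ⟨n + m, ?_⟩
      have : (u + v) * b ^ (n + m) = u * b ^ n * b ^ m + v * b ^ m * b ^ n := by
        rw [pow_add]; ring
      rw [this]
      exact A.add_mem (A.mul_mem hn (A.pow_mem hb _)) (A.mul_mem hm (A.pow_mem hb _))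
    | mul u v _ _ hu hv =>
      obtain ⟨n, hn⟩ := hu
      obtain ⟨m, hm⟩ := hv
      refine ⟨n + m, ?_⟩
      have : u * v * b ^ (n + m) = (u * b ^ n) * (v * b ^ m) := by rw [pow_add]; ring
      rw [this]
      exact A.mul_mem hn hm
  have hloc : IsLocalization (Submonoid.powers (⟨b, hb⟩ : A)) B :=
    isLocalization_subalgebra (fun x => rfl) hb hb0 hinv hex
  have hc : IsIntegral B c := by
    have h1 : c ∈ intClos (S ∪ {b⁻¹}) := by
      rw [mem_intClos_iff_valuationSubring]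
      intro V hV hS
      exact h V hV (fun z hz => hS z (Or.inl hz)) (hS _ (Or.inr rfl))
    rw [mem_intClos] at h1
    have h2 : Algebra.adjoin ℂ (S ∪ {b⁻¹}) ≤ B := by
      rw [Algebra.adjoin_le_iff]
      rintro z (hz | hz)
      · exact hAB (subset_intClos hz)
      · exact Algebra.subset_adjoin (Or.inr hz)
    obtain ⟨P, hP, hP0⟩ := h1
    refine ⟨P.map (Subalgebra.inclusion h2).toRingHom, hP.map _, ?_⟩
    rw [Polynomial.eval₂_map]
    exact hP0
  have : IsScalarTower A B K := IsScalarTower.of_algebraMap_eq fun _ => rfl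
  obtain ⟨⟨m, hm⟩, hmc⟩ := IsIntegral.exists_multiple_integral_of_isLocalization
    (Submonoid.powers (⟨b, hb⟩ : A)) (Rₘ := B) c hc
  obtain ⟨n, rfl⟩ := hm
  refine ⟨n, mem_intClos_of_isIntegral_intClos ?_⟩
  have h3 : ((⟨(⟨b, hb⟩ : A) ^ n, ⟨n, rfl⟩⟩ : Submonoid.powers (⟨b, hb⟩ : A)) • c : K) =
      b ^ n * c := by
    rw [Submonoid.smul_def, Algebra.smul_def]
    rfl
  rwa [h3] at hmc

/-- A common exponent for three elements. -/
theorem exists_pow_mul_mem₃ {S : Set K} {b c₁ c₂ c₃ : K} (hb : b ∈ intClos S) (hb0 : b ≠ 0)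
    (h : ∀ V : ValuationSubring K, (∀ c : ℂ, algebraMap ℂ K c ∈ V) → (∀ z ∈ S, z ∈ V) →
      b⁻¹ ∈ V → c₁ ∈ V ∧ c₂ ∈ V ∧ c₃ ∈ V) : ∃ n : ℕ, b ^ n ∈ intClos S ∧
      b ^ n * c₁ ∈ intClos S ∧ b ^ n * c₂ ∈ intClos S ∧ b ^ n * c₃ ∈ intClos S := by
  obtain ⟨n₁, h₁⟩ := exists_pow_mul_mem hb hb0 (fun V hV hS hbV => (h V hV hS hbV).1)
  obtain ⟨n₂, h₂⟩ := exists_pow_mul_mem hb hb0 (fun V hV hS hbV => (h V hV hS hbV).2.1)
  obtain ⟨n₃, h₃⟩ := exists_pow_mul_mem hb hb0 (fun V hV hS hbV => (h V hV hS hbV).2.2)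
  refine ⟨n₁ + n₂ + n₃, Subalgebra.pow_mem _ hb _, ?_, ?_, ?_⟩
  · have : b ^ (n₁ + n₂ + n₃) * c₁ = b ^ (n₂ + n₃) * (b ^ n₁ * c₁) := by
      rw [pow_add, pow_add, pow_add]; ring
    rw [this]
    exact Subalgebra.mul_mem _ (Subalgebra.pow_mem _ hb _) h₁
  · have : b ^ (n₁ + n₂ + n₃) * c₂ = b ^ (n₁ + n₃) * (b ^ n₂ * c₂) := by
      rw [pow_add, pow_add, pow_add]; ring
    rw [this]
    exact Subalgebra.mul_mem _ (Subalgebra.pow_mem _ hb _) h₂
  · have : b ^ (n₁ + n₂ + n₃) * c₃ = b ^ (n₁ + n₂) * (b ^ n₃ * c₃) := by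
      rw [pow_add, pow_add]; ring
    rw [this]
    exact Subalgebra.mul_mem _ (Subalgebra.pow_mem _ hb _) h₃

end Mult

section Charts

/-- Chart form with two pairs per chart: `c₁ minor(p,q) + c₂ minor(π,q) = 1` in `C l`. -/
theorem concl_of_charts2 (K : Type) [Field K] [Algebra ℂ K] (D₁ D₂ : Derivation ℂ K K)
    (X Y : K) [Algebra.IsAlgebraic (Algebra.adjoin ℂ ({X, Y} : Set K)) K]
    (S : Set K) (hSf : S.Finite) (hS : IntermediateField.adjoin ℂ S = ⊤)
    (s t : K) (hst : minor D₁ D₂ s t ≠ 0)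
    {ι : Type*} [Finite ι] (C : ι → Subalgebra ℂ K)
    (hle : ∀ l, clos s t ≤ C l) (hinter : ∀ k : K, (∀ l, k ∈ C l) → k ∈ clos s t)
    (h1 : ∀ l, ∀ a ∈ C l, D₁ a ∈ C l) (h2 : ∀ l, ∀ a ∈ C l, D₂ a ∈ C l)
    (b p q π c₁ c₂ : ι → K) (hb : ∀ l, b l ∈ clos s t) (hbp : ∀ l, b l * p l ∈ clos s t)
    (hbq : ∀ l, b l * q l ∈ clos s t) (hbπ : ∀ l, b l * π l ∈ clos s t)
    (hb0 : ∀ l, b l ≠ 0) (hbi : ∀ l, (b l)⁻¹ ∈ C l)
    (hc₁ : ∀ l, c₁ l ∈ C l) (hc₂ : ∀ l, c₂ l ∈ C l)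
    (hm : ∀ l, c₁ l * minor D₁ D₂ (p l) (q l) + c₂ l * minor D₁ D₂ (π l) (q l) = 1)
    (I : Ideal (clos s t)) (hI : I ≠ ⊤)
    (hDI : ∀ (a : K), a ∈ clos s t → ∀ h : D₁ a ∈ clos s t, (⟨D₁ a, h⟩ : clos s t) ∈ I) :
    Concl := by
  have H1 : ∀ a ∈ clos s t, D₁ a ∈ clos s t := fun a ha =>
    hinter _ fun l => h1 l a (hle l ha)
  have H2 : ∀ a ∈ clos s t, D₂ a ∈ clos s t := fun a ha =>
    hinter _ fun l => h2 l a (hle l ha)
  obtain ⟨m, hm', hIm⟩ := Ideal.exists_le_maximal I hI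
  let x : ι × Fin 5 → K := fun i => match i.2 with
    | 0 => b i.1 * p i.1
    | 1 => b i.1
    | 2 => b i.1
    | 3 => b i.1 * π i.1
    | 4 => b i.1
  let y : ι × Fin 5 → K := fun i => match i.2 with
    | 0 => b i.1 * q i.1
    | 1 => b i.1 * p i.1
    | 2 => b i.1 * q i.1
    | 3 => b i.1 * q i.1
    | 4 => b i.1 * π i.1
  have hx : ∀ i, x i ∈ clos s t := by
    rintro ⟨l, j⟩
    fin_cases j
    · exact hbp l
    · exact hb l
    · exact hb l
    · exact hbπ l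
    · exact hb l
  have hy : ∀ i, y i ∈ clos s t := by
    rintro ⟨l, j⟩
    fin_cases j
    · exact hbq l
    · exact hbp l
    · exact hbq l
    · exact hbq l
    · exact hbπ l
  refine statement_of_cert K D₁ D₂ X Y S hSf hS s t hst H1 H2 x y hx hy ?_ m
    (fun a _ => hIm (hDI a a.2 _))
  intro k hk
  refine hinter k fun l => ?_
  have e0 : minor D₁ D₂ (b l * p l) (b l * q l) * k ∈ C l := hle l (hk (l, 0))
  have e1 : minor D₁ D₂ (b l) (b l * p l) * k ∈ C l := hle l (hk (l, 1))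
  have e2 : minor D₁ D₂ (b l) (b l * q l) * k ∈ C l := hle l (hk (l, 2))
  have e3 : minor D₁ D₂ (b l * π l) (b l * q l) * k ∈ C l := hle l (hk (l, 3))
  have e4 : minor D₁ D₂ (b l) (b l * π l) * k ∈ C l := hle l (hk (l, 4))
  have key : ∀ P Q : K, b l * P ∈ C l → b l * Q ∈ C l →
      minor D₁ D₂ (b l * P) (b l * Q) * k ∈ C l → minor D₁ D₂ (b l) (b l * P) * k ∈ C l →
      minor D₁ D₂ (b l) (b l * Q) * k ∈ C l → minor D₁ D₂ P Q * k ∈ C l := by
    intro P Q hP hQ f0 f1 f2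
    have hid : b l ^ 3 * minor D₁ D₂ P Q
        = b l * minor D₁ D₂ (b l * P) (b l * Q) + b l * Q * minor D₁ D₂ (b l) (b l * P)
          - b l * P * minor D₁ D₂ (b l) (b l * Q) := by
      unfold minor
      simp only [Derivation.leibniz, smul_eq_mul]
      ring
    have f3 : b l ^ 3 * minor D₁ D₂ P Q * k ∈ C l := by
      rw [hid]
      have : (b l * minor D₁ D₂ (b l * P) (b l * Q) + b l * Q * minor D₁ D₂ (b l) (b l * P)
          - b l * P * minor D₁ D₂ (b l) (b l * Q)) * k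
          = b l * (minor D₁ D₂ (b l * P) (b l * Q) * k)
            + b l * Q * (minor D₁ D₂ (b l) (b l * P) * k)
            - b l * P * (minor D₁ D₂ (b l) (b l * Q) * k) := by ring
      rw [this]
      exact (C l).sub_mem ((C l).add_mem ((C l).mul_mem (hle l (hb l)) f0)
        ((C l).mul_mem hQ f1)) ((C l).mul_mem hP f2)
    have hk' : minor D₁ D₂ P Q * k = (b l)⁻¹ ^ 3 * (b l ^ 3 * minor D₁ D₂ P Q * k) := by
      have h3 := hb0 l
      field_simp
    rw [hk']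
    exact (C l).mul_mem ((C l).pow_mem (hbi l) 3) f3
  have g1 := key (p l) (q l) (hle l (hbp l)) (hle l (hbq l)) e0 e1 e2
  have g2 := key (π l) (q l) (hle l (hbπ l)) (hle l (hbq l)) e3 e4 e2
  have : k = c₁ l * (minor D₁ D₂ (p l) (q l) * k) + c₂ l * (minor D₁ D₂ (π l) (q l) * k) := by
    linear_combination (-k) * hm l
  rw [this]
  exact (C l).add_mem ((C l).mul_mem (hc₁ l) g1) ((C l).mul_mem (hc₂ l) g2)

end Charts

end Crest.Agent.R278
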