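import Crest.Agent.R278.DerFree

set_option autoImplicit false

namespace Crest.Agent.R278

variable {K : Type*} [Field K] [Algebra ℂ K]

/-- The localization of `A ⊆ K` at the prime ideal `m`, as a subalgebra of `K`. -/
def locAt (A : Subalgebra ℂ K) (m : Ideal A) [m.IsPrime] : Subalgebra ℂ K where
  carrier := {x | ∃ a b : A, b ∉ m ∧ x = (a : K) / (b : K)}
  mul_mem' := by
    rintro x y ⟨a, b, hb, rfl⟩ ⟨c, d, hd, rfl⟩
    refine ⟨a * c, b * d, fun h => ?_, ?_⟩
    · rcases (Ideal.IsPrime.mem_or_mem ‹_› h) with h | h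
      · exact hb h
      · exact hd h
    · push_cast
      rw [div_mul_div_comm]
  add_mem' := by
    rintro x y ⟨a, b, hb, rfl⟩ ⟨c, d, hd, rfl⟩
    refine ⟨a * d + b * c, b * d, fun h => ?_, ?_⟩
    · rcases (Ideal.IsPrime.mem_or_mem ‹_› h) with h | h
      · exact hb h
      · exact hd h
    · have hb0 : (b : K) ≠ 0 := fun h => hb (by
        have : b = 0 := Subtype.ext h
        rw [this]; exact zero_mem _)
      have hd0 : (d : K) ≠ 0 := fun h => hd (by
        have : d = 0 := Subtype.ext h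
        rw [this]; exact zero_mem _)
      push_cast
      rw [div_add_div _ _ hb0 hd0]
  algebraMap_mem' := by
    intro c
    refine ⟨algebraMap ℂ A c, 1, fun h => ?_, ?_⟩
    · exact (Ideal.ne_top_iff_one m).mp (Ideal.IsPrime.ne_top ‹_›) h
    · simp

variable (A : Subalgebra ℂ K) (m : Ideal A) [m.IsPrime]

omit [m.IsPrime] in
theorem coe_ne_zero_of_notMem {b : A} (hb : b ∉ m) : (b : K) ≠ 0 := fun h => hb (by
  have : b = 0 := Subtype.ext h
  rw [this]; exact zero_mem _)

theorem le_locAt : A ≤ locAt A m := by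
  intro a ha
  refine ⟨⟨a, ha⟩, 1, fun h => ?_, by simp⟩
  exact (Ideal.ne_top_iff_one m).mp (Ideal.IsPrime.ne_top ‹_›) h

theorem inv_mem_locAt {b : A} (hb : b ∉ m) : (b : K)⁻¹ ∈ locAt A m :=
  ⟨1, b, hb, by simp⟩

noncomputable instance algLocAt : Algebra A (locAt A m) :=
  (Subalgebra.inclusion (le_locAt A m)).toRingHom.toAlgebra

theorem coe_algebraMap_locAt (a : A) : ((algebraMap A (locAt A m) a : locAt A m) : K) = a := rfl

instance isLocalization_locAt : IsLocalization.AtPrime (locAt A m) m where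
  map_units := by
    rintro ⟨b, hb⟩
    have hb' : b ∉ m := hb
    have h0 := coe_ne_zero_of_notMem A m hb'
    refine IsUnit.of_mul_eq_one ⟨(b : K)⁻¹, inv_mem_locAt A m hb'⟩ ?_
    apply Subtype.ext
    simp only [MulMemClass.coe_mul, coe_algebraMap_locAt]
    exact mul_inv_cancel₀ h0
  surj := by
    rintro ⟨x, a, b, hb, rfl⟩
    refine ⟨(a, ⟨b, hb⟩), ?_⟩
    apply Subtype.ext
    have h0 := coe_ne_zero_of_notMem A m hb
    simp only [MulMemClass.coe_mul, coe_algebraMap_locAt]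
    exact div_mul_cancel₀ _ h0
  exists_of_eq := by
    intro a b h
    refine ⟨1, ?_⟩
    have h1 : ((algebraMap A (locAt A m) a : locAt A m) : K)
        = ((algebraMap A (locAt A m) b : locAt A m) : K) := by rw [h]
    rw [coe_algebraMap_locAt, coe_algebraMap_locAt] at h1
    have h2 : a = b := Subtype.ext h1
    rw [h2]

/-- A derivation of `K` preserving `A` preserves the localization. -/
theorem der_mem_locAt (D : Derivation ℂ K K) (h : ∀ a ∈ A, D a ∈ A) :
    ∀ x ∈ locAt A m, D x ∈ locAt A m := by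
  rintro x ⟨a, b, hb, rfl⟩
  have h0 := coe_ne_zero_of_notMem A m hb
  refine ⟨b * ⟨D a, h a a.2⟩ - a * ⟨D b, h b b.2⟩, b * b, fun hh => ?_, ?_⟩
  · rcases (Ideal.IsPrime.mem_or_mem ‹_› hh) with h | h <;> exact hb h
  · rw [Derivation.leibniz_div]
    push_cast
    rw [smul_eq_mul, smul_eq_mul, smul_eq_mul]
    field_simp

instance isLocalRing_locAt : IsLocalRing (locAt A m) :=
  IsLocalization.AtPrime.isLocalRing (locAt A m) m

theorem mem_maximalIdeal_locAt_iff (x : locAt A m) :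
    x ∈ IsLocalRing.maximalIdeal (locAt A m) ↔
      ∃ a b : A, a ∈ m ∧ b ∉ m ∧ (x : K) = (a : K) / (b : K) := by
  constructor
  · intro hx
    obtain ⟨x, a, b, hb, rfl⟩ := x
    refine ⟨a, b, ?_, hb, rfl⟩
    by_contra ha
    rw [IsLocalRing.mem_maximalIdeal, mem_nonunits_iff] at hx
    apply hx
    have ha0 := coe_ne_zero_of_notMem A m ha
    have hb0 := coe_ne_zero_of_notMem A m hb
    refine IsUnit.of_mul_eq_one ⟨(b : K) / a, b, a, ha, rfl⟩ ?_
    apply Subtype.ext
    simp only [MulMemClass.coe_mul, OneMemClass.coe_one]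
    field_simp
  · rintro ⟨a, b, ha, hb, hab⟩
    rw [IsLocalRing.mem_maximalIdeal, mem_nonunits_iff]
    intro hu
    obtain ⟨⟨y, c, d, hd, rfl⟩, hy⟩ := hu.exists_right_inv
    have h1 : (x : K) * ((c : K) / d) = 1 := congrArg Subtype.val hy
    rw [hab] at h1
    have hb0 := coe_ne_zero_of_notMem A m hb
    have hd0 := coe_ne_zero_of_notMem A m hd
    have h2 : (a : K) * c = b * d := by
      field_simp at h1
      exact h1
    have h3 : a * c = b * d := Subtype.ext (by push_cast; exact h2)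
    have h4 : b * d ∈ m := h3 ▸ Ideal.mul_mem_right _ _ ha
    rcases (Ideal.IsPrime.mem_or_mem ‹_› h4) with h | h
    · exact hb h
    · exact hd h

/-- **Non-regularity.** -/
theorem not_regular (D₁ D₂ : Derivation ℂ K K)
    (h1 : ∀ a ∈ A, D₁ a ∈ A) (h2 : ∀ a ∈ A, D₂ a ∈ A)
    (hm1 : ∀ a : A, a ∈ m → (⟨D₁ a, h1 a a.2⟩ : A) ∈ m)
    (s t : K) (hs : s ∈ A) (ht : t ∈ A) (hst : minor D₁ D₂ s t ≠ 0)
    (hdim : ringKrullDim A ≤ 2)
    (hC : ∀ a : A, ∃ c : ℂ, a - algebraMap ℂ A c ∈ m)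
    {ι : Type*} [Finite ι] (x y : ι → K) (hx : ∀ i, x i ∈ A)
    (hy : ∀ i, y i ∈ A)
    (hgr : ∀ k : K, (∀ i, minor D₁ D₂ (x i) (y i) * k ∈ A) → k ∈ A) :
    ¬ IsRegularLocalRing (Localization.AtPrime m) := by
  classical
  intro hreg
  let e : Localization.AtPrime m ≃ₐ[A] locAt A m :=
    IsLocalization.algEquiv m.primeCompl (Localization.AtPrime m) (locAt A m)
  have hreg' : IsRegularLocalRing (locAt A m) := IsRegularLocalRing.of_ringEquiv e.toRingEquiv
  have hnoeth : IsNoetherianRing (locAt A m) := inferInstance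
  -- dimension at most two
  have hd : ringKrullDim (locAt A m) ≤ 2 := by
    rw [IsLocalization.AtPrime.ringKrullDim_eq_height m (locAt A m)]
    exact (Ideal.height_le_ringKrullDim_of_ne_top (Ideal.IsPrime.ne_top ‹_›)).trans hdim
  have hspan : (IsLocalRing.maximalIdeal (locAt A m)).spanFinrank ≤ 2 := by
    have := (hreg'.spanFinrank_maximalIdeal).trans_le hd
    exact_mod_cast this
  obtain ⟨S, hcard, hS⟩ := Submodule.FG.exists_span_finset_card_eq_spanFinrank
    (IsNoetherian.noetherian (IsLocalRing.maximalIdeal (locAt A m)))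
  obtain ⟨u, v, huv⟩ : ∃ u v : locAt A m,
      IsLocalRing.maximalIdeal (locAt A m) = Ideal.span {u, v} := by
    have hc2 : S.card ≤ 2 := hcard ▸ hspan
    rcases Nat.lt_or_ge S.card 1 with h0 | h0
    · have : S = ∅ := Finset.card_eq_zero.mp (by omega)
      refine ⟨0, 0, ?_⟩
      rw [← hS, this]
      simp
    rcases Nat.lt_or_ge S.card 2 with h0' | h0'
    · obtain ⟨w, hw⟩ := Finset.card_eq_one.mp (show S.card = 1 by omega)
      refine ⟨w, w, ?_⟩
      rw [← hS, hw]
      simp [Ideal.span]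
    · obtain ⟨w, w', -, hw⟩ := Finset.card_eq_two.mp (show S.card = 2 by omega)
      refine ⟨w, w', ?_⟩
      rw [← hS, hw]
      simp [Ideal.span]
  let R := locAt A m
  let d₁ : Derivation ℂ R R := restrictDer R D₁ (der_mem_locAt A m D₁ h1)
  let d₂ : Derivation ℂ R R := restrictDer R D₂ (der_mem_locAt A m D₂ h2)
  have hCR : ∀ x : R, ∃ c : ℂ, x - algebraMap ℂ R c ∈ IsLocalRing.maximalIdeal R := by
    rintro ⟨x, a, b, hb, rfl⟩
    obtain ⟨c, hc⟩ := hC a
    obtain ⟨d, hd⟩ := hC b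
    have hb0 := coe_ne_zero_of_notMem A m hb
    have hd0 : d ≠ 0 := by
      rintro rfl
      rw [map_zero, sub_zero] at hd
      exact hb hd
    refine ⟨c / d, ?_⟩
    rw [mem_maximalIdeal_locAt_iff]
    refine ⟨a - algebraMap ℂ A (c / d) * b, b, ?_, hb, ?_⟩
    · have : a - algebraMap ℂ A (c / d) * b = (a - algebraMap ℂ A c)
          - algebraMap ℂ A (c / d) * (b - algebraMap ℂ A d) := by
        have : algebraMap ℂ A c = algebraMap ℂ A (c / d) * algebraMap ℂ A d := by
          rw [← map_mul, div_mul_cancel₀ _ hd0]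
        rw [this]; ring
      rw [this]
      exact Ideal.sub_mem _ hc (Ideal.mul_mem_left _ _ hd)
    · have e1 : (((⟨(a : K) / b, a, b, hb, rfl⟩ : R) - algebraMap ℂ R (c / d) : R) : K)
          = (a : K) / b - algebraMap ℂ K (c / d) := rfl
      rw [e1]
      have e2 : ((a - algebraMap ℂ A (c / d) * b : A) : K)
          = (a : K) - algebraMap ℂ K (c / d) * b := rfl
      rw [e2]
      field_simp
  have hmin : ∀ p q : R, minor d₁ d₂ p q ∈ Ideal.span {minor d₁ d₂ u v} :=
    fun p q => minor_mem_span d₁ d₂ u v huv hCR p q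
  have hcoe : ∀ p q : R, ((minor d₁ d₂ p q : R) : K) = minor D₁ D₂ (p : K) (q : K) := by
    intro p q
    simp [minor, d₁, d₂]
  -- the minor of `u,v` lies in the maximal ideal
  have hu : u ∈ IsLocalRing.maximalIdeal R := by
    change u ∈ IsLocalRing.maximalIdeal (locAt A m)
    rw [huv]; exact Ideal.subset_span (by simp)
  have hv : v ∈ IsLocalRing.maximalIdeal R := by
    change v ∈ IsLocalRing.maximalIdeal (locAt A m)
    rw [huv]; exact Ideal.subset_span (by simp)
  have hd1 : ∀ p ∈ IsLocalRing.maximalIdeal R, d₁ p ∈ IsLocalRing.maximalIdeal R := by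
    intro p hp
    obtain ⟨a, b, ha, hb, hab⟩ := (mem_maximalIdeal_locAt_iff A m p).mp hp
    have hb0 := coe_ne_zero_of_notMem A m hb
    rw [mem_maximalIdeal_locAt_iff]
    refine ⟨b * ⟨D₁ a, h1 a a.2⟩ - a * ⟨D₁ b, h1 b b.2⟩, b * b, ?_, ?_, ?_⟩
    · exact Ideal.sub_mem _ (Ideal.mul_mem_left _ _ (hm1 a ha)) (Ideal.mul_mem_right _ _ ha)
    · intro hh
      rcases (Ideal.IsPrime.mem_or_mem ‹_› hh) with h | h <;> exact hb h
    · have : ((d₁ p : R) : K) = D₁ (p : K) := rfl
      rw [this, hab, Derivation.leibniz_div]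
      push_cast
      rw [smul_eq_mul, smul_eq_mul, smul_eq_mul]
      field_simp
  have hδm : minor d₁ d₂ u v ∈ IsLocalRing.maximalIdeal R := by
    unfold minor
    exact Ideal.sub_mem _ (Ideal.mul_mem_right _ _ (hd1 u hu)) (Ideal.mul_mem_right _ _ (hd1 v hv))
  set δ : R := minor d₁ d₂ u v with hδ
  have hδ0 : (δ : K) ≠ 0 := by
    intro h
    have hδ0' : δ = 0 := Subtype.ext h
    have := hmin ⟨s, le_locAt A m hs⟩ ⟨t, le_locAt A m ht⟩
    rw [hδ0'] at this
    have h0 : minor d₁ d₂ (⟨s, le_locAt A m hs⟩ : R) ⟨t, le_locAt A m ht⟩ = 0 := by simpa using this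
    apply hst
    have := hcoe ⟨s, le_locAt A m hs⟩ ⟨t, le_locAt A m ht⟩
    rw [h0] at this
    exact this.symm
  -- the quotients of the minors by δ
  have hq : ∀ i, ∃ w : A, w ∉ m ∧ (w : K) * (minor D₁ D₂ (x i) (y i) * (δ : K)⁻¹) ∈ A := by
    intro i
    have := hmin ⟨x i, le_locAt A m (hx i)⟩ ⟨y i, le_locAt A m (hy i)⟩
    rw [Ideal.mem_span_singleton'] at this
    obtain ⟨r, hr⟩ := this
    obtain ⟨r, a, b, hb, rfl⟩ := r
    refine ⟨b, hb, ?_⟩
    have hb0 := coe_ne_zero_of_notMem A m hb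
    have e1 : (a : K) / b * (δ : K) = minor D₁ D₂ (x i) (y i) := by
      rw [← hcoe ⟨x i, le_locAt A m (hx i)⟩ ⟨y i, le_locAt A m (hy i)⟩, ← hr]
      rfl
    rw [← e1]
    have : (b : K) * ((a : K) / b * (δ : K) * (δ : K)⁻¹) = a := by
      field_simp
    rw [this]
    exact a.2
  choose w hw hw' using hq
  have := Fintype.ofFinite ι
  let W : A := ∏ i, w i
  have hW : W ∉ m := by
    intro h
    obtain ⟨i, -, hi⟩ := (Ideal.IsPrime.prod_mem_iff (hp := ‹m.IsPrime›)).mp h
    exact hw i hi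
  have hk : (W : K) * (δ : K)⁻¹ ∈ A := by
    refine hgr _ fun i => ?_
    have hWi : W = (∏ j ∈ Finset.univ.erase i, w j) * w i := by
      rw [Finset.prod_erase_mul _ _ (Finset.mem_univ i)]
    rw [hWi]
    have : minor D₁ D₂ (x i) (y i) * ((((∏ j ∈ Finset.univ.erase i, w j) * w i : A) : K) * (δ : K)⁻¹)
        = ((∏ j ∈ Finset.univ.erase i, w j : A) : K)
          * ((w i : K) * (minor D₁ D₂ (x i) (y i) * (δ : K)⁻¹)) := by
      push_cast
      ring
    rw [this]
    exact A.mul_mem (∏ j ∈ Finset.univ.erase i, w j : A).2 (hw' i)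
  -- contradiction : `W` is a unit of `R` but a multiple of δ
  have hWR : (⟨W, le_locAt A m W.2⟩ : R) ∈ IsLocalRing.maximalIdeal R := by
    have : (⟨W, le_locAt A m W.2⟩ : R) = ⟨(W : K) * (δ : K)⁻¹, le_locAt A m hk⟩ * δ := by
      apply Subtype.ext
      simp only [MulMemClass.coe_mul]
      field_simp
    rw [this]
    exact Ideal.mul_mem_left _ _ hδm
  obtain ⟨a, b, ha, hb, hab⟩ := (mem_maximalIdeal_locAt_iff A m _).mp hWR
  have hb0 := coe_ne_zero_of_notMem A m hb
  have : (W : K) * b = a := by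
    have h : (W : K) = a / b := hab
    rw [h]; field_simp
  have h3 : W * b = a := Subtype.ext (by push_cast; exact this)
  have h4 : W * b ∈ m := h3 ▸ ha
  rcases (Ideal.IsPrime.mem_or_mem ‹_› h4) with h | h
  · exact hW h
  · exact hb h

end Crest.Agent.R278
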