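import Crest.Agent.R278.Plane2Inst

set_option autoImplicit false

/-!
Row 278 (S0421): the sections and the multipliers are regular on all charts.
-/

namespace Crest.Agent.R278

open MvPolynomial

namespace Plane2

variable (P : Plane2)

section Poly

/-- `x - a_i` -/
noncomputable def pX (i : Fin P.r) : P2 := MvPolynomial.X 0 - C (P.a i)

/-- `y - c` -/
noncomputable def pY (c : ℂ) : P2 := MvPolynomial.X 1 - C c

noncomputable def pPμ : P2 := ∏ i, P.pX i ^ P.μ i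

noncomputable def pN (i : Fin P.r) (b : ℂ) : P2 :=
  P.pX i ^ P.M i b * (∏ b' ∈ (P.S i).erase b, pY b' ^ (P.M i b' - P.M i b)) *
    ∏ k ∈ Finset.univ.erase i, P.pX k ^ P.μ k

theorem deg_pX (i : Fin P.r) : (P.pX i).totalDegree ≤ 1 := by
  unfold pX
  refine (totalDegree_sub _ _).trans (max_le ?_ ?_)
  · exact (totalDegree_X _).le
  · rw [totalDegree_C]; exact zero_le

theorem deg_pY (c : ℂ) : (pY c).totalDegree ≤ 1 := by
  unfold pY
  refine (totalDegree_sub _ _).trans (max_le ?_ ?_)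
  · exact (totalDegree_X _).le
  · rw [totalDegree_C]; exact zero_le

theorem deg_pow {f : P2} (hf : f.totalDegree ≤ 1) (m : ℕ) : (f ^ m).totalDegree ≤ m := by
  refine (totalDegree_pow _ _).trans ?_
  calc m * f.totalDegree ≤ m * 1 := Nat.mul_le_mul_left _ hf
    _ = m := mul_one m

theorem deg_prod {ι : Type*} (s : Finset ι) (f : ι → P2) (m : ι → ℕ)
    (hf : ∀ i ∈ s, (f i).totalDegree ≤ m i) : (∏ i ∈ s, f i).totalDegree ≤ ∑ i ∈ s, m i :=
  (totalDegree_finsetProd _ _).trans (Finset.sum_le_sum hf)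

theorem deg_prodX (s : Finset (Fin P.r)) :
    (∏ k ∈ s, P.pX k ^ P.μ k).totalDegree ≤ ∑ k ∈ s, P.μ k :=
  deg_prod _ _ _ fun k _ => deg_pow (P.deg_pX k) _

theorem deg_pPμ : P.pPμ.totalDegree ≤ ∑ i, P.μ i := P.deg_prodX _

theorem deg_pN (i : Fin P.r) (b : ℂ) : (P.pN i b).totalDegree ≤
    P.M i b + ∑ b' ∈ (P.S i).erase b, (P.M i b' - P.M i b) + ∑ k ∈ Finset.univ.erase i, P.μ k := by
  unfold pN
  refine (totalDegree_mul _ _).trans (Nat.add_le_add ((totalDegree_mul _ _).trans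
    (Nat.add_le_add (deg_pow (P.deg_pX i) _) ?_)) (P.deg_prodX _))
  exact deg_prod _ _ _ fun b' _ => deg_pow (deg_pY b') _

theorem pX_mem (i : Fin P.r) (c : ℂ) : P.pX i ∈ mI (P.a i) c := Ideal.subset_span (Or.inl rfl)

theorem pY_mem (a c : ℂ) : pY c ∈ mI a c := Ideal.subset_span (Or.inr rfl)

theorem prodX_mem {s : Finset (Fin P.r)} {i : Fin P.r} (hi : i ∈ s) (c : ℂ) :
    (∏ k ∈ s, P.pX k ^ P.μ k) ∈ mI (P.a i) c ^ P.μ i := by
  rw [← Finset.mul_prod_erase _ _ hi]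
  exact Ideal.mul_mem_right _ _ (Ideal.pow_mem_pow (P.pX_mem i c) _)

theorem pPμ_mem (i : Fin P.r) {c : ℂ} (hc : c ∈ P.S i) : P.pPμ ∈ mI (P.a i) c ^ P.M i c :=
  Ideal.pow_le_pow_right (P.hμ i c hc) (P.prodX_mem (Finset.mem_univ i) c)

theorem pN_mem (i : Fin P.r) {b : ℂ} (_hb : b ∈ P.S i) (j : Fin P.r) {c : ℂ} (hc : c ∈ P.S j) :
    P.pN i b ∈ mI (P.a j) c ^ P.M j c := by
  unfold pN
  by_cases hij : j = i
  · subst hij
    by_cases hbc : c = b
    · subst hbc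
      rw [mul_assoc]
      exact Ideal.mul_mem_right _ _ (Ideal.pow_mem_pow (P.pX_mem j c) _)
    · refine Ideal.mul_mem_right _ _ ?_
      rw [← Finset.mul_prod_erase _ _ (Finset.mem_erase.2 ⟨hbc, hc⟩), ← mul_assoc]
      refine Ideal.mul_mem_right _ _ ?_
      have h1 : P.pX j ^ P.M j b * pY c ^ (P.M j c - P.M j b) ∈
          mI (P.a j) c ^ (P.M j b) * mI (P.a j) c ^ (P.M j c - P.M j b) :=
        Ideal.mul_mem_mul (Ideal.pow_mem_pow (P.pX_mem j c) _)
          (Ideal.pow_mem_pow (pY_mem _ c) _)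
      rw [← pow_add] at h1
      exact Ideal.pow_le_pow_right (by omega) h1
  · refine Ideal.mul_mem_left _ _ ?_
    exact Ideal.pow_le_pow_right (P.hμ j c hc)
      (P.prodX_mem (Finset.mem_erase.2 ⟨hij, Finset.mem_univ j⟩) c)

theorem pow_mem_kk {I : Ideal P2} {f : P2} {m : ℕ} (hf : f ∈ I ^ m) (k : ℕ) :
    f ^ k ∈ I ^ (k * m) := by
  rw [mul_comm, pow_mul]
  exact Ideal.pow_mem_pow hf k

/-- the numerators of the sections -/
noncomputable def pnum : P.J → P2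
  | Sum.inl 0 => P.pPμ
  | Sum.inl 1 => P.pPμ * MvPolynomial.X 0 ^ P.n
  | Sum.inl 2 => P.pPμ * MvPolynomial.X 0
  | Sum.inl 3 => P.pPμ * MvPolynomial.X 1
  | Sum.inr p => P.pN p.1 p.2

theorem deg_pnum (j : P.J) : (P.pnum j).totalDegree ≤ 1 * P.D := by
  rw [one_mul]
  have h1 := P.deg_pPμ
  have h2 := P.hμD
  match j with
  | Sum.inl 0 => exact h1.trans h2.le
  | Sum.inl 1 =>
    refine (totalDegree_mul _ _).trans ?_
    have h3 : (MvPolynomial.X 0 ^ P.n : P2).totalDegree ≤ P.n := deg_pow (totalDegree_X _).le _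
    have h4 : P.n = P.D - ∑ i, P.μ i := rfl
    omega
  | Sum.inl 2 =>
    refine (totalDegree_mul _ _).trans ?_
    have h3 : (MvPolynomial.X 0 : P2).totalDegree = 1 := totalDegree_X _
    omega
  | Sum.inl 3 =>
    refine (totalDegree_mul _ _).trans ?_
    have h3 : (MvPolynomial.X 1 : P2).totalDegree = 1 := totalDegree_X _
    omega
  | Sum.inr ⟨i, b, hb⟩ => exact (P.deg_pN i b).trans (P.hN i b hb).le

theorem pnum_mem (j : P.J) (i : Fin P.r) (c : ℂ) (hc : c ∈ P.S i) :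
    P.pnum j ∈ mI (P.a i) c ^ (1 * P.M i c) := by
  rw [one_mul]
  match j with
  | Sum.inl 0 => exact P.pPμ_mem i hc
  | Sum.inl 1 => exact Ideal.mul_mem_right _ _ (P.pPμ_mem i hc)
  | Sum.inl 2 => exact Ideal.mul_mem_right _ _ (P.pPμ_mem i hc)
  | Sum.inl 3 => exact Ideal.mul_mem_right _ _ (P.pPμ_mem i hc)
  | Sum.inr ⟨k, b, hb⟩ => exact P.pN_mem k hb i hc

/-- the numerators of the multipliers -/
noncomputable def pmlt : P.L → P2
  | Sum.inl 0 => P.pPμ ^ P.kk * ∏ i, P.pX i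
  | Sum.inl 1 => P.pPμ ^ P.kk * (∏ i, P.pX i) * MvPolynomial.X 0 ^ (P.kk * P.n - P.r)
  | Sum.inr p => P.pN p.1 p.2 ^ P.kk * (∏ b' ∈ (P.S p.1).erase p.2, pY b') *
      ∏ k ∈ Finset.univ.erase p.1, P.pX k

theorem deg_prodX1 (s : Finset (Fin P.r)) : (∏ k ∈ s, P.pX k).totalDegree ≤ s.card := by
  refine (deg_prod s _ (fun _ => 1) fun k _ => P.deg_pX k).trans ?_
  simp

theorem deg_pPμ_kk : (P.pPμ ^ P.kk).totalDegree ≤ P.kk * ∑ i, P.μ i :=
  (totalDegree_pow _ _).trans (Nat.mul_le_mul_left _ P.deg_pPμ)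

theorem deg_pmlt (l : P.L) : (P.pmlt l).totalDegree ≤ P.kk * P.D := by
  have h1 := P.deg_pPμ_kk
  have h2 := P.hμD
  have h3 := P.deg_prodX1 Finset.univ
  rw [Finset.card_univ, Fintype.card_fin] at h3
  have hr : P.r < P.kk := by rw [kk]; omega
  have h4 : P.kk * ∑ i, P.μ i + P.kk ≤ P.kk * P.D := by nlinarith
  match l with
  | Sum.inl 0 =>
    refine (totalDegree_mul _ _).trans ?_
    omega
  | Sum.inl 1 =>
    refine (totalDegree_mul _ _).trans ((Nat.add_le_add_right (totalDegree_mul _ _) _).trans ?_)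
    have h5 : (MvPolynomial.X 0 ^ (P.kk * P.n - P.r) : P2).totalDegree ≤ P.kk * P.n - P.r :=
      deg_pow (totalDegree_X _).le _
    have h6 := P.r_lt
    have h7 : P.kk * P.D = P.kk * (∑ i, P.μ i) + P.kk * P.n := by
      rw [← mul_add, n]; congr 1; omega
    omega
  | Sum.inr ⟨i, b, hb⟩ =>
    refine (totalDegree_mul _ _).trans ((Nat.add_le_add_right (totalDegree_mul _ _) _).trans ?_)
    have h5 : (P.pN i b ^ P.kk).totalDegree ≤ P.kk * (P.M i b +
        ∑ b' ∈ (P.S i).erase b, (P.M i b' - P.M i b) + ∑ k ∈ Finset.univ.erase i, P.μ k) :=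
      (totalDegree_pow _ _).trans (Nat.mul_le_mul_left _ (P.deg_pN i b))
    have h6 : (∏ b' ∈ (P.S i).erase b, pY b').totalDegree ≤ ((P.S i).erase b).card := by
      refine (deg_prod _ _ (fun _ => 1) fun b' _ => deg_pY b').trans ?_
      simp
    have h7 := P.deg_prodX1 (Finset.univ.erase i)
    have h8 := P.mlt_deg i hb
    rw [mul_comm _ P.kk, mul_comm _ P.kk] at h8
    change (P.pN i b ^ P.kk).totalDegree + (∏ b' ∈ (P.S i).erase b, pY b').totalDegree +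
      (∏ k ∈ Finset.univ.erase i, P.pX k).totalDegree ≤ _
    omega

theorem pmlt_mem (l : P.L) (i : Fin P.r) (c : ℂ) (hc : c ∈ P.S i) :
    P.pmlt l ∈ mI (P.a i) c ^ (P.kk * P.M i c) := by
  match l with
  | Sum.inl 0 => exact Ideal.mul_mem_right _ _ (pow_mem_kk (P.pPμ_mem i hc) _)
  | Sum.inl 1 =>
    exact Ideal.mul_mem_right _ _ (Ideal.mul_mem_right _ _ (pow_mem_kk (P.pPμ_mem i hc) _))
  | Sum.inr ⟨k, b, hb⟩ =>
    exact Ideal.mul_mem_right _ _ (Ideal.mul_mem_right _ _ (pow_mem_kk (P.pN_mem k hb i hc) _))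

end Poly

section F

variable {F : Type} [Field F] [Algebra ℂ F] {x y : F}

theorem ev_pX (i : Fin P.r) : aeval ![x, y] (P.pX i) = P.X x i := by
  simp [pX, X]

theorem ev_pY (c : ℂ) : aeval ![x, y] (pY c) = y - algebraMap ℂ F c := by
  simp [pY]

theorem ev_pPμ : aeval ![x, y] P.pPμ = P.Pμ x := by
  unfold pPμ Pμ
  rw [map_prod]
  exact Finset.prod_congr rfl fun i _ => by rw [map_pow, ev_pX]

theorem ev_pN (i : Fin P.r) (b : ℂ) : aeval ![x, y] (P.pN i b) = P.Nn x y i b := by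
  unfold pN Nn
  rw [map_mul, map_mul, map_pow, ev_pX, map_prod, map_prod]
  congr 1
  · congr 1
    exact Finset.prod_congr rfl fun i _ => by rw [map_pow, ev_pY]
  · exact Finset.prod_congr rfl fun i _ => by rw [map_pow, ev_pX]

theorem ev_pnum (j : P.J) : aeval ![x, y] (P.pnum j) = P.num x y j := by
  match j with
  | Sum.inl 0 => exact P.ev_pPμ
  | Sum.inl 1 =>
    change aeval ![x, y] (P.pPμ * MvPolynomial.X 0 ^ P.n) = P.Pμ x * x ^ P.n
    rw [map_mul, map_pow, ev_pPμ, aeval_X]; rfl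
  | Sum.inl 2 =>
    change aeval ![x, y] (P.pPμ * MvPolynomial.X 0) = P.Pμ x * x
    rw [map_mul, ev_pPμ, aeval_X]; rfl
  | Sum.inl 3 =>
    change aeval ![x, y] (P.pPμ * MvPolynomial.X 1) = P.Pμ x * y
    rw [map_mul, ev_pPμ, aeval_X]; rfl
  | Sum.inr p => exact P.ev_pN _ _

theorem ev_pmlt (h : RatCoord ℂ F x y) (l : P.L) :
    aeval ![x, y] (P.pmlt l) / P.th x y ^ P.kk = P.mlt x y l := by
  have hx := h.left_ne_zero
  match l with
  | Sum.inl 0 =>
    change aeval ![x, y] (P.pPμ ^ P.kk * ∏ i, P.pX i) / P.th x y ^ P.kk =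
      (P.Pμ x / P.th x y) ^ P.kk * ∏ i, P.X x i
    rw [map_mul, map_pow, ev_pPμ, map_prod, Finset.prod_congr rfl fun i _ => P.ev_pX i, div_pow]
    ring
  | Sum.inl 1 =>
    change aeval ![x, y] (P.pPμ ^ P.kk * (∏ i, P.pX i) *
        MvPolynomial.X 0 ^ (P.kk * P.n - P.r)) / P.th x y ^ P.kk =
      (P.Pμ x * x ^ P.n / P.th x y) ^ P.kk * ((∏ i, P.X x i) / x ^ P.r)
    have e2 : P.kk * P.n = (P.kk * P.n - P.r) + P.r := by
      have := P.r_lt; omega
    have e3 : (x ^ P.n) ^ P.kk = x ^ (P.kk * P.n - P.r) * x ^ P.r := by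
      rw [← pow_mul, ← pow_add, ← e2, mul_comm]
    rw [map_mul, map_mul, map_pow, map_pow, ev_pPμ, map_prod,
      Finset.prod_congr rfl fun i _ => P.ev_pX i, div_pow, mul_pow, e3, aeval_X]
    change P.Pμ x ^ P.kk * (∏ i, P.X x i) * x ^ (P.kk * P.n - P.r) / P.th x y ^ P.kk = _
    field_simp
  | Sum.inr ⟨i, b, hb⟩ =>
    change aeval ![x, y] (P.pN i b ^ P.kk * (∏ b' ∈ (P.S i).erase b, pY b') *
      ∏ k ∈ Finset.univ.erase i, P.pX k) / P.th x y ^ P.kk =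
      (P.Nn x y i b / P.th x y) ^ P.kk *
      (∏ b' ∈ (P.S i).erase b, (y - algebraMap ℂ F b')) *
      ∏ k ∈ Finset.univ.erase i, P.X x k
    rw [map_mul, map_mul, map_pow, ev_pN, map_prod, map_prod,
      Finset.prod_congr rfl fun i _ => P.ev_pX i, Finset.prod_congr rfl fun c _ => ev_pY c,
      div_pow]
    ring

/-- regularity -/
theorem reg (h : RatCoord ℂ F x y) {Q : P2} {k : ℕ} (hd : Q.totalDegree ≤ k * P.D)
    (hm : ∀ i, ∀ c ∈ P.S i, Q ∈ mI (P.a i) c ^ (k * P.M i c)) (l : P.L) :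
    aeval ![x, y] Q / P.th x y ^ k ∈ chartRing ℂ (P.cp x l) (P.cq x y l) (P.ch x y l) := by
  match l with
  | Sum.inl 0 => exact reg_aff h P.good.ne_zero Q k
  | Sum.inl 1 => exact reg_inf h P.good.ne_zero hd
  | Sum.inr ⟨i, b, hb⟩ => exact reg_pt i h P.good.ne_zero (hm i b hb)

/-- **hf** -/
theorem sec_mem (h : RatCoord ℂ F x y) (j : P.J) (l : P.L) :
    P.sec x y j ∈ chartRing ℂ (P.cp x l) (P.cq x y l) (P.ch x y l) := by
  have h1 := P.reg h (P.deg_pnum j) (P.pnum_mem j) l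
  rwa [ev_pnum, pow_one] at h1

/-- **hb** -/
theorem mlt_mem (h : RatCoord ℂ F x y) (l l' : P.L) :
    P.mlt x y l ∈ chartRing ℂ (P.cp x l') (P.cq x y l') (P.ch x y l') := by
  have h1 := P.reg h (P.deg_pmlt l) (P.pmlt_mem l) l'
  rwa [P.ev_pmlt h] at h1

end F

end Plane2

end Crest.Agent.R278
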