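import Crest.Agent.R278.PointChart
import Crest.Agent.R278.Plane2
import Crest.Agent.R278.LocalPts

/-!
Row 278 (S0421): from membership in powers of the ideals of the points to `PointFacts`.
-/

set_option autoImplicit false

namespace Crest.Agent.R278

open MvPolynomial

theorem subst_eq_sb (a b : ℂ) : subst a b = LocalPts.sb a b := rfl

theorem mI_eq_pI (a b : ℂ) : mI a b = LocalPts.pI a b := rfl

/-- exact order from the coefficient of `Y ^ m` -/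
theorem not_dvd_of_coeff_tl {a b : ℂ} {m : ℕ} {f g : MvPolynomial (Fin 2) ℂ}
    (hg : subst a b f = X 0 ^ m * g) (hc : coeff (Finsupp.single 1 m) (tl a b f) ≠ 0) :
    ¬ X 0 ∣ g := by
  rintro ⟨g', rfl⟩
  have h1 : coeff (LocalPts.ex m m) (subst a b f) = 0 := by
    rw [hg, ← mul_assoc, ← pow_succ, MvPolynomial.X_pow_eq_monomial,
      MvPolynomial.coeff_monomial_mul', if_neg]
    intro h
    have := h 0
    simp [LocalPts.ex] at this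
  have h2 : coeff (LocalPts.ex m m) (subst a b f) = coeff (LocalPts.ex 0 m) (tl a b f) := by
    rw [subst_eq_sb, LocalPts.sb_eq_tr, LocalPts.coeff_blow]
    rfl
  have h3 : LocalPts.ex 0 m = Finsupp.single 1 m := by simp [LocalPts.ex]
  rw [h1, h3] at h2
  exact hc h2.symm

/-- pullback of a curve with the exact multiplicity -/
theorem Good.exists_subst {r : ℕ} {a : Fin r → ℂ} {S : Fin r → Finset ℂ}
    {f : MvPolynomial (Fin 2) ℂ} {d : ℕ} {m : Fin r → ℂ → ℕ} (hf : Good a S f d m) (i : Fin r)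
    {b : ℂ} (hb : b ∈ S i) :
    ∃ g, subst (a i) b f = X 0 ^ m i b * g ∧ ¬ X 0 ∣ g := by
  obtain ⟨g, hg⟩ := LocalPts.sb_of_mem (hf.mult i b hb)
  exact ⟨g, hg, not_dvd_of_coeff_tl hg (hf.coeff_tl_ne i hb)⟩

/-- the numerical conditions at a point -/
structure NumOK (N mz m₁ m₂ me l₁ l₂ g₁ g₂ d : ℕ) : Prop where
  hd0 : 0 < d
  hdN : d ∣ N
  hd₁ : (d : ℤ) ∣ 1 - m₁
  hd₂ : (d : ℤ) ∣ 1 - m₂
  hπ : ∃ (e : ℤ) (c₁ c₂ : Fin N),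
    N * e + (((c₁ : ℕ) : ℤ) * (1 - m₁) + ((c₂ : ℕ) : ℤ) * (1 - m₂)) = d
  hi₁ : (0 : ℤ) ≤ N * (((l₁ + g₁ : ℕ) : ℤ) - me - 1) + (1 - m₁) + d
  hj₁ : (0 : ℤ) ≤ N * ((l₁ : ℤ) - me) + (1 - m₁)
  hi₂ : (0 : ℤ) ≤ N * (((l₂ + g₂ : ℕ) : ℤ) - me - 1) + (1 - m₂) + d
  hj₂ : (0 : ℤ) ≤ N * ((l₂ : ℤ) - me) + (1 - m₂)
  hk : N * ((mz : ℤ) - 2 * me) + ((1 - m₁) + (1 - m₂)) = (N : ℤ) - d

/-- **Facts at a point from ideal membership**, with the multiplicities. -/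
theorem exists_pointFacts {N : ℕ} {S : VFData} {i : Fin S.r} {b : ℂ} (hb : b ∈ S.pts i)
    {dz d₁ d₂ de : ℕ} {Mz M₁ M₂ Me : Fin S.r → ℂ → ℕ}
    (hz : Good S.a S.pts S.z dz Mz) (hw₁ : Good S.a S.pts S.w₁ d₁ M₁)
    (hw₂ : Good S.a S.pts S.w₂ d₂ M₂) (he : Good S.a S.pts S.ell de Me)
    {mz m₁ m₂ me : ℕ} (ez : Mz i b = mz) (e₁ : M₁ i b = m₁) (e₂ : M₂ i b = m₂)
    (ee : Me i b = me)
    {at₁ at₂ : MvPolynomial (Fin 2) ℂ}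
    (hα₁ : S.α₁ = (X 0 - C (S.a i)) * at₁) (hα₂ : S.α₂ = (X 0 - C (S.a i)) * at₂)
    {l₁ l₂ g₁ g₂ : ℕ} (hl₁ : 1 ≤ l₁) (hl₂ : 1 ≤ l₂)
    (h₁ : at₁ ∈ mI (S.a i) b ^ (l₁ - 1 + g₁)) (h₂ : at₂ ∈ mI (S.a i) b ^ (l₂ - 1 + g₂))
    (hT₁ : S.β₁ - (X 1 - C b) * at₁ ∈ mI (S.a i) b ^ (l₁ + 1))
    (hT₂ : S.β₂ - (X 1 - C b) * at₂ ∈ mI (S.a i) b ^ (l₂ + 1))
    {d : ℕ} (hn : NumOK N mz m₁ m₂ me l₁ l₂ g₁ g₂ d) :
    ∃ T : PointFacts N S i b, T.mz = Mz i b ∧ T.m₁ = M₁ i b ∧ T.m₂ = M₂ i b ∧ T.me = Me i b := by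
  subst ez e₁ e₂ ee
  obtain ⟨zt, hz1, hz2⟩ := hz.exists_subst i hb
  obtain ⟨w₁t, hw11, hw12⟩ := hw₁.exists_subst i hb
  obtain ⟨w₂t, hw21, hw22⟩ := hw₂.exists_subst i hb
  obtain ⟨et, he1, he2⟩ := he.exists_subst i hb
  obtain ⟨α₁t, ha1⟩ := LocalPts.sb_al hα₁ h₁
  obtain ⟨α₂t, ha2⟩ := LocalPts.sb_al hα₂ h₂
  obtain ⟨γ₁t, hc1⟩ := LocalPts.sb_be hα₁ hT₁
  obtain ⟨γ₂t, hc2⟩ := LocalPts.sb_be hα₂ hT₂
  have e1 : l₁ - 1 + g₁ + 1 = l₁ + g₁ := by omega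
  have e2 : l₂ - 1 + g₂ + 1 = l₂ + g₂ := by omega
  rw [e1] at ha1
  rw [e2] at ha2
  exact ⟨{ mz := Mz i b, m₁ := M₁ i b, m₂ := M₂ i b, me := Me i b, l₁ := l₁, l₂ := l₂, g₁ := g₁,
           g₂ := g₂, zt := zt, w₁t := w₁t, w₂t := w₂t, et := et, α₁t := α₁t, γ₁t := γ₁t,
           α₂t := α₂t, γ₂t := γ₂t, hz := hz1, hz' := hz2, hw₁ := hw11, hw₁' := hw12, hw₂ := hw21,
           hw₂' := hw22, he := he1, he' := he2, hα₁ := ha1, hγ₁ := hc1, hα₂ := ha2, hγ₂ := hc2,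
           d := d, hd0 := hn.hd0, hdN := hn.hdN, hd₁ := hn.hd₁, hd₂ := hn.hd₂, hπ := hn.hπ,
           hi₁ := hn.hi₁, hj₁ := hn.hj₁, hi₂ := hn.hi₂, hj₂ := hn.hj₂, hk := hn.hk },
    rfl, rfl, rfl, rfl⟩

/-- **Facts at a point from ideal membership.** -/
theorem nonempty_pointFacts {N : ℕ} {S : VFData} {i : Fin S.r} {b : ℂ} (hb : b ∈ S.pts i)
    {dz d₁ d₂ de : ℕ} {Mz M₁ M₂ Me : Fin S.r → ℂ → ℕ}
    (hz : Good S.a S.pts S.z dz Mz) (hw₁ : Good S.a S.pts S.w₁ d₁ M₁)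
    (hw₂ : Good S.a S.pts S.w₂ d₂ M₂) (he : Good S.a S.pts S.ell de Me)
    {mz m₁ m₂ me : ℕ} (ez : Mz i b = mz) (e₁ : M₁ i b = m₁) (e₂ : M₂ i b = m₂)
    (ee : Me i b = me)
    {at₁ at₂ : MvPolynomial (Fin 2) ℂ}
    (hα₁ : S.α₁ = (X 0 - C (S.a i)) * at₁) (hα₂ : S.α₂ = (X 0 - C (S.a i)) * at₂)
    {l₁ l₂ g₁ g₂ : ℕ} (hl₁ : 1 ≤ l₁) (hl₂ : 1 ≤ l₂)
    (h₁ : at₁ ∈ mI (S.a i) b ^ (l₁ - 1 + g₁)) (h₂ : at₂ ∈ mI (S.a i) b ^ (l₂ - 1 + g₂))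
    (hT₁ : S.β₁ - (X 1 - C b) * at₁ ∈ mI (S.a i) b ^ (l₁ + 1))
    (hT₂ : S.β₂ - (X 1 - C b) * at₂ ∈ mI (S.a i) b ^ (l₂ + 1))
    {d : ℕ} (hn : NumOK N mz m₁ m₂ me l₁ l₂ g₁ g₂ d) : Nonempty (PointFacts N S i b) :=
  (exists_pointFacts hb hz hw₁ hw₂ he ez e₁ e₂ ee hα₁ hα₂ hl₁ hl₂ h₁ h₂ hT₁ hT₂ hn).nonempty

/-! ### the numerical conditions for the groups of the data -/

section Num

theorem num_r : NumOK 4 3 5 1 1 2 1 0 0 4 := by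
  refine ⟨by norm_num, by norm_num, by norm_num, by norm_num, ⟨1, 0, 0, by norm_num⟩, ?_, ?_, ?_,
    ?_, ?_⟩ <;> norm_num

theorem num_TT : NumOK 4 3 1 5 1 1 2 0 0 4 := by
  refine ⟨by norm_num, by norm_num, by norm_num, by norm_num, ⟨1, 0, 0, by norm_num⟩, ?_, ?_, ?_,
    ?_, ?_⟩ <;> norm_num

theorem num_E : NumOK 4 4 1 1 2 2 2 0 0 4 := by
  refine ⟨by norm_num, by norm_num, by norm_num, by norm_num, ⟨1, 0, 0, by norm_num⟩, ?_, ?_, ?_,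
    ?_, ?_⟩ <;> norm_num

theorem num_t : NumOK 4 2 1 1 1 1 1 0 0 4 := by
  refine ⟨by norm_num, by norm_num, by norm_num, by norm_num, ⟨1, 0, 0, by norm_num⟩, ?_, ?_, ?_,
    ?_, ?_⟩ <;> norm_num

/-- `q` on arm 0 -/
theorem num_q0 : NumOK 4 3 3 1 1 2 1 0 1 2 := by
  refine ⟨by norm_num, by norm_num, by norm_num, by norm_num, ⟨1, 1, 0, by norm_num⟩, ?_, ?_, ?_,
    ?_, ?_⟩ <;> norm_num

/-- `q` on arm 2 -/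
theorem num_q2 : NumOK 4 3 1 3 1 1 2 1 0 2 := by
  refine ⟨by norm_num, by norm_num, by norm_num, by norm_num, ⟨1, 0, 1, by norm_num⟩, ?_, ?_, ?_,
    ?_, ?_⟩ <;> norm_num

/-- `T` on arms 1 and 3 -/
theorem num_T : NumOK 4 4 5 5 1 2 2 0 0 4 := by
  refine ⟨by norm_num, by norm_num, by norm_num, by norm_num, ⟨1, 0, 0, by norm_num⟩, ?_, ?_, ?_,
    ?_, ?_⟩ <;> norm_num

/-- `H` on arms 1 and 3 -/
theorem num_H : NumOK 4 2 1 1 1 1 1 0 0 4 := num_t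

/-- `q` on arm 1 -/
theorem num_q1 : NumOK 4 3 2 1 1 2 1 0 1 1 := by
  refine ⟨by norm_num, by norm_num, by norm_num, by norm_num, ⟨1, 3, 0, by norm_num⟩, ?_, ?_, ?_,
    ?_, ?_⟩ <;> norm_num

/-- `q` on arm 3 -/
theorem num_q3 : NumOK 4 3 1 2 1 1 2 1 0 1 := by
  refine ⟨by norm_num, by norm_num, by norm_num, by norm_num, ⟨1, 0, 3, by norm_num⟩, ?_, ?_, ?_,
    ?_, ?_⟩ <;> norm_num

/-- `f` on arm 1 -/
theorem num_f1 : NumOK 4 3 1 3 1 1 2 1 0 2 := num_q2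

/-- `f` on arm 3 -/
theorem num_f3 : NumOK 4 3 3 1 1 2 1 0 1 2 := num_q0

end Num

end Crest.Agent.R278
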