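import Crest.Agent.R278.EIdeal
import Crest.Agent.R278.RadSys

/-!
Row 278: the ideal part for a radical system: `D` maps `A = clos s t` to a proper ideal of `A`.
-/

set_option autoImplicit false

namespace Crest.Agent.R278

/-- `D v` lies in the maximal ideal of `V` for `v` integral over `ℂ[G]`, `G ⊆ F`. -/
theorem RadSys.val_der_lt {F K : Type} [Field F] [Field K] [Algebra ℂ F] [Algebra F K]
    [Algebra ℂ K] [IsScalarTower ℂ F K] {N : ℕ} (hN : 0 < N) {X : Type*} [Fintype X]
    {gam : X → K} {W : X → F} (hR : RadSys F K N gam W) {x y : F} (hc : RatCoord ℂ F x y)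
    {V : ValuationSubring K} (hV : IsVE V (algebraMap F K x) (algebraMap F K y))
    (G : Set F) (hG : ∀ z ∈ G, algebraMap F K z ∈ V)
    (D : Derivation ℂ K K) (hx : V.valuation (D (algebraMap F K x)) < 1)
    (hy : V.valuation (D (algebraMap F K y)) < V.valuation (algebraMap F K y))
    {v : K} (hv : v ∈ intClos (algebraMap F K '' G)) : V.valuation (D v) < 1 := by
  have hVC : ∀ c : ℂ, algebraMap ℂ K c ∈ V := fun c =>
    (V.valuation_le_one_iff _).1 (hV.complex_le c)
  have hAV : ∀ r ∈ intClos (algebraMap F K '' G), r ∈ V := by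
    intro r hr
    refine intClos_le_valuationSubring V hVC ?_ r hr
    rintro _ ⟨z, hz, rfl⟩
    exact hG z hz
  obtain ⟨c, hc1, hc2⟩ := hR.decomp G v hv
  rw [hc1, map_sum]
  refine V.valuation.map_sum_lt one_ne_zero fun i _ => ?_
  by_cases hci : c i = 0
  · rw [hci, map_zero, zero_mul, map_zero, map_zero]; exact zero_lt_one
  · have h1 : LD V D (algebraMap F K (c i) * gam i) :=
      (hV.LD_algebraMap hc D hx hy hci).mul (hV.LD_root hc D hx hy hN (hR.W_ne i) (hR.pow i))
    exact h1.2.trans_le ((V.valuation_le_one_iff _).2 (hAV _ (hc2 i)))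

/-- **Ideal part for a radical system.** -/
theorem exists_ideal_of_radSys {F K : Type} [Field F] [Field K] [Algebra ℂ F] [Algebra F K]
    [Algebra ℂ K] [IsScalarTower ℂ F K] {N : ℕ} (hN : 0 < N) {X : Type*} [Fintype X]
    {gam : X → K} {W : X → F} (hR : RadSys F K N gam W) {x y : F} (hc : RatCoord ℂ F x y)
    {V : ValuationSubring K} (hV : IsVE V (algebraMap F K x) (algebraMap F K y))
    {s t : F} (hs : algebraMap F K s ∈ V) (ht : algebraMap F K t ∈ V)
    (D : Derivation ℂ K K) (hx : V.valuation (D (algebraMap F K x)) < 1)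
    (hy : V.valuation (D (algebraMap F K y)) < V.valuation (algebraMap F K y)) :
    ∃ I : Ideal (clos (algebraMap F K s) (algebraMap F K t)), I ≠ ⊤ ∧
      ∀ a, a ∈ clos (algebraMap F K s) (algebraMap F K t) →
        ∀ h : D a ∈ clos (algebraMap F K s) (algebraMap F K t),
          (⟨D a, h⟩ : clos (algebraMap F K s) (algebraMap F K t)) ∈ I := by
  set A := clos (algebraMap F K s) (algebraMap F K t) with hA
  have hAG : A = intClos (algebraMap F K '' {s, t}) := by
    rw [hA, clos_eq_intClos, Set.image_pair]
  have hVC : ∀ c : ℂ, algebraMap ℂ K c ∈ V := fun c =>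
    (V.valuation_le_one_iff _).1 (hV.complex_le c)
  have hG : ∀ z ∈ ({s, t} : Set F), algebraMap F K z ∈ V := by
    rintro z (rfl | hz)
    · exact hs
    · rw [Set.mem_singleton_iff] at hz; subst hz; exact ht
  have hAV : ∀ r ∈ A, r ∈ V := by
    intro r hr
    rw [hAG] at hr
    refine intClos_le_valuationSubring V hVC ?_ r hr
    rintro _ ⟨z, hz, rfl⟩
    exact hG z hz
  let I : Ideal A :=
    { carrier := {a | V.valuation (a : K) < 1}
      add_mem' := by
        intro a b ha hb
        exact V.valuation.map_add_lt ha hb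
      zero_mem' := by
        change V.valuation ((0 : A) : K) < 1
        rw [ZeroMemClass.coe_zero, map_zero]; exact zero_lt_one
      smul_mem' := by
        intro r a ha
        change V.valuation ((r * a : A) : K) < 1
        rw [MulMemClass.coe_mul, map_mul]
        have hr : V.valuation (r : K) ≤ 1 := (V.valuation_le_one_iff _).2 (hAV _ r.2)
        calc V.valuation (r : K) * V.valuation (a : K) ≤ 1 * V.valuation (a : K) :=
              mul_le_mul_left hr _
          _ = V.valuation (a : K) := one_mul _
          _ < 1 := ha }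
  refine ⟨I, ?_, ?_⟩
  · intro h1
    have h2 : (1 : A) ∈ I := by rw [h1]; trivial
    have h3 : V.valuation ((1 : A) : K) < 1 := h2
    rw [OneMemClass.coe_one, map_one] at h3
    exact lt_irrefl _ h3
  · intro a ha h
    change V.valuation (D a) < 1
    exact hR.val_der_lt hN hc hV {s, t} hG D hx hy (hAG ▸ ha)

end Crest.Agent.R278
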