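import Crest.Agent.R278.RadSys

set_option autoImplicit false

/-! Row 278: existence of a field `K = F(g_1, …, g_n)`, `g_i ^ N = w_i`, with the decomposition of
integral elements along the monomials in the `g_i`; no irreducibility needed. -/

namespace Crest.Agent.R278

open Module

section

variable {F : Type} [Field F] [Algebra ℂ F] {n N : ℕ} [NeZero N] (w : Fin n → F)

/-- roots of the `w i` in an algebraic closure -/
noncomputable def radRoot (i : Fin n) : AlgebraicClosure F :=
  (IsAlgClosed.exists_pow_nat_eq (algebraMap F (AlgebraicClosure F) (w i))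
    (Nat.pos_of_ne_zero (NeZero.ne N))).choose

omit [Algebra ℂ F] in
theorem radRoot_pow (i : Fin n) :
    radRoot (N := N) w i ^ N = algebraMap F (AlgebraicClosure F) (w i) :=
  (IsAlgClosed.exists_pow_nat_eq (algebraMap F (AlgebraicClosure F) (w i))
    (Nat.pos_of_ne_zero (NeZero.ne N))).choose_spec

/-- the field `F(g_1, …, g_n)` -/
noncomputable abbrev radField (N : ℕ) [NeZero N] (w : Fin n → F) :
    IntermediateField F (AlgebraicClosure F) :=
  IntermediateField.adjoin F (Set.range (radRoot (N := N) w))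

/-- the generators -/
noncomputable def radGen (i : Fin n) : radField N w :=
  ⟨radRoot (N := N) w i, IntermediateField.subset_adjoin F _ ⟨i, rfl⟩⟩

omit [Algebra ℂ F] in
theorem radGen_pow (i : Fin n) : radGen (N := N) w i ^ N = algebraMap F (radField N w) (w i) := by
  apply Subtype.ext
  exact radRoot_pow w i

/-- `N`-th roots of unity of a field extension of `ℂ` come from `ℂ`. -/
theorem exists_rootOfUnity {L : Type} [Field L] [Algebra ℂ L] (ξ : L) (hξ : ξ ^ N = 1) :
    ∃ z : ℂ, z ^ N = 1 ∧ algebraMap ℂ L z = ξ := by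
  have hprim : IsPrimitiveRoot (Complex.exp (2 * Real.pi * Complex.I / N)) N :=
    Complex.isPrimitiveRoot_exp N (NeZero.ne N)
  have hprim' : IsPrimitiveRoot (algebraMap ℂ L (Complex.exp (2 * Real.pi * Complex.I / N))) N :=
    hprim.map_of_injective (algebraMap ℂ L).injective
  obtain ⟨i, -, hi⟩ := hprim'.eq_pow_of_pow_eq_one hξ
  refine ⟨Complex.exp (2 * Real.pi * Complex.I / N) ^ i, ?_, by rw [map_pow, hi]⟩
  rw [← pow_mul, mul_comm i N, pow_mul, hprim.pow_eq_one, one_pow]

instance radField_finite : FiniteDimensional F (radField N w) := by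
  have : Finite (Set.range (radRoot (N := N) w)) := Set.finite_range _
  exact IntermediateField.finiteDimensional_adjoin fun x _ =>
    (Algebra.IsAlgebraic.isAlgebraic (R := F) x).isIntegral

theorem charZero_of_algebra_complex (F : Type) [Field F] [Algebra ℂ F] : CharZero F :=
  charZero_of_injective_algebraMap (algebraMap ℂ F).injective

theorem radField_normal (hw : ∀ i, w i ≠ 0) : Normal F (radField N w) := by
  rw [IntermediateField.normal_iff_forall_map_le]
  intro σ
  rw [IntermediateField.map_le_iff_le_comap, IntermediateField.adjoin_le_iff]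
  rintro _ ⟨i, rfl⟩
  change σ (radRoot (N := N) w i) ∈ radField N w
  have h0 : radRoot (N := N) w i ≠ 0 := by
    intro h
    have := radRoot_pow (N := N) w i
    rw [h, zero_pow (NeZero.ne N)] at this
    exact hw i ((map_eq_zero _).mp this.symm)
  have h1 : (σ (radRoot (N := N) w i) / radRoot (N := N) w i) ^ N = 1 := by
    rw [div_pow, ← map_pow, radRoot_pow, AlgHom.commutes, div_self]
    rw [map_ne_zero]
    exact hw i
  obtain ⟨z, -, hz⟩ := exists_rootOfUnity (N := N) _ h1
  have h2 : σ (radRoot (N := N) w i)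
      = algebraMap F (AlgebraicClosure F) (algebraMap ℂ F z) * radRoot (N := N) w i := by
    rw [← IsScalarTower.algebraMap_apply ℂ F (AlgebraicClosure F), hz, div_mul_cancel₀ _ h0]
  rw [h2]
  exact (radField N w).mul_mem ((radField N w).algebraMap_mem _)
    (IntermediateField.subset_adjoin F _ ⟨i, rfl⟩)

theorem radField_isGalois (hw : ∀ i, w i ≠ 0) : IsGalois F (radField N w) := by
  have := charZero_of_algebra_complex F
  have := radField_normal (N := N) w hw
  exact ⟨⟩

/-- monomials in the generators -/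
noncomputable def radMon (c : Fin n → Fin N) : radField N w := ∏ i, radGen (N := N) w i ^ (c i : ℕ)

/-- the corresponding element of `F` -/
def radW (c : Fin n → Fin N) : F := ∏ i, w i ^ (c i : ℕ)

omit [Algebra ℂ F] in
theorem radMon_pow (c : Fin n → Fin N) :
    radMon w c ^ N = algebraMap F (radField N w) (radW w c) := by
  unfold radMon radW
  rw [← Finset.prod_pow, map_prod]
  refine Finset.prod_congr rfl fun i _ => ?_
  rw [← pow_mul, mul_comm, pow_mul, radGen_pow, map_pow]

omit [Algebra ℂ F] [NeZero N] in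
theorem radW_ne (hw : ∀ i, w i ≠ 0) (c : Fin n → Fin N) : radW w c ≠ 0 := by
  unfold radW
  exact Finset.prod_ne_zero_iff.mpr fun i _ => pow_ne_zero _ (hw i)

theorem radMon_ne (hw : ∀ i, w i ≠ 0) (c : Fin n → Fin N) : radMon w c ≠ 0 := by
  intro h
  have := radMon_pow w c
  rw [h, zero_pow (NeZero.ne N)] at this
  exact radW_ne w hw c ((map_eq_zero _).mp this.symm)

omit [Algebra ℂ F] in
theorem radGen_ne (hw : ∀ i, w i ≠ 0) (i : Fin n) : radGen (N := N) w i ≠ 0 := by
  intro h
  have := radGen_pow (N := N) w i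
  rw [h, zero_pow (NeZero.ne N)] at this
  exact hw i ((map_eq_zero _).mp this.symm)

/-- the ratio `σ(g_i)/g_i` is a root of unity -/
theorem exists_ratio (hw : ∀ i, w i ≠ 0) (σ : Gal((radField N w)/F)) (i : Fin n) :
    ∃ z : ℂ, z ^ N = 1 ∧
      σ (radGen (N := N) w i) = algebraMap ℂ (radField N w) z * radGen (N := N) w i := by
  have h0 := radGen_ne (N := N) w hw i
  have h1 : (σ (radGen (N := N) w i) / radGen (N := N) w i) ^ N = 1 := by
    rw [div_pow, ← map_pow, radGen_pow, AlgEquiv.commutes, div_self]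
    rw [map_ne_zero]
    exact hw i
  obtain ⟨z, hz1, hz⟩ := exists_rootOfUnity (N := N) _ h1
  exact ⟨z, hz1, by rw [hz, div_mul_cancel₀ _ h0]⟩

omit [Algebra ℂ F] in
/-- An automorphism fixing all the generators is the identity. -/
theorem eq_one_of_fix (σ : Gal((radField N w)/F))
    (h : ∀ i, σ (radGen (N := N) w i) = radGen (N := N) w i) : σ = 1 := by
  have key : ∀ (x : AlgebraicClosure F) (hx : x ∈ radField N w),
      σ ⟨x, hx⟩ = ⟨x, hx⟩ := by
    intro x hx
    have hgen : ∀ x (hx : x ∈ IntermediateField.adjoin F (Set.range (radRoot (N := N) w))),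
        σ ⟨x, hx⟩ = ⟨x, hx⟩ := by
      intro x hx
      induction hx using IntermediateField.adjoin_induction with
      | mem x hx =>
        obtain ⟨i, rfl⟩ := hx
        exact h i
      | algebraMap c => exact AlgEquiv.commutes σ c
      | add x y hx hy ihx ihy =>
        have : (⟨x + y, (radField N w).add_mem hx hy⟩ : radField N w) = ⟨x, hx⟩ + ⟨y, hy⟩ := rfl
        rw [this, map_add, ihx, ihy]
      | inv x hx ihx =>
        have : (⟨x⁻¹, (radField N w).inv_mem hx⟩ : radField N w) = (⟨x, hx⟩)⁻¹ := rfl
        rw [this, map_inv₀, ihx]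
      | mul x y hx hy ihx ihy =>
        have : (⟨x * y, (radField N w).mul_mem hx hy⟩ : radField N w) = ⟨x, hx⟩ * ⟨y, hy⟩ := rfl
        rw [this, map_mul, ihx, ihy]
    exact hgen x hx
  ext x
  obtain ⟨x, hx⟩ := x
  rw [key x hx]
  rfl

/-- the ratio `gam_c / σ(gam_c)` is (the image of) a complex number -/
theorem exists_monRatio (hw : ∀ i, w i ≠ 0) (σ : Gal((radField N w)/F)) (c : Fin n → Fin N) :
    ∃ z : ℂ, radMon w c / σ (radMon w c) = algebraMap ℂ (radField N w) z := by
  choose z hz1 hz using exists_ratio (N := N) w hw σ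
  refine ⟨∏ i, ((z i)⁻¹) ^ (c i : ℕ), ?_⟩
  have h1 : σ (radMon w c)
      = algebraMap ℂ (radField N w) (∏ i, (z i) ^ (c i : ℕ)) * radMon w c := by
    unfold radMon
    rw [map_prod, map_prod, ← Finset.prod_mul_distrib]
    refine Finset.prod_congr rfl fun i _ => ?_
    rw [map_pow, hz, mul_pow, map_pow]
  have hz0 : ∀ i, z i ≠ 0 := fun i h => by
    have := hz1 i
    rw [h, zero_pow (NeZero.ne N)] at this
    exact zero_ne_one this
  have h2 : (∏ i, (z i) ^ (c i : ℕ)) ≠ 0 :=
    Finset.prod_ne_zero_iff.mpr fun i _ => pow_ne_zero _ (hz0 i)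
  have h3 : algebraMap ℂ (radField N w) (∏ i, (z i) ^ (c i : ℕ)) ≠ 0 := by
    rwa [map_ne_zero]
  rw [h1, div_mul_cancel_right₀ (radMon_ne w hw c), ← map_inv₀]
  congr 1
  rw [← Finset.prod_inv_distrib]
  exact Finset.prod_congr rfl fun i _ => (inv_pow _ _).symm

open scoped Classical in
theorem sum_monRatio (hw : ∀ i, w i ≠ 0) (σ : Gal((radField N w)/F)) :
    ∑ c : Fin n → Fin N, radMon w c / σ (radMon w c) = if σ = 1 then (N : radField N w) ^ n else 0 := by
  classical
  -- write the ratio as a product
  have hr : ∀ c : Fin n → Fin N, radMon w c / σ (radMon w c)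
      = ∏ i, (radGen (N := N) w i / σ (radGen (N := N) w i)) ^ (c i : ℕ) := by
    intro c
    unfold radMon
    rw [map_prod, ← Finset.prod_div_distrib]
    refine Finset.prod_congr rfl fun i _ => ?_
    rw [map_pow, div_pow]
  simp_rw [hr]
  have hprod := Finset.prod_univ_sum (fun _ : Fin n => (Finset.univ : Finset (Fin N)))
    (fun i (j : Fin N) => (radGen (N := N) w i / σ (radGen (N := N) w i)) ^ (j : ℕ))
  rw [Fintype.piFinset_univ] at hprod
  rw [← hprod]
  split_ifs with h
  · subst h
    have : ∀ i : Fin n, (∑ j : Fin N, (radGen (N := N) w i / (1 : Gal((radField N w)/F))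
        (radGen (N := N) w i)) ^ (j : ℕ)) = (N : radField N w) := by
      intro i
      have h1 : radGen (N := N) w i / (1 : Gal((radField N w)/F)) (radGen (N := N) w i) = 1 := by
        rw [AlgEquiv.one_apply, div_self (radGen_ne w hw i)]
      rw [Finset.sum_congr rfl fun j _ => by rw [h1, one_pow]]
      simp
    rw [Finset.prod_congr rfl fun i _ => this i]
    simp
  · -- some generator is moved
    obtain ⟨i, hi⟩ : ∃ i, σ (radGen (N := N) w i) ≠ radGen (N := N) w i := by
      by_contra hcon
      push Not at hcon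
      exact h (eq_one_of_fix w σ hcon)
    refine Finset.prod_eq_zero (Finset.mem_univ i) ?_
    set y := radGen (N := N) w i / σ (radGen (N := N) w i) with hy
    have h0 := radGen_ne (N := N) w hw i
    have hσ0 : σ (radGen (N := N) w i) ≠ 0 := by
      rwa [map_ne_zero]
    have hy1 : y ≠ 1 := by
      intro h1
      rw [hy, div_eq_one_iff_eq hσ0] at h1
      exact hi h1.symm
    have hyN : y ^ N = 1 := by
      rw [hy, div_pow, ← map_pow, radGen_pow, AlgEquiv.commutes, div_self]
      rw [map_ne_zero]
      exact hw i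
    have h2 : ∑ j : Fin N, y ^ (j : ℕ) = ∑ j ∈ Finset.range N, y ^ j :=
      Fin.sum_univ_eq_sum_range (fun j => y ^ j) N
    rw [h2]
    have h3 := geom_sum_mul y N
    rw [hyN, sub_self] at h3
    exact (mul_eq_zero.mp h3).resolve_right (sub_ne_zero.mpr hy1)

/-- the coefficient -/
noncomputable def radCoeff (v : radField N w) (c : Fin n → Fin N) : F :=
  ((N : F) ^ n)⁻¹ * Algebra.trace F (radField N w) (v / radMon w c)

theorem radCoeff_mul (hw : ∀ i, w i ≠ 0) (v : radField N w) (c : Fin n → Fin N) :
    algebraMap F (radField N w) (radCoeff w v c) * radMon w c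
      = ((N : radField N w) ^ n)⁻¹ *
        ∑ σ : Gal((radField N w)/F), σ v * (radMon w c / σ (radMon w c)) := by
  have := radField_isGalois (N := N) w hw
  unfold radCoeff
  rw [map_mul, trace_eq_sum_automorphisms, map_inv₀, map_pow, map_natCast, mul_assoc,
    Finset.sum_mul]
  congr 1
  refine Finset.sum_congr rfl fun σ _ => ?_
  rw [map_div₀]
  ring

open scoped Classical in
theorem radCoeff_sum (hw : ∀ i, w i ≠ 0) (v : radField N w) :
    v = ∑ c, algebraMap F (radField N w) (radCoeff w v c) * radMon w c := by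
  classical
  have hc0 := charZero_of_algebra_complex (radField N w)
  simp_rw [radCoeff_mul w hw v]
  rw [← Finset.mul_sum, Finset.sum_comm]
  have h1 : ∀ σ : Gal((radField N w)/F),
      ∑ c : Fin n → Fin N, σ v * (radMon w c / σ (radMon w c))
        = if σ = 1 then v * (N : radField N w) ^ n else 0 := by
    intro σ
    rw [← Finset.mul_sum, sum_monRatio w hw σ]
    split_ifs with h
    · rw [h, AlgEquiv.one_apply]
    · rw [mul_zero]
  rw [Finset.sum_congr rfl fun σ _ => h1 σ, Finset.sum_ite_eq' Finset.univ (1 : Gal((radField N w)/F))]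
  simp only [Finset.mem_univ, if_true]
  have hN : (N : radField N w) ^ n ≠ 0 := pow_ne_zero _ (Nat.cast_ne_zero.mpr (NeZero.ne N))
  field_simp

/-- automorphisms over `F` preserve integrality over `ℂ[G]`, `G ⊆ F` -/
theorem aut_mem_intClos {K : Type} [Field K] [Algebra ℂ K] [Algebra F K] [IsScalarTower ℂ F K]
    (G : Set F) (σ : K ≃ₐ[F] K) {v : K} (hv : v ∈ intClos (algebraMap F K '' G)) :
    σ v ∈ intClos (algebraMap F K '' G) := by
  obtain ⟨p, hp, hpv⟩ := hv
  refine ⟨p, hp, ?_⟩
  have hfix : ∀ r ∈ Algebra.adjoin ℂ (algebraMap F K '' G), σ r = r := by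
    intro r hr
    induction hr using Algebra.adjoin_induction with
    | mem x hx =>
      obtain ⟨y, -, rfl⟩ := hx
      exact σ.commutes y
    | algebraMap c =>
      rw [IsScalarTower.algebraMap_apply ℂ F K]
      exact σ.commutes _
    | add x y _ _ ihx ihy => rw [map_add, ihx, ihy]
    | mul x y _ _ ihx ihy => rw [map_mul, ihx, ihy]
  have h1 : σ (Polynomial.eval₂ (algebraMap (Algebra.adjoin ℂ (algebraMap F K '' G)) K) v p) = 0 := by
    rw [hpv, map_zero]
  have h2 : σ (Polynomial.eval₂ (algebraMap (Algebra.adjoin ℂ (algebraMap F K '' G)) K) v p)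
      = Polynomial.eval₂ (algebraMap (Algebra.adjoin ℂ (algebraMap F K '' G)) K) (σ v) p := by
    have h3 := Polynomial.hom_eval₂ p (algebraMap (Algebra.adjoin ℂ (algebraMap F K '' G)) K)
      (σ : K →+* K) v
    have h4 : (σ : K →+* K).comp (algebraMap (Algebra.adjoin ℂ (algebraMap F K '' G)) K)
        = algebraMap (Algebra.adjoin ℂ (algebraMap F K '' G)) K := by
      ext r
      exact hfix r r.2
    rw [h4] at h3
    exact h3
  rw [← h2, h1]

theorem radSys (hw : ∀ i, w i ≠ 0) :
    RadSys F (radField N w) N (X := Fin n → Fin N) (radMon w) (radW w) where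
  pow := radMon_pow w
  W_ne := radW_ne w hw
  decomp := by
    intro G v hv
    refine ⟨radCoeff w v, radCoeff_sum w hw v, fun c => ?_⟩
    rw [radCoeff_mul w hw v c]
    have hinv : ((N : radField N w) ^ n)⁻¹
        = algebraMap ℂ (radField N w) (((N : ℂ) ^ n)⁻¹) := by
      rw [map_inv₀, map_pow, map_natCast]
    rw [hinv]
    refine Subalgebra.mul_mem _ (Subalgebra.algebraMap_mem _ _) (Subalgebra.sum_mem _ fun σ _ => ?_)
    obtain ⟨z, hz⟩ := exists_monRatio w hw σ c
    rw [hz]
    exact Subalgebra.mul_mem _ (aut_mem_intClos G σ hv) (Subalgebra.algebraMap_mem _ _)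

end

end Crest.Agent.R278
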