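import Crest.Agent.R278.Assembly

/-!
Row 278 (S0421): ramified Kummer charts.  `K = F(g)`, `g ^ N = w`, chart ring
`R = ℂ[p,q,1/h]` of `F`, `e ^ N w = p ^ r ω` with `ω` a unit of `R`.
-/

set_option autoImplicit false

namespace Crest.Agent.R278

open MvPolynomial

section Comp

variable {F : Type} [Field F] [Algebra ℂ F]

/-- `KF`-components of elements integral over a subring of `F` are integral. -/
theorem component_mem_intClos {N : ℕ} (hN : 0 < N) (w : F)
    [Fact (Irreducible (Polynomial.X ^ N - Polynomial.C w : Polynomial F))] (G : Set F)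
    (c : Fin N → F)
    (hf : ∑ i, algebraMap F (KF N w) (c i) * (KF.g N w) ^ (i : ℕ) ∈
      intClos (algebraMap F (KF N w) '' G)) (l : Fin N) :
    algebraMap F (KF N w) (c l) * (KF.g N w) ^ (l : ℕ) ∈ intClos (algebraMap F (KF N w) '' G) := by
  set ζ : F := algebraMap ℂ F (Complex.exp (2 * Real.pi * Complex.I / N)) with hζdef
  have hζ : IsPrimitiveRoot ζ N :=
    (Complex.isPrimitiveRoot_exp N hN.ne').map_of_injective (algebraMap ℂ F).injective
  have hcomp := KF.component hN w ζ hζ c l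
  have hNK : (N : KF N w) ≠ 0 := by
    have : CharZero (KF N w) :=
      charZero_of_injective_algebraMap (algebraMap ℂ (KF N w)).injective
    exact_mod_cast hN.ne'
  set R := Algebra.adjoin ℂ (algebraMap F (KF N w) '' G) with hR
  have hRF : ∀ r ∈ R, ∃ r0 : F, algebraMap F (KF N w) r0 = r := by
    intro r hr
    have h1 : R ≤ (IsScalarTower.toAlgHom ℂ F (KF N w)).range := by
      rw [hR, Algebra.adjoin_le_iff]
      rintro z ⟨z0, _, rfl⟩
      exact ⟨z0, rfl⟩
    obtain ⟨r0, hr0⟩ := h1 hr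
    exact ⟨r0, hr0⟩
  have htw : ∀ (ξ : F) (hξ : ξ ^ N = 1) (v : KF N w), v ∈ intClos (algebraMap F (KF N w) '' G) →
      KF.twist N w ξ hξ v ∈ intClos (algebraMap F (KF N w) '' G) := by
    intro ξ hξ v hv
    rw [mem_intClos] at hv ⊢
    let σ : KF N w →ₐ[R] KF N w :=
      { (KF.twist N w ξ hξ : KF N w →+* KF N w) with
        commutes' := by
          intro r
          obtain ⟨r0, hr0⟩ := hRF r r.2
          have : (algebraMap R (KF N w) r) = algebraMap F (KF N w) r0 := hr0.symm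
          simp only [RingHom.toMonoidHom_eq_coe, OneHom.toFun_eq_coe, MonoidHom.toOneHom_coe,
            MonoidHom.coe_coe, RingHom.coe_coe]
          rw [this]
          exact AlgHom.commutes _ _ }
    exact hv.map σ
  have hsum : (N : KF N w) * (algebraMap F (KF N w) (c l) * (KF.g N w) ^ (l : ℕ)) ∈
      intClos (algebraMap F (KF N w) '' G) := by
    rw [hcomp]
    refine sum_mem fun j _ => mul_mem ?_ (htw _ _ _ hf)
    have : algebraMap F (KF N w) (ζ⁻¹ ^ ((j : ℕ) * l)) = algebraMap ℂ (KF N w)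
        ((Complex.exp (2 * Real.pi * Complex.I / N))⁻¹ ^ ((j : ℕ) * l)) := by
      rw [hζdef, ← map_inv₀, ← map_pow, ← IsScalarTower.algebraMap_apply ℂ F (KF N w)]
    rw [this]
    exact Subalgebra.algebraMap_mem _ _
  have h2 : algebraMap F (KF N w) (c l) * (KF.g N w) ^ (l : ℕ) = algebraMap ℂ (KF N w) (N : ℂ)⁻¹ *
      ((N : KF N w) * (algebraMap F (KF N w) (c l) * (KF.g N w) ^ (l : ℕ))) := by
    rw [map_inv₀, map_natCast, ← mul_assoc, inv_mul_cancel₀ hNK, one_mul]
  rw [h2]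
  exact mul_mem (Subalgebra.algebraMap_mem _ _) hsum

end Comp

section Chart

variable {F : Type} [Field F] [Algebra ℂ F]

omit [Algebra ℂ F] in
theorem image_G {K : Type} [Field K] [Algebra F K] (p q h : F) :
    (algebraMap F K) '' {p, q, h⁻¹} =
      {algebraMap F K p, algebraMap F K q, (algebraMap F K h)⁻¹} := by
  simp [Set.image_insert_eq]

/-- elements of `F` integral over the chart ring lie in the chart ring. -/
theorem mem_chartRing_of_intClos {K : Type} [Field K] [Algebra F K] [Algebra ℂ K]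
    [IsScalarTower ℂ F K] {p q h r : F} (hc : IsChart ℂ p q) (hh : h ∈ polyRing ℂ p q)
    (h0 : h ≠ 0)
    (hr : algebraMap F K r ∈
      intClos {algebraMap F K p, algebraMap F K q, (algebraMap F K h)⁻¹}) :
    r ∈ chartRing ℂ p q h := by
  rw [← image_G, ← mem_intCl_adjoin_iff, mem_intCl] at hr
  have := hc.chartRing_isIntegrallyClosed hh h0
  have := hc.chartRing_isFractionRing (h := h)
  have h1 : IsIntegral (chartRing ℂ p q h) r :=
    (isIntegral_algebraMap_iff (A := F) (B := K) (algebraMap F K).injective).1 hr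
  obtain ⟨a, ha⟩ := IsIntegrallyClosed.isIntegral_iff.1 h1
  rw [← ha]
  exact a.2

/-- elements of `F` integral over the chart ring lie in the chart ring, in form of a power. -/
theorem mem_chartRing_of_pow {p q h r : F} (hc : IsChart ℂ p q) (hh : h ∈ polyRing ℂ p q)
    (h0 : h ≠ 0) {N : ℕ} (hN : 0 < N) (hr : r ^ N ∈ chartRing ℂ p q h) :
    r ∈ chartRing ℂ p q h := by
  have := hc.chartRing_isIntegrallyClosed hh h0
  have := hc.chartRing_isFractionRing (h := h)
  have h1 : IsIntegral (chartRing ℂ p q h) r := by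
    apply IsIntegral.of_pow hN
    exact isIntegral_algebraMap (x := (⟨_, hr⟩ : chartRing ℂ p q h))
  obtain ⟨a, ha⟩ := IsIntegrallyClosed.isIntegral_iff.1 h1
  rw [← ha]
  exact a.2

/-- the first coordinate is prime in the chart ring (in the form needed). -/
theorem chart_prime {p q h : F} (hc : IsChart ℂ p q) (hh : h ∈ polyRing ℂ p q) (h0 : h ≠ 0)
    (hp0 : p ≠ 0) (hd : h / p ∉ polyRing ℂ p q) {N : ℕ} {m : F}
    (hm : m ∈ chartRing ℂ p q h) (hmN : m ^ N / p ∈ chartRing ℂ p q h) :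
    m / p ∈ chartRing ℂ p q h := by
  obtain ⟨P, hP, n, hn⟩ := chartRing_exists hh h0 hm
  obtain ⟨P', hP', k, hk⟩ := chartRing_exists hh h0 hmN
  obtain ⟨P0, rfl⟩ := (mem_polyRing_iff p q P).1 hP
  obtain ⟨P1, rfl⟩ := (mem_polyRing_iff p q P').1 hP'
  obtain ⟨H, rfl⟩ := (mem_polyRing_iff p q h).1 hh
  have hX : aeval ![p, q] (X 0 : MvPolynomial (Fin 2) ℂ) = p := by rw [aeval_X]; rfl
  -- `X 0 ∣ P0 ^ N * H ^ k`
  have h1 : aeval ![p, q] (P0 ^ N * H ^ k) = aeval ![p, q] (X 0 * (P1 * H ^ (n * N))) := by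
    rw [map_mul, map_mul, map_mul, map_pow, map_pow, map_pow, hX, ← hn, ← hk]
    field_simp
    rw [mul_pow, ← pow_mul]
  have h2 : P0 ^ N * H ^ k = X 0 * (P1 * H ^ (n * N)) := hc.indep h1
  have hXp : Prime (X 0 : MvPolynomial (Fin 2) ℂ) := MvPolynomial.X_prime
  have hdH : ¬ (X 0 : MvPolynomial (Fin 2) ℂ) ∣ H := by
    rintro ⟨H', rfl⟩
    apply hd
    rw [map_mul, hX, mul_div_cancel_left₀ _ hp0]
    exact (mem_polyRing_iff p q _).2 ⟨H', rfl⟩
  have h3 : (X 0 : MvPolynomial (Fin 2) ℂ) ∣ P0 := by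
    rcases hXp.dvd_or_dvd (Dvd.intro _ h2.symm) with h | h
    · exact hXp.dvd_of_dvd_pow h
    · exact absurd (hXp.dvd_of_dvd_pow h) hdH
  obtain ⟨P2, rfl⟩ := h3
  have h4 : m / p = aeval ![p, q] P2 * (aeval ![p, q] H)⁻¹ ^ n := by
    rw [map_mul, hX] at hn
    have : m = p * aeval ![p, q] P2 * (aeval ![p, q] H)⁻¹ ^ n := by
      rw [← hn, inv_pow, mul_assoc, mul_inv_cancel₀ (pow_ne_zero _ h0), mul_one]
    rw [this, mul_assoc, mul_div_cancel_left₀ _ hp0]
  rw [h4]
  exact Subalgebra.mul_mem _ (polyRing_le_chartRing _ _ _ ((mem_polyRing_iff p q _).2 ⟨P2, rfl⟩))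
    (Subalgebra.pow_mem _ (inv_mem_chartRing _ _ _) _)

/-- `p`-adic floor: `f^N p^c ∈ R` implies `f p^(c/N) ∈ R`. -/
theorem floor_mem {p q h : F} (hc : IsChart ℂ p q) (hh : h ∈ polyRing ℂ p q) (h0 : h ≠ 0)
    (hp0 : p ≠ 0) (hd : h / p ∉ polyRing ℂ p q) {N : ℕ} (hN : 0 < N) {f : F} {c : ℤ}
    (hf : f ^ N * p ^ c ∈ chartRing ℂ p q h) : f * p ^ (c / N) ∈ chartRing ℂ p q h := by
  have hpR : p ∈ chartRing ℂ p q h := Algebra.subset_adjoin (by simp)
  have hN' : (0 : ℤ) < N := by exact_mod_cast hN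
  have hmod0 : 0 ≤ c % N := Int.emod_nonneg _ hN'.ne'
  have hmod1 : c % N < N := Int.emod_lt_of_pos _ hN'
  obtain ⟨ρ, hρ⟩ := Int.eq_ofNat_of_zero_le hmod0
  have hρN : ρ < N := by rw [hρ] at hmod1; exact_mod_cast hmod1
  set f' := f * p ^ (c / N) with hf'
  have h1 : f ^ N * p ^ c = f' ^ N * p ^ ρ := by
    have : c = (c / N) * N + ρ := by rw [← hρ]; exact (Int.ediv_mul_add_emod c N).symm
    conv_lhs => rw [this, zpow_add₀ hp0, zpow_mul, zpow_natCast, zpow_natCast]
    rw [hf', mul_pow]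
    ring
  rw [h1] at hf
  have h2 : (f' * p) ∈ chartRing ℂ p q h := by
    refine mem_chartRing_of_pow hc hh h0 hN ?_
    have : (f' * p) ^ N = f' ^ N * p ^ ρ * p ^ (N - ρ) := by
      rw [mul_pow, mul_assoc, ← pow_add]; congr 2; omega
    rw [this]
    exact Subalgebra.mul_mem _ hf (Subalgebra.pow_mem _ hpR _)
  have h3 : (f' * p) ^ N / p ∈ chartRing ℂ p q h := by
    have : (f' * p) ^ N / p = f' ^ N * p ^ ρ * p ^ (N - ρ - 1) := by
      have e1 : p ^ N = p ^ ρ * (p ^ (N - ρ - 1) * p) := by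
        rw [← pow_succ, ← pow_add]; congr 1; omega
      rw [mul_pow, e1]
      field_simp
    rw [this]
    exact Subalgebra.mul_mem _ hf (Subalgebra.pow_mem _ hpR _)
  have h4 := chart_prime hc hh h0 hp0 hd h2 h3
  rwa [mul_div_cancel_right₀ _ hp0] at h4

/-- The (possibly) ramified Kummer chart data: `e ^ N w = p ^ r ω`. -/
structure RamChart (N : ℕ) (w p q h e ω : F) (r : ℤ) : Prop where
  hc : IsChart ℂ p q
  hh : h ∈ polyRing ℂ p q
  h0 : h ≠ 0
  hp0 : p ≠ 0
  he : e ≠ 0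
  hω : ω ∈ chartRing ℂ p q h
  hω' : ω⁻¹ ∈ chartRing ℂ p q h
  hω0 : ω ≠ 0
  hw : e ^ N * w = p ^ r * ω
  hd : r = 0 ∨ h / p ∉ polyRing ℂ p q

/-- `f^N p^c ∈ R` implies `f p^(c/N) ∈ R` if `r ∣ c`. -/
theorem RamChart.floor_mem {N : ℕ} {w p q h e ω : F} {r : ℤ} (H : RamChart N w p q h e ω r)
    (hN : 0 < N) {f : F} {c : ℤ} (hc : r ∣ c)
    (hf : f ^ N * p ^ c ∈ chartRing ℂ p q h) : f * p ^ (c / N) ∈ chartRing ℂ p q h := by
  rcases H.hd with h1 | h1
  · subst h1
    rw [zero_dvd_iff] at hc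
    subst hc
    rw [zpow_zero, mul_one] at hf
    rw [Int.zero_ediv, zpow_zero, mul_one]
    exact mem_chartRing_of_pow H.hc H.hh H.h0 hN hf
  · exact Crest.Agent.R278.floor_mem H.hc H.hh H.h0 H.hp0 h1 hN hf

variable {N : ℕ} {w p q h e ω : F} {r : ℤ}

/-- the chart ring upstairs -/
noncomputable abbrev CK (K : Type) [Field K] [Algebra F K] [Algebra ℂ K] (p q h : F) :
    Subalgebra ℂ K :=
  intClos {algebraMap F K p, algebraMap F K q, (algebraMap F K h)⁻¹}

section K

variable {K : Type} [Field K] [Algebra F K] [Algebra ℂ K] [IsScalarTower ℂ F K] {g : K}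

omit [Algebra ℂ K] [IsScalarTower ℂ F K] in
/-- the `N`-th power of `f (e g)^k`. -/
theorem RamChart.pow_eq (H : RamChart N w p q h e ω r) (hg : g ^ N = algebraMap F K w) (f : F)
    (k : ℕ) : (algebraMap F K f * (algebraMap F K e * g) ^ k) ^ N =
      algebraMap F K (f ^ N * p ^ (r * k) * ω ^ k) := by
  have h1 : (algebraMap F K e * g) ^ N = algebraMap F K (p ^ r * ω) := by
    rw [mul_pow, hg, ← H.hw, map_mul, map_pow]
  rw [mul_pow, ← pow_mul, mul_comm k N, pow_mul, h1, ← map_pow, ← map_pow, ← map_mul, mul_pow,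
    mul_assoc, zpow_mul, zpow_natCast]

/-- membership criterion, sufficient direction. -/
theorem RamChart.mem_of (H : RamChart N w p q h e ω r) (hN : 0 < N)
    (hg : g ^ N = algebraMap F K w) {f : F} {k : ℕ}
    (hf : f ^ N * p ^ (r * k) ∈ chartRing ℂ p q h) :
    algebraMap F K f * (algebraMap F K e * g) ^ k ∈ CK K p q h := by
  have h1 : (algebraMap F K f * (algebraMap F K e * g) ^ k) ^ N ∈ CK K p q h := by
    rw [H.pow_eq hg]
    exact alg_mem_intClos (Subalgebra.mul_mem _ hf (Subalgebra.pow_mem _ H.hω _))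
  exact IsIntegral.of_pow hN h1

/-- membership criterion, necessary direction. -/
theorem RamChart.of_mem (H : RamChart N w p q h e ω r)
    (hg : g ^ N = algebraMap F K w) {f : F} {k : ℕ}
    (hf : algebraMap F K f * (algebraMap F K e * g) ^ k ∈ CK K p q h) :
    f ^ N * p ^ (r * k) ∈ chartRing ℂ p q h := by
  have h1 : (algebraMap F K f * (algebraMap F K e * g) ^ k) ^ N ∈ CK K p q h :=
    Subalgebra.pow_mem _ hf N
  rw [H.pow_eq hg] at h1
  have h2 := mem_chartRing_of_intClos H.hc H.hh H.h0 h1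
  have h3 : f ^ N * p ^ (r * k) = f ^ N * p ^ (r * k) * ω ^ k * (ω⁻¹) ^ k := by
    rw [mul_assoc, ← mul_pow, mul_inv_cancel₀ H.hω0, one_pow, mul_one]
  rw [h3]
  exact Subalgebra.mul_mem _ h2 (Subalgebra.pow_mem _ H.hω' _)

/-- `γ_i = p^(-⌊ri/N⌋) (e g)^i`. -/
noncomputable def gam (p e : F) (r : ℤ) (N : ℕ) (g : K) (i : ℕ) : K :=
  algebraMap F K (p ^ (-(r * i / N))) * (algebraMap F K e * g) ^ i

theorem RamChart.gam_mem (H : RamChart N w p q h e ω r) (hN : 0 < N)
    (hg : g ^ N = algebraMap F K w) (i : ℕ) : gam p e r N g i ∈ CK K p q h := by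
  refine H.mem_of hN hg ?_
  have hN' : (0 : ℤ) < N := by exact_mod_cast hN
  have hmod0 : 0 ≤ (r * i) % N := Int.emod_nonneg _ hN'.ne'
  obtain ⟨ρ, hρ⟩ := Int.eq_ofNat_of_zero_le hmod0
  have h1 : (p ^ (-(r * i / N))) ^ N * p ^ (r * i) = p ^ ρ := by
    rw [← zpow_natCast (p ^ (-(r * i / N))), ← zpow_mul, ← zpow_add₀ H.hp0, ← zpow_natCast p ρ]
    congr 1
    have := Int.ediv_mul_add_emod (r * i) N
    rw [← hρ]
    linarith
  rw [h1]
  exact Subalgebra.pow_mem _ (Algebra.subset_adjoin (by simp)) _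

/-- Derivations in terms of the two chart coordinates. -/
theorem exists_partials {r : F} (hh : h ∈ polyRing ℂ p q) (h0 : h ≠ 0)
    (hr : r ∈ chartRing ℂ p q h) :
    ∃ a ∈ chartRing ℂ p q h, ∃ b ∈ chartRing ℂ p q h, ∀ D : Derivation ℂ K K,
      D (algebraMap F K r) = algebraMap F K a * D (algebraMap F K p) +
        algebraMap F K b * D (algebraMap F K q) := by
  have hle := polyRing_le_chartRing (k := ℂ) p q h
  have hpoly : ∀ r ∈ polyRing ℂ p q, ∃ a ∈ chartRing ℂ p q h, ∃ b ∈ chartRing ℂ p q h,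
      ∀ D : Derivation ℂ K K,
      D (algebraMap F K r) = algebraMap F K a * D (algebraMap F K p) +
        algebraMap F K b * D (algebraMap F K q) := by
    intro r hr
    induction hr using Algebra.adjoin_induction with
    | mem z hz =>
      rcases hz with rfl | hz
      · exact ⟨1, Subalgebra.one_mem _, 0, Subalgebra.zero_mem _, fun D => by simp⟩
      · rw [Set.mem_singleton_iff] at hz
        subst hz
        exact ⟨0, Subalgebra.zero_mem _, 1, Subalgebra.one_mem _, fun D => by simp⟩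
    | algebraMap c =>
      refine ⟨0, Subalgebra.zero_mem _, 0, Subalgebra.zero_mem _, fun D => ?_⟩
      rw [← IsScalarTower.algebraMap_apply ℂ F K, D.map_algebraMap]
      simp
    | add u v _ _ hu hv =>
      obtain ⟨a, ha, b, hb, H1⟩ := hu
      obtain ⟨a', ha', b', hb', H2⟩ := hv
      refine ⟨a + a', Subalgebra.add_mem _ ha ha', b + b', Subalgebra.add_mem _ hb hb',
        fun D => ?_⟩
      rw [map_add, map_add, H1, H2, map_add, map_add]; ring
    | mul u v hu' hv' hu hv =>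
      obtain ⟨a, ha, b, hb, H1⟩ := hu
      obtain ⟨a', ha', b', hb', H2⟩ := hv
      refine ⟨u * a' + v * a, Subalgebra.add_mem _ (Subalgebra.mul_mem _ (hle hu') ha')
        (Subalgebra.mul_mem _ (hle hv') ha), u * b' + v * b,
        Subalgebra.add_mem _ (Subalgebra.mul_mem _ (hle hu') hb')
        (Subalgebra.mul_mem _ (hle hv') hb), fun D => ?_⟩
      rw [map_mul, D.leibniz, H1, H2, smul_eq_mul, smul_eq_mul, map_add, map_add, map_mul,
        map_mul, map_mul, map_mul]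
      ring
  obtain ⟨P, hP, n, hn⟩ := chartRing_exists hh h0 hr
  obtain ⟨a, ha, b, hb, H1⟩ := hpoly P hP
  obtain ⟨a', ha', b', hb', H2⟩ := hpoly h hh
  have hi := inv_mem_chartRing (k := ℂ) p q h
  have h0' : algebraMap F K h ≠ 0 := by rwa [Ne, map_eq_zero]
  refine ⟨h⁻¹ ^ n * a - n * r * h⁻¹ * a', Subalgebra.sub_mem _ (Subalgebra.mul_mem _
    (Subalgebra.pow_mem _ hi _) ha) (Subalgebra.mul_mem _ (Subalgebra.mul_mem _
      (Subalgebra.mul_mem _ (natCast_mem _ n) hr) hi) ha'), h⁻¹ ^ n * b - n * r * h⁻¹ * b',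
    Subalgebra.sub_mem _ (Subalgebra.mul_mem _
    (Subalgebra.pow_mem _ hi _) hb) (Subalgebra.mul_mem _ (Subalgebra.mul_mem _
      (Subalgebra.mul_mem _ (natCast_mem _ n) hr) hi) hb'), fun D => ?_⟩
  -- differentiate `r h^n = P`
  have h1 : algebraMap F K r * algebraMap F K h ^ n = algebraMap F K P := by
    rw [← map_pow, ← map_mul, hn]
  have h2 := congrArg D h1
  rw [D.leibniz, D.leibniz_pow, smul_eq_mul, smul_eq_mul, H1, H2, smul_eq_mul,
    nsmul_eq_mul] at h2
  rcases Nat.eq_zero_or_pos n with hn0 | hn0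
  · subst hn0
    simp only [pow_zero, Nat.cast_zero, zero_mul, mul_zero, one_mul, zero_add, sub_zero] at h2 ⊢
    exact h2
  · have h3 : algebraMap F K h ^ n = algebraMap F K h ^ (n - 1) * algebraMap F K h := by
      rw [← pow_succ, Nat.sub_add_cancel hn0]
    simp only [map_sub, map_mul, map_pow, map_inv₀, map_natCast]
    have h4 : D (algebraMap F K r) * algebraMap F K h ^ n =
        algebraMap F K a * D (algebraMap F K p) + algebraMap F K b * D (algebraMap F K q) -
        algebraMap F K r * (n * algebraMap F K h ^ (n - 1) *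
          (algebraMap F K a' * D (algebraMap F K p) + algebraMap F K b' * D (algebraMap F K q))) := by
      rw [← h2]; ring
    apply mul_right_cancel₀ (pow_ne_zero n h0')
    rw [h4]
    have e1 : (algebraMap F K h)⁻¹ ^ n * algebraMap F K h ^ n = 1 := by
      rw [← mul_pow, inv_mul_cancel₀ h0', one_pow]
    have e2 : (algebraMap F K h)⁻¹ * algebraMap F K h ^ n = algebraMap F K h ^ (n - 1) := by
      rw [h3, mul_comm (algebraMap F K h ^ (n - 1)), ← mul_assoc, inv_mul_cancel₀ h0', one_mul]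
    linear_combination (-(algebraMap F K a * D (algebraMap F K p) +
        algebraMap F K b * D (algebraMap F K q))) * e1 + (n : K) * algebraMap F K r *
          (algebraMap F K a' * D (algebraMap F K p) +
            algebraMap F K b' * D (algebraMap F K q)) * e2

omit [Algebra ℂ F] [IsScalarTower ℂ F K] in
/-- The logarithmic derivative of a root of `p^d ω^i`. -/
theorem der_root (hN : 0 < N) (hp0 : p ≠ 0) (hω0 : ω ≠ 0) {γ : K} {d i : ℕ}
    (hγ : γ ^ N = algebraMap F K (p ^ d * ω ^ i)) (D : Derivation ℂ K K) :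
    D γ = algebraMap ℂ K (N : ℂ)⁻¹ * γ *
      ((d : K) * (D (algebraMap F K p) / algebraMap F K p) +
        (i : K) * (D (algebraMap F K ω) / algebraMap F K ω)) := by
  have hp0' : algebraMap F K p ≠ 0 := by rwa [Ne, map_eq_zero]
  have hω0' : algebraMap F K ω ≠ 0 := by rwa [Ne, map_eq_zero]
  have hNK : (N : K) ≠ 0 := by
    have : CharZero K := charZero_of_injective_algebraMap (algebraMap ℂ K).injective
    exact_mod_cast hN.ne'
  rw [map_mul, map_pow, map_pow] at hγ
  rw [derivation_root D hN.ne' (mul_ne_zero (pow_ne_zero d hp0') (pow_ne_zero i hω0')) hγ]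
  have h1 : D (algebraMap F K p ^ d * algebraMap F K ω ^ i) =
      algebraMap F K p ^ d * algebraMap F K ω ^ i *
      ((d : K) * (D (algebraMap F K p) / algebraMap F K p) +
        (i : K) * (D (algebraMap F K ω) / algebraMap F K ω)) := by
    have hpow : ∀ (z : K) (_ : z ≠ 0) (n : ℕ), D (z ^ n) = z ^ n * ((n : K) * (D z / z)) := by
      intro z hz n
      rw [D.leibniz_pow, smul_eq_mul, nsmul_eq_mul]
      rcases Nat.eq_zero_or_pos n with h | h
      · subst h; simp
      · have : z ^ n = z ^ (n - 1) * z := by rw [← pow_succ, Nat.sub_add_cancel h]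
        rw [this]
        field_simp
    rw [D.leibniz, smul_eq_mul, smul_eq_mul, hpow _ hp0', hpow _ hω0']
    ring
  rw [h1, map_inv₀, map_natCast]
  field_simp

omit [Algebra ℂ K] [IsScalarTower ℂ F K] in
theorem RamChart.gam_pow (H : RamChart N w p q h e ω r)
    (hg : g ^ N = algebraMap F K w) (i ρ : ℕ) (hρ : (r * i) % N = ρ) :
    (gam p e r N g i) ^ N = algebraMap F K (p ^ ρ * ω ^ i) := by
  rw [gam, H.pow_eq hg]
  congr 2
  rw [← zpow_natCast (p ^ (-(r * i / N))), ← zpow_mul, ← zpow_add₀ H.hp0, ← zpow_natCast p ρ]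
  congr 1
  have := Int.ediv_mul_add_emod (r * i) N
  rw [← hρ]
  linarith

end K

theorem zpow_le_mem {p q h : F} (hp0 : p ≠ 0) {f : F} {c c' : ℤ} (hcc : c ≤ c')
    (hf : f * p ^ c ∈ chartRing ℂ p q h) : f * p ^ c' ∈ chartRing ℂ p q h := by
  obtain ⟨n, hn⟩ := Int.le.dest hcc
  have : f * p ^ c' = f * p ^ c * p ^ n := by
    rw [← hn, zpow_add₀ hp0, zpow_natCast, mul_assoc]
  rw [this]
  exact Subalgebra.mul_mem _ hf (Subalgebra.pow_mem _ (Algebra.subset_adjoin (by simp)) _)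

theorem zpow_nonneg_mem {p q h : F} {f : F} {c : ℤ} (hcc : 0 ≤ c)
    (hf : f ∈ chartRing ℂ p q h) : f * p ^ c ∈ chartRing ℂ p q h := by
  obtain ⟨n, rfl⟩ := Int.eq_ofNat_of_zero_le hcc
  rw [zpow_natCast]
  exact Subalgebra.mul_mem _ hf (Subalgebra.pow_mem _ (Algebra.subset_adjoin (by simp)) _)

section Der

variable [Fact (Irreducible (Polynomial.X ^ N - Polynomial.C w : Polynomial F))]

/-- **P4R.** Derivations and ramified charts. -/
theorem RamChart.der_mem (H : RamChart N w p q h e ω r) (hN : 0 < N)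
    (D : Derivation ℂ (KF N w) (KF N w))
    (hDp : D (algebraMap F (KF N w) p) ∈ CK (KF N w) p q h)
    (hDq : D (algebraMap F (KF N w) q) ∈ CK (KF N w) p q h)
    (hlog : ∀ i : ℕ, (r * i) % N ≠ 0 → gam p e r N (KF.g N w) i *
      (D (algebraMap F (KF N w) p) / algebraMap F (KF N w) p) ∈ CK (KF N w) p q h) :
    ∀ v ∈ CK (KF N w) p q h, D v ∈ CK (KF N w) p q h := by
  intro v hv
  have hg : (KF.g N w) ^ N = algebraMap F (KF N w) w := KF.g_pow N w
  obtain ⟨c, rfl⟩ := KF.exists_repr hN w v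
  have he' : algebraMap F (KF N w) e ≠ 0 := by rw [Ne, map_eq_zero]; exact H.he
  rw [map_sum]
  refine Subalgebra.sum_mem _ fun i _ => ?_
  have h1 : algebraMap F (KF N w) (c i) * (KF.g N w) ^ (i : ℕ) ∈ CK (KF N w) p q h := by
    rw [CK, ← image_G] at hv ⊢
    exact component_mem_intClos hN w _ c hv i
  set f : F := c i / e ^ (i : ℕ) with hf
  have h2 : algebraMap F (KF N w) (c i) * (KF.g N w) ^ (i : ℕ) =
      algebraMap F (KF N w) f * (algebraMap F (KF N w) e * KF.g N w) ^ (i : ℕ) := by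
    rw [hf, map_div₀, map_pow, mul_pow]
    field_simp
  rw [h2] at h1
  have h3 := H.of_mem hg h1
  have h4 := H.floor_mem hN (Dvd.intro _ rfl) h3
  set a : F := f * p ^ (r * (i : ℕ) / N) with ha
  have h5 : algebraMap F (KF N w) f * (algebraMap F (KF N w) e * KF.g N w) ^ (i : ℕ) =
      algebraMap F (KF N w) a * gam p e r N (KF.g N w) i := by
    rw [gam, ← mul_assoc, ← map_mul]
    congr 2
    rw [ha, mul_assoc, ← zpow_add₀ H.hp0]
    simp
  rw [h2, h5, D.leibniz, smul_eq_mul, smul_eq_mul]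
  have hγ := H.gam_mem (K := KF N w) hN hg i
  have haD : ∀ a ∈ chartRing ℂ p q h, D (algebraMap F (KF N w) a) ∈ CK (KF N w) p q h := by
    intro a ha
    obtain ⟨α, hα, β, hβ, hD⟩ := exists_partials (K := KF N w) H.hh H.h0 ha
    rw [hD]
    exact Subalgebra.add_mem _ (Subalgebra.mul_mem _ (alg_mem_intClos hα) hDp)
      (Subalgebra.mul_mem _ (alg_mem_intClos hβ) hDq)
  refine Subalgebra.add_mem _ (Subalgebra.mul_mem _ (alg_mem_intClos h4) ?_)
    (Subalgebra.mul_mem _ hγ (haD a h4))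
  have hN' : (0 : ℤ) < N := by exact_mod_cast hN
  have hmod0 : 0 ≤ (r * (i : ℕ)) % N := Int.emod_nonneg _ hN'.ne'
  obtain ⟨ρ, hρ⟩ := Int.eq_ofNat_of_zero_le hmod0
  rw [der_root hN H.hp0 H.hω0 (H.gam_pow hg i ρ hρ) D]
  have h6 : algebraMap ℂ (KF N w) (N : ℂ)⁻¹ * gam p e r N (KF.g N w) i *
      ((ρ : KF N w) * (D (algebraMap F (KF N w) p) / algebraMap F (KF N w) p) +
        ((i : ℕ) : KF N w) * (D (algebraMap F (KF N w) ω) / algebraMap F (KF N w) ω)) =
      algebraMap ℂ (KF N w) (N : ℂ)⁻¹ * ((ρ : KF N w) * (gam p e r N (KF.g N w) i *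
        (D (algebraMap F (KF N w) p) / algebraMap F (KF N w) p)) +
        ((i : ℕ) : KF N w) * (gam p e r N (KF.g N w) i * (D (algebraMap F (KF N w) ω) *
          algebraMap F (KF N w) ω⁻¹))) := by
    rw [map_inv₀ (algebraMap F (KF N w)) ω]; ring
  rw [h6]
  refine Subalgebra.mul_mem _ (Subalgebra.algebraMap_mem _ _) (Subalgebra.add_mem _ ?_
    (Subalgebra.mul_mem _ (natCast_mem _ _) (Subalgebra.mul_mem _ hγ
      (Subalgebra.mul_mem _ (haD _ H.hω) (alg_mem_intClos H.hω')))))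
  by_cases h0 : ρ = 0
  · rw [h0, Nat.cast_zero, zero_mul]; exact Subalgebra.zero_mem _
  · refine Subalgebra.mul_mem _ (natCast_mem _ _) (hlog i ?_)
    rw [hρ]
    exact_mod_cast h0

/-- stability from conditions in `F`. -/
theorem RamChart.stable (H : RamChart N w p q h e ω r) (hN : 0 < N)
    (D : Derivation ℂ (KF N w) (KF N w)) {a b : F} {m : ℕ}
    (hDp : D (algebraMap F (KF N w) p) = algebraMap F (KF N w) a * (KF.g N w) ^ m)
    (hDq : D (algebraMap F (KF N w) q) = algebraMap F (KF N w) b * (KF.g N w) ^ m)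
    {j j' : ℤ} (ha : a / e ^ m / p ^ j ∈ chartRing ℂ p q h)
    (hj : 0 ≤ N * (j - 1) + r * m + Int.gcd r N)
    (hb : b / e ^ m / p ^ j' ∈ chartRing ℂ p q h) (hj' : 0 ≤ N * j' + r * m) :
    ∀ v ∈ CK (KF N w) p q h, D v ∈ CK (KF N w) p q h := by
  have hg : (KF.g N w) ^ N = algebraMap F (KF N w) w := KF.g_pow N w
  have he' : algebraMap F (KF N w) e ≠ 0 := by rw [Ne, map_eq_zero]; exact H.he
  have hN' : (0 : ℤ) < N := by exact_mod_cast hN
  have hgcd : (Int.gcd r N : ℤ) ≤ N := Int.gcd_le_right r hN'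
  have key : ∀ a : F, algebraMap F (KF N w) a * (KF.g N w) ^ m =
      algebraMap F (KF N w) (a / e ^ m) * (algebraMap F (KF N w) e * KF.g N w) ^ m := by
    intro a
    rw [map_div₀, map_pow, mul_pow]
    field_simp
  have pw : ∀ (a : F) (j c : ℤ), (a * p ^ c) ^ N = (a / p ^ j) ^ N * p ^ (N * (j + c)) := by
    intro a j c
    have h1 : a * p ^ c = a / p ^ j * p ^ (j + c) := by
      rw [zpow_add₀ H.hp0]
      have := zpow_ne_zero j H.hp0
      field_simp
    rw [h1, mul_pow, ← zpow_natCast (p ^ (j + c)), ← zpow_mul, mul_comm (j + c)]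
  refine H.der_mem hN D ?_ ?_ ?_
  · rw [hDp, key]
    refine H.mem_of hN hg ?_
    have h1 := pw (a / e ^ m) j 0
    rw [zpow_zero, mul_one] at h1
    rw [h1, mul_assoc, ← zpow_add₀ H.hp0]
    refine zpow_nonneg_mem ?_ (Subalgebra.pow_mem _ ha N)
    nlinarith
  · rw [hDq, key]
    refine H.mem_of hN hg ?_
    have h1 := pw (b / e ^ m) j' 0
    rw [zpow_zero, mul_one] at h1
    rw [h1, mul_assoc, ← zpow_add₀ H.hp0]
    refine zpow_nonneg_mem ?_ (Subalgebra.pow_mem _ hb N)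
    linarith
  · intro i hi
    rw [hDp, key]
    have h1 : gam p e r N (KF.g N w) i * (algebraMap F (KF N w) (a / e ^ m) *
        (algebraMap F (KF N w) e * KF.g N w) ^ m / algebraMap F (KF N w) p) =
        algebraMap F (KF N w) (a / e ^ m * p ^ (-(r * i / N) - 1)) *
          (algebraMap F (KF N w) e * KF.g N w) ^ (i + m) := by
      rw [gam, map_mul, zpow_sub_one₀ H.hp0, map_mul, map_inv₀, pow_add]
      ring
    rw [h1]
    refine H.mem_of hN hg ?_
    rw [pw (a / e ^ m) j, mul_assoc, ← zpow_add₀ H.hp0]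
    refine zpow_nonneg_mem ?_ (Subalgebra.pow_mem _ ha N)
    have h2 := Int.ediv_mul_add_emod (r * i) N
    have h3 : (Int.gcd r N : ℤ) ≤ (r * i) % N := by
      have h4 : (Int.gcd r N : ℤ) ∣ (r * i) % N := by
        rw [Int.emod_def]
        exact dvd_sub (Dvd.dvd.mul_right (Int.gcd_dvd_left r N) _)
          (Dvd.dvd.mul_right (Int.gcd_dvd_right r N) _)
      exact Int.le_of_dvd (lt_of_le_of_ne (Int.emod_nonneg _ hN'.ne') (Ne.symm hi)) h4
    have h5 : (N : ℤ) * (j + (-(r * i / N) - 1)) + r * ((i + m : ℕ) : ℤ) =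
        N * (j - 1) + r * m + (r * i - (r * i / N) * N) := by
      push_cast; ring
    rw [h5]
    linarith

/-- Bezout with a natural coefficient. -/
theorem bezout_nat (r : ℤ) (hN : 0 < N) :
    ∃ (a : ℤ) (l : ℕ), N * a + r * l = Int.gcd r N := by
  have hN' : (0 : ℤ) < N := by exact_mod_cast hN
  have h1 := Int.gcd_eq_gcd_ab r N
  have h2 : 0 ≤ Int.gcdA r N % N := Int.emod_nonneg _ hN'.ne'
  obtain ⟨l, hl⟩ := Int.eq_ofNat_of_zero_le h2
  refine ⟨Int.gcdB r N + r * (Int.gcdA r N / N), l, ?_⟩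
  have h3 := Int.ediv_mul_add_emod (Int.gcdA r N) N
  have h4 : (l : ℤ) = Int.gcdA r N - Int.gcdA r N / N * N := by
    rw [← hl]; linarith
  rw [h1, h4]
  ring

/-- **Unit minors on ramified charts.** -/
theorem RamChart.minor_unit (H : RamChart N w p q h e ω r) (hN : 0 < N)
    (D₁ D₂ : Derivation ℂ (KF N w) (KF N w)) {M : F} {m : ℕ}
    (hM : minor D₁ D₂ (algebraMap F (KF N w) p) (algebraMap F (KF N w) q) =
      algebraMap F (KF N w) M * (KF.g N w) ^ m) {j : ℤ} (hM0 : M ≠ 0)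
    (h1 : M / e ^ m / p ^ j ∈ chartRing ℂ p q h) (h2 : (M / e ^ m / p ^ j)⁻¹ ∈ chartRing ℂ p q h)
    (hj : N * j + r * m = N - Int.gcd r N) :
    ∃ π ∈ CK (KF N w) p q h, ∃ c₁ ∈ CK (KF N w) p q h, ∃ c₂ ∈ CK (KF N w) p q h,
      c₁ * minor D₁ D₂ (algebraMap F (KF N w) p) (algebraMap F (KF N w) q) +
      c₂ * minor D₁ D₂ π (algebraMap F (KF N w) q) = 1 := by
  have hg : (KF.g N w) ^ N = algebraMap F (KF N w) w := KF.g_pow N w
  have he' : algebraMap F (KF N w) e ≠ 0 := by rw [Ne, map_eq_zero]; exact H.he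
  have hp0' : algebraMap F (KF N w) p ≠ 0 := by rw [Ne, map_eq_zero]; exact H.hp0
  have hω0' : algebraMap F (KF N w) ω ≠ 0 := by rw [Ne, map_eq_zero]; exact H.hω0
  have hw0 : w ≠ 0 := by
    rintro rfl
    have h3 := H.hw
    rw [mul_zero] at h3
    exact mul_ne_zero (zpow_ne_zero r H.hp0) H.hω0 h3.symm
  have hg0 : KF.g N w ≠ 0 := KF.g_ne_zero hN hw0
  have hN' : (0 : ℤ) < N := by exact_mod_cast hN
  have hNK : (N : KF N w) ≠ 0 := by
    have : CharZero (KF N w) :=
      charZero_of_injective_algebraMap (algebraMap ℂ (KF N w)).injective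
    exact_mod_cast hN.ne'
  obtain ⟨a, l, hal⟩ := bezout_nat r hN
  set d := Int.gcd r N with hd
  have hd0 : d ≠ 0 := by
    rw [hd, Ne, Int.gcd_eq_zero_iff]
    rintro ⟨_, h⟩
    exact hN'.ne' h
  have hdK : (d : KF N w) ≠ 0 := by
    have : CharZero (KF N w) :=
      charZero_of_injective_algebraMap (algebraMap ℂ (KF N w)).injective
    exact_mod_cast hd0
  have hpa : (p ^ a) ^ N * p ^ (r * l) = p ^ d := by
    rw [← zpow_natCast (p ^ a), ← zpow_mul, ← zpow_add₀ H.hp0, ← zpow_natCast p d]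
    congr 1
    rw [← hal]; ring
  set π : KF N w := algebraMap F (KF N w) (p ^ a) * (algebraMap F (KF N w) e * KF.g N w) ^ l
    with hπ
  have hπC : π ∈ CK (KF N w) p q h := by
    refine H.mem_of hN hg ?_
    rw [hpa]
    exact Subalgebra.pow_mem _ (Algebra.subset_adjoin (by simp)) _
  have hπN : π ^ N = algebraMap F (KF N w) (p ^ d * ω ^ l) := by
    rw [hπ, H.pow_eq hg, hpa]
  set μ := minor D₁ D₂ (algebraMap F (KF N w) p) (algebraMap F (KF N w) q) with hμ
  have hμ' : μ = algebraMap F (KF N w) (M / e ^ m) *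
      (algebraMap F (KF N w) e * KF.g N w) ^ m := by
    rw [hM, map_div₀, map_pow, mul_pow]
    field_simp
  have hM0' : M / e ^ m ≠ 0 := div_ne_zero hM0 (pow_ne_zero _ H.he)
  have hμ0 : μ ≠ 0 := by
    rw [hμ']
    exact mul_ne_zero (by rw [Ne, map_eq_zero]; exact hM0') (pow_ne_zero _ (mul_ne_zero he' hg0))
  have hπ0 : π ≠ 0 := mul_ne_zero (by rw [Ne, map_eq_zero]; exact zpow_ne_zero _ H.hp0)
    (pow_ne_zero _ (mul_ne_zero he' hg0))
  set u₁ := π / algebraMap F (KF N w) p * μ with hu₁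
  have hu₁' : u₁ = algebraMap F (KF N w) (p ^ (a - 1) * (M / e ^ m)) *
      (algebraMap F (KF N w) e * KF.g N w) ^ (l + m) := by
    rw [hu₁, hμ', hπ, map_mul, zpow_sub_one₀ H.hp0, map_mul, map_inv₀, pow_add]
    ring
  have hu₁N : u₁ ^ N = algebraMap F (KF N w) ((M / e ^ m / p ^ j) ^ N * ω ^ (l + m)) := by
    rw [hu₁', H.pow_eq hg]
    congr 2
    have h3 : p ^ (a - 1) * (M / e ^ m) = M / e ^ m / p ^ j * p ^ (j + (a - 1)) := by
      rw [zpow_add₀ H.hp0]
      have := zpow_ne_zero j H.hp0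
      field_simp
    rw [h3, mul_pow, ← zpow_natCast (p ^ (j + (a - 1))), ← zpow_mul, mul_assoc,
      ← zpow_add₀ H.hp0]
    have h4 : (j + (a - 1)) * (N : ℤ) + r * ((l + m : ℕ) : ℤ) = 0 := by
      push_cast
      linear_combination hj + hal
    rw [h4, zpow_zero, mul_one]
  have hu₁C : u₁ ∈ CK (KF N w) p q h := by
    apply IsIntegral.of_pow hN
    rw [hu₁N]
    exact alg_mem_intClos (Subalgebra.mul_mem _ (Subalgebra.pow_mem _ h1 _)
      (Subalgebra.pow_mem _ H.hω _))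
  have hu₁C' : u₁⁻¹ ∈ CK (KF N w) p q h := by
    apply IsIntegral.of_pow hN
    have h5 : (algebraMap F (KF N w) ((M / e ^ m / p ^ j) ^ N * ω ^ (l + m)))⁻¹ =
        algebraMap F (KF N w) ((M / e ^ m / p ^ j)⁻¹ ^ N * ω⁻¹ ^ (l + m)) := by
      rw [← map_inv₀ (algebraMap F (KF N w)), mul_inv, inv_pow, inv_pow]
    rw [inv_pow, hu₁N, h5]
    exact alg_mem_intClos (Subalgebra.mul_mem _ (Subalgebra.pow_mem _ h2 _)
      (Subalgebra.pow_mem _ H.hω' _))
  obtain ⟨θ, hθ, θ', hθ', hDω⟩ := exists_partials (K := KF N w) H.hh H.h0 H.hω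
  have hminω : minor D₁ D₂ (algebraMap F (KF N w) ω) (algebraMap F (KF N w) q) =
      algebraMap F (KF N w) θ * μ := by
    rw [hμ]
    unfold minor
    rw [hDω, hDω]; ring
  have hminπ : minor D₁ D₂ π (algebraMap F (KF N w) q) = algebraMap ℂ (KF N w) (N : ℂ)⁻¹ * π *
      ((d : KF N w) * (μ / algebraMap F (KF N w) p) +
        (l : KF N w) * (algebraMap F (KF N w) θ * μ / algebraMap F (KF N w) ω)) := by
    rw [← hminω, hμ]
    unfold minor
    rw [der_root hN H.hp0 H.hω0 hπN D₁, der_root hN H.hp0 H.hω0 hπN D₂]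
    field_simp
    ring
  refine ⟨π, hπC, -((l : KF N w) * π * algebraMap F (KF N w) θ * algebraMap F (KF N w) ω⁻¹ *
    algebraMap ℂ (KF N w) (d : ℂ)⁻¹ * u₁⁻¹), ?_, (N : KF N w) * algebraMap ℂ (KF N w) (d : ℂ)⁻¹ *
      u₁⁻¹, ?_, ?_⟩
  · refine Subalgebra.neg_mem _ (Subalgebra.mul_mem _ (Subalgebra.mul_mem _
      (Subalgebra.mul_mem _ (Subalgebra.mul_mem _ (Subalgebra.mul_mem _ (natCast_mem _ _) hπC)
      (alg_mem_intClos hθ)) (alg_mem_intClos H.hω')) (Subalgebra.algebraMap_mem _ _)) hu₁C')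
  · exact Subalgebra.mul_mem _ (Subalgebra.mul_mem _ (natCast_mem _ _)
      (Subalgebra.algebraMap_mem _ _)) hu₁C'
  · rw [hminπ, hu₁, map_inv₀, map_inv₀, map_inv₀, map_natCast, map_natCast]
    field_simp
    ring

end Der

end Chart

end Crest.Agent.R278
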