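import Crest.Agent.R278.Plane2Mult
import Crest.Agent.R278.Plane2Reg

/-!
Row 278 (S0421): sections and multipliers are regular on all charts.
-/

set_option autoImplicit false

namespace Crest.Agent.R278

open MvPolynomial

theorem X0_mem_mI (a b : ℂ) : (X 0 - C a : P2) ∈ mI a b := Ideal.subset_span (by simp)

theorem X1_mem_mI (a b : ℂ) : (X 1 - C b : P2) ∈ mI a b := Ideal.subset_span (by simp)

theorem deg_X0 (a : ℂ) : (X 0 - C a : P2).totalDegree ≤ 1 := by
  refine (totalDegree_sub_C_le _ _).trans ?_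
  rw [totalDegree_X]

theorem deg_X1 (a : ℂ) : (X 1 - C a : P2).totalDegree ≤ 1 := by
  refine (totalDegree_sub_C_le _ _).trans ?_
  rw [totalDegree_X]

theorem deg_pow_le {f : P2} (hf : f.totalDegree ≤ 1) (n : ℕ) : (f ^ n).totalDegree ≤ n :=
  (totalDegree_pow _ _).trans (by nlinarith)

theorem deg_prod_le {ι : Type*} (s : Finset ι) (f : ι → P2) (n : ι → ℕ)
    (h : ∀ i ∈ s, (f i).totalDegree ≤ n i) : (∏ i ∈ s, f i).totalDegree ≤ ∑ i ∈ s, n i :=
  (totalDegree_finsetProd _ _).trans (Finset.sum_le_sum h)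

namespace Plane2

variable (P : Plane2)

/-- A polynomial which is regular on all charts after division by `Θ ^ k`. -/
structure Reg (Q : P2) (k : ℕ) : Prop where
  deg : Q.totalDegree ≤ k * P.D
  mem : ∀ i, ∀ b ∈ P.S i, Q ∈ mI (P.a i) b ^ (k * P.M i b)

variable {F : Type} [Field F] [Algebra ℂ F] {x y : F}

theorem Reg.mem_chart {Q : P2} {k : ℕ} (hQ : P.Reg Q k) (h : RatCoord ℂ F x y) (l : P.L) :
    aeval ![x, y] Q / P.th x y ^ k ∈ chartRing ℂ (P.cp x l) (P.cq x y l) (P.ch x y l) := by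
  have hT := P.good.ne_zero
  match l with
  | Sum.inl 0 => exact reg_aff (a := P.a) h hT Q k
  | Sum.inl 1 => exact reg_inf (a := P.a) h hT hQ.deg
  | Sum.inr ⟨i, b, hb⟩ => exact reg_pt (a := P.a) (S := P.S) i h hT (hQ.mem i b hb)

/-- `∏ (MvPolynomial.X 0 - a_i) ^ μ_i` -/
noncomputable def pμ : P2 := ∏ i, (MvPolynomial.X 0 - C (P.a i)) ^ P.μ i

/-- the numerator of a point as a polynomial -/
noncomputable def pN (i : Fin P.r) (b : ℂ) : P2 :=
  (MvPolynomial.X 0 - C (P.a i)) ^ P.M i b * (∏ b' ∈ (P.S i).erase b, (MvPolynomial.X 1 - C b') ^ (P.M i b' - P.M i b)) *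
    ∏ k ∈ Finset.univ.erase i, (MvPolynomial.X 0 - C (P.a k)) ^ P.μ k

theorem ev_X0 (a : ℂ) : aeval ![x, y] (MvPolynomial.X 0 - C a : P2) = x - algebraMap ℂ F a := by
  rw [map_sub, aeval_X, aeval_C]; rfl

theorem ev_X1 (a : ℂ) : aeval ![x, y] (MvPolynomial.X 1 - C a : P2) = y - algebraMap ℂ F a := by
  rw [map_sub, aeval_X, aeval_C]; rfl

theorem ev_pμ : aeval ![x, y] P.pμ = P.Pμ x := by
  rw [pμ, Pμ, map_prod]
  exact Finset.prod_congr rfl fun i _ => by rw [map_pow, ev_X0, Plane2.X]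

theorem ev_pN (i : Fin P.r) (b : ℂ) : aeval ![x, y] (P.pN i b) = P.Nn x y i b := by
  rw [pN, Nn, map_mul, map_mul, map_pow, ev_X0, map_prod, map_prod]
  congr 1
  · congr 1
    exact Finset.prod_congr rfl fun b' _ => by rw [map_pow, ev_X1]
  · exact Finset.prod_congr rfl fun k _ => by rw [map_pow, ev_X0, Plane2.X]

theorem deg_pμ : P.pμ.totalDegree ≤ ∑ i, P.μ i :=
  deg_prod_le _ _ _ fun i _ => deg_pow_le (deg_X0 _) _

theorem deg_pN (i : Fin P.r) {b : ℂ} (hb : b ∈ P.S i) : (P.pN i b).totalDegree + 1 ≤ P.D := by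
  have h1 := P.hN i b hb
  have h2 : (P.pN i b).totalDegree ≤ P.M i b + ∑ b' ∈ (P.S i).erase b, (P.M i b' - P.M i b) +
      ∑ k ∈ Finset.univ.erase i, P.μ k :=
    (totalDegree_mul _ _).trans (add_le_add ((totalDegree_mul _ _).trans
      (add_le_add (deg_pow_le (deg_X0 _) _) (deg_prod_le _ _ _ fun b' _ => deg_pow_le (deg_X1 _) _)))
      (deg_prod_le _ _ _ fun k _ => deg_pow_le (deg_X0 _) _))
  omega

theorem mem_pμ (i : Fin P.r) {b : ℂ} (hb : b ∈ P.S i) : P.pμ ∈ mI (P.a i) b ^ P.M i b := by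
  rw [pμ, ← Finset.mul_prod_erase _ _ (Finset.mem_univ i)]
  exact Ideal.mul_mem_right _ _ (Ideal.pow_le_pow_right (P.hμ i b hb)
    (Ideal.pow_mem_pow (X0_mem_mI _ _) _))

theorem mem_pN (i : Fin P.r) {b : ℂ} (hb : b ∈ P.S i) (j : Fin P.r) {c : ℂ} (hc : c ∈ P.S j) :
    P.pN i b ∈ mI (P.a j) c ^ P.M j c := by
  classical
  rw [pN]
  by_cases hij : j = i
  · subst hij
    by_cases hbc : c = b
    · subst hbc
      exact Ideal.mul_mem_right _ _ (Ideal.mul_mem_right _ _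
        (Ideal.pow_mem_pow (X0_mem_mI _ _) _))
    · refine Ideal.mul_mem_right _ _ ?_
      rw [← Finset.mul_prod_erase ((P.S j).erase b) _ (Finset.mem_erase.2 ⟨hbc, hc⟩),
        ← mul_assoc]
      refine Ideal.mul_mem_right _ _ ?_
      have h1 : (MvPolynomial.X 0 - C (P.a j) : P2) ^ P.M j b * (MvPolynomial.X 1 - C c) ^ (P.M j c - P.M j b) ∈
          mI (P.a j) c ^ (P.M j b + (P.M j c - P.M j b)) := by
        rw [pow_add]
        exact Ideal.mul_mem_mul (Ideal.pow_mem_pow (X0_mem_mI _ _) _)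
          (Ideal.pow_mem_pow (X1_mem_mI _ _) _)
      exact Ideal.pow_le_pow_right (by omega) h1
  · rw [← Finset.mul_prod_erase (Finset.univ.erase i) _
      (Finset.mem_erase.2 ⟨hij, Finset.mem_univ j⟩)]
    refine Ideal.mul_mem_left _ _ (Ideal.mul_mem_right _ _ ?_)
    exact Ideal.pow_le_pow_right (P.hμ j c hc) (Ideal.pow_mem_pow (X0_mem_mI _ _) _)

theorem mem_pow_of_mem {I : Ideal P2} {f : P2} {m k : ℕ} (hf : f ∈ I ^ m) :
    f ^ k ∈ I ^ (k * m) := by
  rw [mul_comm, pow_mul]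
  exact Ideal.pow_mem_pow hf k

theorem sec_mem' (h : RatCoord ℂ F x y) (j : P.J) (l : P.L) :
    P.sec x y j ∈ chartRing ℂ (P.cp x l) (P.cq x y l) (P.ch x y l) := by
  have hD := P.hμD
  have hdeg := P.deg_pμ
  have key : ∀ (Q : P2) (q : F), aeval ![x, y] Q = q → Q.totalDegree ≤ P.D →
      (∀ i, ∀ b ∈ P.S i, Q ∈ mI (P.a i) b ^ P.M i b) →
      q / P.th x y ∈ chartRing ℂ (P.cp x l) (P.cq x y l) (P.ch x y l) := by
    rintro Q _ rfl hd hm
    have := Reg.mem_chart P (Q := Q) (k := 1) ⟨by rw [one_mul]; exact hd,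
      fun i b hb => by rw [one_mul]; exact hm i b hb⟩ h l
    rwa [pow_one] at this
  match j with
  | Sum.inl 0 =>
    exact key P.pμ _ P.ev_pμ (by omega) fun i b hb => P.mem_pμ i hb
  | Sum.inl 1 =>
    refine key (P.pμ * MvPolynomial.X 0 ^ P.n) _ (by rw [map_mul, ev_pμ, map_pow, aeval_X]; rfl) ?_
      fun i b hb => Ideal.mul_mem_right _ _ (P.mem_pμ i hb)
    have h1 := deg_pow_le (f := (MvPolynomial.X 0 : P2)) (by rw [totalDegree_X]) P.n
    have h2 := totalDegree_mul P.pμ ((MvPolynomial.X 0 : P2) ^ P.n)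
    have h3 : P.n = P.D - ∑ i, P.μ i := rfl
    omega
  | Sum.inl 2 =>
    refine key (P.pμ * MvPolynomial.X 0) _ (by rw [map_mul, ev_pμ, aeval_X]; rfl) ?_
      fun i b hb => Ideal.mul_mem_right _ _ (P.mem_pμ i hb)
    have h2 := totalDegree_mul P.pμ (MvPolynomial.X 0 : P2)
    rw [totalDegree_X] at h2
    omega
  | Sum.inl 3 =>
    refine key (P.pμ * MvPolynomial.X 1) _ (by rw [map_mul, ev_pμ, aeval_X]; rfl) ?_
      fun i b hb => Ideal.mul_mem_right _ _ (P.mem_pμ i hb)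
    have h2 := totalDegree_mul P.pμ (MvPolynomial.X 1 : P2)
    rw [totalDegree_X] at h2
    omega
  | Sum.inr ⟨i, b, hb⟩ =>
    refine key (P.pN i b) _ (P.ev_pN i b) ?_ fun j c hc => P.mem_pN i hb j hc
    have := P.deg_pN i hb
    omega

/-- the product of the arms as a polynomial -/
noncomputable def p1 (s : Finset (Fin P.r)) : P2 := ∏ i ∈ s, (MvPolynomial.X 0 - C (P.a i))

theorem ev_p1 (s : Finset (Fin P.r)) : aeval ![x, y] (P.p1 s) = ∏ i ∈ s, P.X x i := by
  rw [p1, map_prod]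
  exact Finset.prod_congr rfl fun i _ => by rw [ev_X0, Plane2.X]

theorem deg_p1 (s : Finset (Fin P.r)) : (P.p1 s).totalDegree ≤ s.card := by
  refine (deg_prod_le _ _ (fun _ => 1) fun i _ => deg_X0 _).trans ?_
  simp

theorem mlt_mem' (h : RatCoord ℂ F x y) (l l' : P.L) :
    P.mlt x y l ∈ chartRing ℂ (P.cp x l') (P.cq x y l') (P.ch x y l') := by
  have hD := P.hμD
  have hdeg := P.deg_pμ
  have hth : P.th x y ≠ 0 := h.aeval_ne P.good.ne_zero
  have hx := h.left_ne_zero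
  have key : ∀ (Q : P2) (q : F), aeval ![x, y] Q / P.th x y ^ P.kk = q →
      Q.totalDegree ≤ P.kk * P.D →
      (∀ i, ∀ b ∈ P.S i, Q ∈ mI (P.a i) b ^ (P.kk * P.M i b)) →
      q ∈ chartRing ℂ (P.cp x l') (P.cq x y l') (P.ch x y l') := by
    rintro Q _ rfl hd hm
    exact Reg.mem_chart P (Q := Q) (k := P.kk) ⟨hd, hm⟩ h l'
  have hcard : (Finset.univ : Finset (Fin P.r)).card = P.r := by simp
  have hkk : P.kk = P.r + (∑ i, (P.S i).card) + 1 := rfl
  match l with
  | Sum.inl 0 =>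
    refine key (P.pμ ^ P.kk * P.p1 Finset.univ) _ ?_ ?_
      fun i b hb => Ideal.mul_mem_right _ _ (mem_pow_of_mem (P.mem_pμ i hb))
    · rw [map_mul, map_pow, ev_pμ, ev_p1]
      change _ = (P.Pμ x / P.th x y) ^ P.kk * ∏ i, P.X x i
      rw [div_pow]; ring
    · have h1 := totalDegree_mul (P.pμ ^ P.kk) (P.p1 Finset.univ)
      have h2 := totalDegree_pow P.pμ P.kk
      have h3 := P.deg_p1 Finset.univ
      have h4 : P.kk * P.pμ.totalDegree + P.kk ≤ P.kk * P.D := by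
        have : P.kk * (P.pμ.totalDegree + 1) ≤ P.kk * P.D := Nat.mul_le_mul_left _ (by omega)
        linarith
      omega
  | Sum.inl 1 =>
    have hn : P.n = P.D - ∑ i, P.μ i := rfl
    have hrn : P.r ≤ P.kk * P.n := P.r_lt.le
    refine key (P.pμ ^ P.kk * (MvPolynomial.X 0 ^ (P.kk * P.n - P.r) * P.p1 Finset.univ)) _ ?_ ?_
      fun i b hb => Ideal.mul_mem_right _ _ (mem_pow_of_mem (P.mem_pμ i hb))
    · rw [map_mul, map_pow, ev_pμ, map_mul, ev_p1, map_pow, aeval_X]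
      change P.Pμ x ^ P.kk * (x ^ (P.kk * P.n - P.r) * ∏ i, P.X x i) / P.th x y ^ P.kk =
        (P.Pμ x * x ^ P.n / P.th x y) ^ P.kk * ((∏ i, P.X x i) / x ^ P.r)
      have h5 : (x ^ P.n) ^ P.kk = x ^ (P.kk * P.n - P.r) * x ^ P.r := by
        rw [← pow_mul, ← pow_add]
        congr 1
        rw [mul_comm P.n]
        omega
      rw [div_pow, mul_pow, h5]
      field_simp
    · have h1 := totalDegree_mul (P.pμ ^ P.kk) (MvPolynomial.X 0 ^ (P.kk * P.n - P.r) * P.p1 Finset.univ)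
      have h2 := totalDegree_pow P.pμ P.kk
      have h3 := P.deg_p1 Finset.univ
      have h6 := totalDegree_mul ((MvPolynomial.X 0 : P2) ^ (P.kk * P.n - P.r)) (P.p1 Finset.univ)
      have h7 := deg_pow_le (f := (MvPolynomial.X 0 : P2)) (by rw [totalDegree_X]) (P.kk * P.n - P.r)
      have h4 : P.kk * P.pμ.totalDegree + P.kk * P.n ≤ P.kk * P.D := by
        have : P.kk * (P.pμ.totalDegree + P.n) ≤ P.kk * P.D := Nat.mul_le_mul_left _ (by omega)
        linarith
      omega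
  | Sum.inr ⟨i, b, hb⟩ =>
    refine key (P.pN i b ^ P.kk * (∏ b' ∈ (P.S i).erase b, (MvPolynomial.X 1 - C b')) *
      P.p1 (Finset.univ.erase i)) _ ?_ ?_ fun j c hc => Ideal.mul_mem_right _ _
        (Ideal.mul_mem_right _ _ (mem_pow_of_mem (P.mem_pN i hb j hc)))
    · rw [map_mul, map_mul, map_pow, ev_pN, ev_p1, map_prod]
      change _ = (P.Nn x y i b / P.th x y) ^ P.kk *
        (∏ b' ∈ (P.S i).erase b, (y - algebraMap ℂ F b')) * ∏ k ∈ Finset.univ.erase i, P.X x k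
      have h1 : ∏ b' ∈ (P.S i).erase b, aeval ![x, y] (MvPolynomial.X 1 - C b' : P2) =
          ∏ b' ∈ (P.S i).erase b, (y - algebraMap ℂ F b') :=
        Finset.prod_congr rfl fun b' _ => ev_X1 b'
      rw [h1, div_pow]; ring
    · have h1 := totalDegree_mul (P.pN i b ^ P.kk * (∏ b' ∈ (P.S i).erase b, (MvPolynomial.X 1 - C b')))
        (P.p1 (Finset.univ.erase i))
      have h2 := totalDegree_mul (P.pN i b ^ P.kk) (∏ b' ∈ (P.S i).erase b, (MvPolynomial.X 1 - C b' : P2))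
      have h3 := totalDegree_pow (P.pN i b) P.kk
      have h4 := P.deg_p1 (Finset.univ.erase i)
      have h5 : (∏ b' ∈ (P.S i).erase b, (MvPolynomial.X 1 - C b' : P2)).totalDegree ≤
          ((P.S i).erase b).card := by
        refine (deg_prod_le _ _ (fun _ => 1) fun i _ => deg_X1 _).trans ?_
        simp
      have h6 : ((P.S i).erase b).card ≤ (P.S i).card := Finset.card_erase_le
      have h7 : (Finset.univ.erase i).card ≤ (Finset.univ : Finset (Fin P.r)).card :=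
        Finset.card_erase_le
      have h8 : (P.S i).card ≤ ∑ i, (P.S i).card :=
        Finset.single_le_sum (f := fun i => (P.S i).card) (fun _ _ => Nat.zero_le _)
          (Finset.mem_univ i)
      have h9 := P.deg_pN i hb
      have h10 : P.kk * (P.pN i b).totalDegree + P.kk ≤ P.kk * P.D := by
        have : P.kk * ((P.pN i b).totalDegree + 1) ≤ P.kk * P.D := Nat.mul_le_mul_left _ h9
        linarith
      omega

end Plane2

end Crest.Agent.R278
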