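import Mathlib
import Crest.Agent.R278.Cover

/-!
Row 278 (S0421): Seidenberg's lemma.  A derivation of a field `K ⊇ ℂ` which preserves a finitely
generated (more generally noetherian) `ℂ`-subalgebra `R` with fraction field `K'` preserves the
integral closure of `R` in its fraction field.
-/

set_option autoImplicit false

namespace Crest.Agent.R278

section

variable {K : Type*} [Field K] [Algebra ℂ K] (D : Derivation ℂ K K) (a : K)

/-- iterated differences of `D ^ n`. -/
noncomputable def iterDiff : ℕ → ℕ → K → K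
  | n, 0, d => (D^[n]) d
  | n, m + 1, d => iterDiff n m (a * d) - a * iterDiff n m d

theorem iterDiff_succ (n m : ℕ) : ∀ d : K,
    iterDiff D a (n + 1) m d = D (iterDiff D a n m d) + m * D a * iterDiff D a n (m - 1) d := by
  induction m with
  | zero =>
    intro d
    simp [iterDiff, Function.iterate_succ_apply']
  | succ m ih =>
    intro d
    have h1 : iterDiff D a (n + 1) (m + 1) d =
      iterDiff D a (n + 1) m (a * d) - a * iterDiff D a (n + 1) m d := rfl
    have h2 : iterDiff D a n (m + 1) d =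
      iterDiff D a n m (a * d) - a * iterDiff D a n m d := rfl
    rw [h1, ih, ih, h2, map_sub, D.leibniz, smul_eq_mul, smul_eq_mul, Nat.add_sub_cancel,
      Nat.cast_succ]
    rcases m with _ | m
    · simp; ring
    · have h3 : iterDiff D a n (m + 1) d =
        iterDiff D a n m (a * d) - a * iterDiff D a n m d := rfl
      rw [h3, Nat.add_sub_cancel]
      push_cast
      have h4 : iterDiff D a n (m + 1) (a * d) = iterDiff D a n m (a * (a * d)) -
        a * iterDiff D a n m (a * d) := rfl
      rw [h4]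
      ring

theorem iterDiff_zero (m : ℕ) : ∀ d : K, iterDiff D a 0 (m + 1) d = 0 := by
  induction m with
  | zero => intro d; simp [iterDiff]
  | succ m ih =>
    intro d
    have h1 : iterDiff D a 0 (m + 1 + 1) d =
      iterDiff D a 0 (m + 1) (a * d) - a * iterDiff D a 0 (m + 1) d := rfl
    rw [h1, ih, ih]; simp

theorem iterDiff_lt (n : ℕ) : ∀ m, n < m → ∀ d : K, iterDiff D a n m d = 0 := by
  induction n with
  | zero =>
    intro m hm d
    obtain ⟨k, rfl⟩ := Nat.exists_eq_succ_of_ne_zero hm.ne'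
    exact iterDiff_zero D a k d
  | succ n ih =>
    intro m hm d
    rw [iterDiff_succ, ih m (by omega), ih (m - 1) (by omega)]
    simp

theorem iterDiff_self (n : ℕ) : ∀ d : K, iterDiff D a n n d = n.factorial * (D a) ^ n * d := by
  induction n with
  | zero => intro d; simp [iterDiff]
  | succ n ih =>
    intro d
    rw [iterDiff_succ, iterDiff_lt D a n (n + 1) (by omega), map_zero, Nat.add_sub_cancel, ih,
      Nat.factorial_succ]
    push_cast
    ring

theorem iterDiff_mem (R : Subalgebra ℂ K) (hR : ∀ r ∈ R, D r ∈ R) {c : K}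
    (hc : ∀ i : ℕ, c * a ^ i ∈ R) (n m : ℕ) : ∀ j k : ℕ,
    c * a ^ j * iterDiff D a n m (c * a ^ k) ∈ R := by
  have hD : ∀ n : ℕ, ∀ r ∈ R, (D^[n]) r ∈ R := by
    intro n
    induction n with
    | zero => intro r hr; exact hr
    | succ n ih => intro r hr; rw [Function.iterate_succ_apply]; exact ih _ (hR r hr)
  induction m with
  | zero => intro j k; exact R.mul_mem (hc j) (hD n _ (hc k))
  | succ m ih =>
    intro j k
    have h1 : c * a ^ j * iterDiff D a n (m + 1) (c * a ^ k) =
      c * a ^ j * iterDiff D a n m (c * a ^ (k + 1)) -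
        c * a ^ (j + 1) * iterDiff D a n m (c * a ^ k) := by
      have : iterDiff D a n (m + 1) (c * a ^ k) =
        iterDiff D a n m (a * (c * a ^ k)) - a * iterDiff D a n m (c * a ^ k) := rfl
      rw [this]
      have h2 : a * (c * a ^ k) = c * a ^ (k + 1) := by ring
      rw [h2]; ring
    rw [h1]
    exact R.sub_mem (ih j (k + 1)) (ih (j + 1) k)

/-- Seidenberg's lemma for almost integral elements. -/
theorem seidenberg_almost (R : Subalgebra ℂ K) (hR : ∀ r ∈ R, D r ∈ R) {c : K}
    (hc : ∀ i : ℕ, c * a ^ i ∈ R) (n : ℕ) : c ^ 2 * (D a) ^ n ∈ R := by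
  have h1 := iterDiff_mem D a R hR hc n n 0 0
  rw [iterDiff_self, pow_zero, mul_one] at h1
  have h2 : c ^ 2 * (D a) ^ n = algebraMap ℂ K ((n.factorial : ℂ)⁻¹) *
      (c * (n.factorial * (D a) ^ n * c)) := by
    have h3 : (n.factorial : K) ≠ 0 := by
      have : CharZero K := charZero_of_injective_algebraMap (algebraMap ℂ K).injective
      exact_mod_cast n.factorial_ne_zero
    rw [map_inv₀, map_natCast]
    field_simp
  rw [h2]
  exact R.mul_mem (R.algebraMap_mem _) h1

end

section

variable {K : Type} [Field K] [Algebra ℂ K]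

/-- If `R` is noetherian, `c ≠ 0`, `c * b ^ n ∈ R` for all `n`, then `b` is integral over `R`. -/
theorem isIntegral_of_almost (R : Subalgebra ℂ K) [IsNoetherianRing R] {c b : K} (hc0 : c ≠ 0)
    (hc : ∀ n : ℕ, c * b ^ n ∈ R) : IsIntegral R b := by
  -- the `R`-module `c⁻¹ R` is noetherian and contains `R[b]`
  have hfg : (Submodule.span R {c⁻¹} : Submodule R K).FG := Submodule.fg_span_singleton _
  have : IsNoetherian R (Submodule.span R {c⁻¹} : Submodule R K) :=
    isNoetherian_of_fg_of_noetherian _ hfg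
  have hle : Subalgebra.toSubmodule (Algebra.adjoin R {b}) ≤ Submodule.span R {c⁻¹} := by
    rw [Algebra.adjoin_eq_span, Submodule.span_le]
    intro z hz
    have hz' : z ∈ Submonoid.powers b := by
      rw [← Submonoid.powers_eq_closure] at hz
      exact hz
    obtain ⟨n, rfl⟩ := hz'
    refine Submodule.mem_span_singleton.2 ⟨⟨c * b ^ n, hc n⟩, ?_⟩
    rw [Subalgebra.smul_def, smul_eq_mul]
    change c * b ^ n * c⁻¹ = b ^ n
    field_simp
  refine IsIntegral.of_mem_of_fg (Algebra.adjoin R {b}) ?_ b (Algebra.subset_adjoin rfl)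
  exact isNoetherian_submodule.1 this _ hle

/-- **Seidenberg's lemma.** -/
theorem seidenberg (R : Subalgebra ℂ K) [IsNoetherianRing R]
    (hfrac : ∀ k : K, ∃ a ∈ R, ∃ b ∈ R, b ≠ 0 ∧ k = a / b) (D : Derivation ℂ K K)
    (hR : ∀ r ∈ R, D r ∈ R) (k : K) (hk : IsIntegral R k) : IsIntegral R (D k) := by
  obtain ⟨a, ha, b, hb, hb0, hkab⟩ := hfrac k
  -- `k` is almost integral
  have h1 : IsAlmostIntegral R k := by
    refine hk.isAlmostIntegral_of_exists_smul_mem_range ⟨⟨b, hb⟩, ?_, ?_⟩
    · rw [mem_nonZeroDivisors_iff_ne_zero]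
      exact fun h => hb0 (congrArg Subtype.val h)
    · refine ⟨⟨a, ha⟩, ?_⟩
      rw [Subalgebra.smul_def, smul_eq_mul, hkab]
      change a = b * (a / b)
      field_simp
  obtain ⟨c, hc0, hc⟩ := h1
  have hc0' : (c : K) ≠ 0 := fun h => nonZeroDivisors.ne_zero hc0 (Subtype.ext h)
  have hc' : ∀ i : ℕ, (c : K) * k ^ i ∈ R := by
    intro i
    obtain ⟨r, hr⟩ := hc i
    rw [Subalgebra.smul_def, smul_eq_mul] at hr
    rw [← hr]
    exact r.2
  exact isIntegral_of_almost R (c := (c : K) ^ 2) (pow_ne_zero 2 hc0')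
    fun n => seidenberg_almost D k R hR hc' n

/-- a derivation preserving the algebra generated by `G` from its values on `G`. -/
theorem der_adjoin_mem (G : Set K) (D : Derivation ℂ K K)
    (hD : ∀ g ∈ G, D g ∈ Algebra.adjoin ℂ G) : ∀ r ∈ Algebra.adjoin ℂ G, D r ∈ Algebra.adjoin ℂ G := by
  intro r hr
  induction hr using Algebra.adjoin_induction with
  | mem z hz => exact hD z hz
  | algebraMap c => rw [D.map_algebraMap]; exact Subalgebra.zero_mem _
  | add a b _ _ ha hb => rw [map_add]; exact Subalgebra.add_mem _ ha hb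
  | mul a b ha' hb' ha hb =>
    rw [D.leibniz, smul_eq_mul, smul_eq_mul]
    exact Subalgebra.add_mem _ (Subalgebra.mul_mem _ ha' hb) (Subalgebra.mul_mem _ hb' ha)

/-- **Seidenberg's lemma** in terms of generators: if `D` maps the finite set `G` into `ℂ[G]` and
`K` is the fraction field of `ℂ[G]`, then `D` preserves the integral closure of `ℂ[G]`. -/
theorem intClos_der_mem_of_gens (G : Set K) (hG : G.Finite)
    (hfrac : ∀ k : K, ∃ a ∈ Algebra.adjoin ℂ G, ∃ b ∈ Algebra.adjoin ℂ G, b ≠ 0 ∧ k = a / b)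
    (D : Derivation ℂ K K) (hD : ∀ g ∈ G, D g ∈ Algebra.adjoin ℂ G) :
    ∀ k ∈ intClos G, D k ∈ intClos G := by
  have hft : Algebra.FiniteType ℂ (Algebra.adjoin ℂ G) :=
    (Subalgebra.fg_iff_finiteType _).1 ((Subalgebra.fg_def).2 ⟨_, hG, rfl⟩)
  have : IsNoetherianRing (Algebra.adjoin ℂ G) :=
    Algebra.FiniteType.isNoetherianRing ℂ (Algebra.adjoin ℂ G)
  intro k hk
  rw [mem_intClos] at hk ⊢
  exact seidenberg _ hfrac D (der_adjoin_mem G D hD) k hk

end

end Crest.Agent.R278
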