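import Crest.Agent.R278.FinalForm
import Crest.Agent.R278.Radical

/-!
Row 278 (S0421): the certificate for `K = F(g₁, g₂)`, `g_i ^ N = w_i`, `F = ℂ(x,y)`; every
condition is stated in `F`.
-/

set_option autoImplicit false

namespace Crest.Agent.R278

open MvPolynomial

section Comap

variable {F K : Type} [Field F] [Field K] [Algebra F K]

theorem comap_le_iff (V : ValuationSubring K) (a b : F) :
    V.valuation (algebraMap F K a) ≤ V.valuation (algebraMap F K b) ↔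
      (V.comap (algebraMap F K)).valuation a ≤ (V.comap (algebraMap F K)).valuation b := by
  rw [ValuationSubring.valuation_le_iff, ValuationSubring.valuation_le_iff]
  by_cases hb : b = 0
  · subst hb
    constructor
    · rintro ⟨c, hc⟩
      rw [map_zero, mul_zero] at hc
      exact ⟨0, by rw [mul_zero]; exact ((map_eq_zero _).1 hc.symm).symm⟩
    · rintro ⟨c, hc⟩
      rw [mul_zero] at hc
      exact ⟨0, by rw [← hc, map_zero, mul_zero]⟩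
  · have hb' : algebraMap F K b ≠ 0 := by rwa [Ne, map_eq_zero]
    constructor
    · rintro ⟨c, hc⟩
      have h1 : algebraMap F K (a / b) = c := by
        rw [map_div₀, ← hc, mul_div_cancel_right₀ _ hb']
      exact ⟨⟨a / b, by rw [ValuationSubring.mem_comap, h1]; exact c.2⟩, div_mul_cancel₀ _ hb⟩
    · rintro ⟨c, hc⟩
      exact ⟨⟨algebraMap F K c, c.2⟩, by rw [← map_mul, hc]⟩

theorem comap_lt_iff (V : ValuationSubring K) (a b : F) :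
    V.valuation (algebraMap F K a) < V.valuation (algebraMap F K b) ↔
      (V.comap (algebraMap F K)).valuation a < (V.comap (algebraMap F K)).valuation b := by
  rw [← not_le, ← not_le, comap_le_iff]

theorem comap_eq_iff (V : ValuationSubring K) (a b : F) :
    V.valuation (algebraMap F K a) = V.valuation (algebraMap F K b) ↔
      (V.comap (algebraMap F K)).valuation a = (V.comap (algebraMap F K)).valuation b := by
  rw [le_antisymm_iff, le_antisymm_iff, comap_le_iff, comap_le_iff]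

theorem IsVE.comap [Algebra ℂ F] [Algebra ℂ K] [IsScalarTower ℂ F K] {V : ValuationSubring K}
    {x y : F} (h : IsVE V (algebraMap F K x) (algebraMap F K y)) :
    IsVE (V.comap (algebraMap F K)) x y := by
  constructor
  · intro p hp
    have h1 := h.const p hp
    rw [Polynomial.aeval_algebraMap_apply, ← map_one V.valuation, ← map_one (algebraMap F K),
      comap_eq_iff, map_one] at h1
    exact h1
  · have h1 := h.pole
    rw [← map_one V.valuation, ← map_one (algebraMap F K), comap_lt_iff, map_one] at h1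
    exact h1

end Comap

section Data

variable {F : Type} [Field F] [Algebra ℂ F]

/-- The data of a chart, for `D_i = r_i g_i V_i`, `g_i ^ N = w_i`. -/
structure ChartData (N : ℕ) (w₁ w₂ : F) (V₁ V₂ : Derivation ℂ F F) (r₁ r₂ : F) where
  p : F
  q : F
  h : F
  hc : RatCoord ℂ F p q
  hh : h ∈ polyRing ℂ p q
  h0 : h ≠ 0
  e₁ : F
  e₂ : F
  ω₁ : F
  ω₂ : F
  ρ₁ : ℤ
  ρ₂ : ℤ
  he₁ : e₁ ≠ 0
  he₂ : e₂ ≠ 0
  hω₁ : ω₁ ∈ chartRing ℂ p q h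
  hω₁' : ω₁⁻¹ ∈ chartRing ℂ p q h
  hω₂ : ω₂ ∈ chartRing ℂ p q h
  hω₂' : ω₂⁻¹ ∈ chartRing ℂ p q h
  hω₁0 : ω₁ ≠ 0
  hω₂0 : ω₂ ≠ 0
  hw₁ : e₁ ^ N * w₁ = p ^ ρ₁ * ω₁
  hw₂ : e₂ ^ N * w₂ = p ^ ρ₂ * ω₂
  hd : (ρ₁ = 0 ∧ ρ₂ = 0) ∨ h / p ∉ polyRing ℂ p q
  d : ℕ
  hd0 : 0 < d
  hdN : d ∣ N
  hd₁ : (d : ℤ) ∣ ρ₁
  hd₂ : (d : ℤ) ∣ ρ₂
  hπ : ∃ (a : ℤ) (c₁ c₂ : Fin N), N * a + (((c₁ : ℕ) : ℤ) * ρ₁ + ((c₂ : ℕ) : ℤ) * ρ₂) = d
  i₁ : ℤ
  j₁ : ℤ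
  i₂ : ℤ
  j₂ : ℤ
  k : ℤ
  h1p : r₁ * V₁ p / e₁ / p ^ i₁ ∈ chartRing ℂ p q h
  h1q : r₁ * V₁ q / e₁ / p ^ j₁ ∈ chartRing ℂ p q h
  h2p : r₂ * V₂ p / e₂ / p ^ i₂ ∈ chartRing ℂ p q h
  h2q : r₂ * V₂ q / e₂ / p ^ j₂ ∈ chartRing ℂ p q h
  hi₁ : 0 ≤ N * (i₁ - 1) + ρ₁ + d
  hj₁ : 0 ≤ N * j₁ + ρ₁
  hi₂ : 0 ≤ N * (i₂ - 1) + ρ₂ + d
  hj₂ : 0 ≤ N * j₂ + ρ₂
  hM0 : r₁ * r₂ * (V₁ p * V₂ q - V₁ q * V₂ p) ≠ 0
  hM : r₁ * r₂ * (V₁ p * V₂ q - V₁ q * V₂ p) / (e₁ * e₂) / p ^ k ∈ chartRing ℂ p q h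
  hM' : (r₁ * r₂ * (V₁ p * V₂ q - V₁ q * V₂ p) / (e₁ * e₂) / p ^ k)⁻¹ ∈ chartRing ℂ p q h
  hk : N * k + (ρ₁ + ρ₂) = N - d

end Data

section Final

variable {F : Type} [Field F] [Algebra ℂ F] [Algebra (MvPolynomial (Fin 2) ℂ) F]
  [IsScalarTower ℂ (MvPolynomial (Fin 2) ℂ) F] [IsFractionRing (MvPolynomial (Fin 2) ℂ) F]

/-- **The certificate for S0421, two radicals, all conditions in `F = ℂ(x,y)`.** -/
theorem concl_of_chartData {N : ℕ} [NeZero N] {w₁ w₂ : F} (hw₁ : w₁ ≠ 0) (hw₂ : w₂ ≠ 0)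
    (V₁ V₂ : Derivation ℂ F F) (r₁ r₂ : F)
    {ι J : Type*} [Finite ι] [Nonempty ι] [Finite J]
    (C : ι → ChartData N w₁ w₂ V₁ V₂ r₁ r₂)
    -- the sections
    (f : J → F) (hf : ∀ j l, f j ∈ chartRing ℂ (C l).p (C l).q (C l).h)
    (hgen : IntermediateField.adjoin ℂ (Set.range f) = ⊤)
    (hcov : ∀ V : ValuationSubring F, (∀ c : ℂ, algebraMap ℂ F c ∈ V) → (∀ j, f j ∈ V) →
      (∃ j, f j ≠ 0 ∧ (f j)⁻¹ ∈ V) → ∃ l, (C l).p ∈ V ∧ (C l).q ∈ V ∧ ((C l).h)⁻¹ ∈ V)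
    -- the multipliers
    (b : ι → F) (hb : ∀ l l', b l ∈ chartRing ℂ (C l').p (C l').q (C l').h)
    (hb0 : ∀ l, b l ≠ 0)
    (hbi : ∀ l, (b l)⁻¹ ∈ chartRing ℂ (C l).p (C l).q (C l).h)
    (hbV : ∀ l, ∀ V : ValuationSubring F, (∀ c : ℂ, algebraMap ℂ F c ∈ V) → (∀ j, f j ∈ V) →
      b l ∈ V → (b l)⁻¹ ∈ V → (C l).p ∈ V ∧ (C l).q ∈ V ∧ ((C l).h)⁻¹ ∈ V)
    -- the valuation at `E`
    (hE : ∀ V : ValuationSubring F, IsVE V (xF F) (yF F) → (∀ j, f j ∈ V) ∧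
      V.valuation ((r₁ * V₁ (xF F)) ^ N * w₁) < 1 ∧
      V.valuation ((r₁ * V₁ (yF F)) ^ N * w₁) < V.valuation (yF F) ^ N) : Concl := by
  have hN : 0 < N := Nat.pos_of_ne_zero (NeZero.ne N)
  have hw : ∀ i, (![w₁, w₂] : Fin 2 → F) i ≠ 0 := by
    intro i; fin_cases i
    · exact hw₁
    · exact hw₂
  have S := radSys (N := N) (![w₁, w₂] : Fin 2 → F) hw
  set G₁ : radField N ![w₁, w₂] := radGen (N := N) ![w₁, w₂] 0 with hG₁
  set G₂ : radField N ![w₁, w₂] := radGen (N := N) ![w₁, w₂] 1 with hG₂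
  have hp1 : G₁ ^ N = algebraMap F _ w₁ := radGen_pow (N := N) ![w₁, w₂] 0
  have hp2 : G₂ ^ N = algebraMap F _ w₂ := radGen_pow (N := N) ![w₁, w₂] 1
  have hm1 : ∀ l, Mono N (C l).p (C l).q (C l).h G₁ (C l).e₁ (C l).ω₁ (C l).ρ₁ := fun l =>
    Mono.of_eq (C l).he₁ (C l).hω₁ (C l).hω₁' (C l).hω₁0 hp1 (C l).hw₁
  have hm2 : ∀ l, Mono N (C l).p (C l).q (C l).h G₂ (C l).e₂ (C l).ω₂ (C l).ρ₂ := fun l =>
    Mono.of_eq (C l).he₂ (C l).hω₂ (C l).hω₂' (C l).hω₂0 hp2 (C l).hw₂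
  have hmon : ∀ c : Fin 2 → Fin N, radMon (N := N) ![w₁, w₂] c = G₁ ^ (c 0 : ℕ) * G₂ ^ (c 1 : ℕ) :=
    fun c => by rw [radMon, Fin.prod_univ_two]
  refine concl_of_radSys (K := radField N ![w₁, w₂]) hN S V₁ V₂ G₁ G₂ r₁ r₂
    (fun l => (C l).p) (fun l => (C l).q) (fun l => (C l).h) (fun l => (C l).hc)
    (fun l => (C l).hh) (fun l => (C l).h0)
    (fun l c => (C l).e₁ ^ (c 0 : ℕ) * (C l).e₂ ^ (c 1 : ℕ))
    (fun l c => (C l).ω₁ ^ (c 0 : ℕ) * (C l).ω₂ ^ (c 1 : ℕ))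
    (fun l c => ((c 0 : ℕ) : ℤ) * (C l).ρ₁ + ((c 1 : ℕ) : ℤ) * (C l).ρ₂)
    (fun l c => by
      rw [hmon]
      exact ((hm1 l).npow (C l).hc.left_ne_zero _).mul (C l).hc.left_ne_zero
        ((hm2 l).npow (C l).hc.left_ne_zero _))
    (fun l => by
      rcases (C l).hd with ⟨h1, h2⟩ | h1
      · left; intro c; rw [h1, h2]; simp
      · exact Or.inr h1)
    (fun l => (C l).d) (fun l => (C l).hd0) (fun l => (C l).hdN)
    (fun l c => dvd_add (Dvd.dvd.mul_left (C l).hd₁ _) (Dvd.dvd.mul_left (C l).hd₂ _))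
    (fun l => by
      obtain ⟨a, c₁, c₂, h1⟩ := (C l).hπ
      exact ⟨a, ![c₁, c₂], h1⟩)
    (fun l => (C l).e₁) (fun l => (C l).e₂) (fun l => (C l).ω₁) (fun l => (C l).ω₂)
    (fun l => (C l).ρ₁) (fun l => (C l).ρ₂) hm1 hm2 f hf hgen hcov b hb hb0 hbi hbV
    (fun l => (C l).i₁) (fun l => (C l).j₁) (fun l => (C l).i₂) (fun l => (C l).j₂)
    (fun l => (C l).k) (fun l => (C l).h1p) (fun l => (C l).h1q) (fun l => (C l).h2p)
    (fun l => (C l).h2q) (fun l => (C l).hi₁) (fun l => (C l).hj₁) (fun l => (C l).hi₂)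
    (fun l => (C l).hj₂) (fun l => (C l).hM0) (fun l => (C l).hM) (fun l => (C l).hM')
    (fun l => (C l).hk) ?_
  intro V hV
  obtain ⟨h1, h2, h3⟩ := hE _ hV.comap
  refine ⟨h1, ?_, ?_⟩
  · rw [← pow_lt_one_iff_of_nonneg zero_le hN.ne', ← map_pow, mul_pow, hp1, ← map_pow, ← map_mul,
      ← map_one V.valuation, ← map_one (algebraMap F (radField N ![w₁, w₂])), comap_lt_iff,
      map_one]
    exact h2
  · rw [← pow_lt_pow_iff_left₀ zero_le zero_le hN.ne', ← map_pow, ← map_pow, mul_pow, hp1,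
      ← map_pow, ← map_mul, ← map_pow, comap_lt_iff, map_pow]
    exact h3

end Final

end Crest.Agent.R278
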